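import Mathlib

open Finset

namespace Vale.Agent.Lib.P249L

/-- The sign attached to a Boolean. -/
def sgn (b : Bool) : ℝ := if b then 1 else -1

lemma sgn_half (b c : Bool) : (sgn b - sgn c) / 2 = 0 ∨ (sgn b - sgn c) / 2 = 1 ∨
    (sgn b - sgn c) / 2 = -1 := by
  cases b <;> cases c <;> norm_num [sgn]

lemma sgn_half_ne {b c : Bool} (h : b ≠ c) : (sgn b - sgn c) / 2 ≠ 0 := by
  cases b <;> cases c <;> first | exact absurd rfl h | norm_num [sgn]

section subgaussian

variable {U : Type*} [Fintype U] [DecidableEq U]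

/-- The signed sum of the entries of `v` along the sign pattern `σ`. -/
noncomputable def sx (v : U → ℝ) (σ : U → Bool) : ℝ := ∑ k, sgn (σ k) * v k

lemma sum_exp_sx (v : U → ℝ) (t : ℝ) :
    ∑ σ : U → Bool, Real.exp (t * sx v σ) ≤
      (2:ℝ) ^ Fintype.card U * Real.exp (t ^ 2 * (∑ k, v k ^ 2) / 2) := by
  have h1 : ∑ σ : U → Bool, Real.exp (t * sx v σ) =
      ∏ k, ∑ b : Bool, Real.exp (t * (sgn b * v k)) := by
    rw [Finset.prod_univ_sum, Fintype.piFinset_univ]
    apply Finset.sum_congr rfl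
    intro σ _
    rw [sx, Finset.mul_sum, Real.exp_sum]
  rw [h1]
  have h2 : ∀ k, ∑ b : Bool, Real.exp (t * (sgn b * v k)) ≤
      2 * Real.exp ((t * v k) ^ 2 / 2) := by
    intro k
    have hc := Real.cosh_le_exp_half_sq (t * v k)
    rw [Real.cosh_eq] at hc
    simp only [Fintype.sum_bool, sgn, if_true, Bool.false_eq_true, if_false]
    have e1 : t * (1 * v k) = t * v k := by ring
    have e2 : t * (-1 * v k) = -(t * v k) := by ring
    rw [e1, e2]
    linarith
  calc ∏ k, ∑ b : Bool, Real.exp (t * (sgn b * v k))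
      ≤ ∏ k : U, (2 * Real.exp ((t * v k) ^ 2 / 2)) :=
        Finset.prod_le_prod (fun k _ => Finset.sum_nonneg (fun _ _ => (Real.exp_pos _).le))
          (fun k _ => h2 k)
    _ = (2:ℝ) ^ Fintype.card U * Real.exp (t ^ 2 * (∑ k, v k ^ 2) / 2) := by
        rw [Finset.prod_mul_distrib, Finset.prod_const, Finset.card_univ, ← Real.exp_sum]
        congr 2
        rw [Finset.mul_sum, Finset.sum_div]
        apply Finset.sum_congr rfl
        intro k _
        ring

lemma sum_exp_neg_sx (v : U → ℝ) (t : ℝ) :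
    ∑ σ : U → Bool, Real.exp (-(t * sx v σ)) ≤
      (2:ℝ) ^ Fintype.card U * Real.exp (t ^ 2 * (∑ k, v k ^ 2) / 2) := by
  have h := sum_exp_sx (fun k => - v k) t
  have e : ∑ k, (- v k) ^ 2 = ∑ k, v k ^ 2 := by
    apply Finset.sum_congr rfl
    intro k _
    ring
  rw [e] at h
  refine le_trans (le_of_eq ?_) h
  apply Finset.sum_congr rfl
  intro σ _
  congr 1
  unfold sx
  rw [← mul_neg, ← Finset.sum_neg_distrib]
  congr 1
  apply Finset.sum_congr rfl
  intro k _
  ring

/-- Two sided exponential moment of a signed sum. -/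
lemma sum_exp_abs_sx (v : U → ℝ) (t : ℝ) :
    ∑ σ : U → Bool, Real.exp (t * |sx v σ|) ≤
      2 * ((2:ℝ) ^ Fintype.card U * Real.exp (t ^ 2 * (∑ k, v k ^ 2) / 2)) := by
  have h1 := sum_exp_sx v t
  have h2 := sum_exp_neg_sx v t
  have h3 : ∑ σ : U → Bool, Real.exp (t * |sx v σ|) ≤
      ∑ σ : U → Bool, (Real.exp (t * sx v σ) + Real.exp (-(t * sx v σ))) := by
    apply Finset.sum_le_sum
    intro σ _
    rcases abs_cases (sx v σ) with ⟨h, _⟩ | ⟨h, _⟩
    · rw [h]
      have := Real.exp_pos (-(t * sx v σ))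
      linarith
    · rw [h]
      have := Real.exp_pos (t * sx v σ)
      have e : t * -sx v σ = -(t * sx v σ) := by ring
      rw [e]
      linarith
  rw [Finset.sum_add_distrib] at h3
  linarith

end subgaussian

/-- An injective code of the integers by natural numbers, with `0` as code of `0`. -/
def zcode (z : ℤ) : ℕ := 2 * z.natAbs + (if z < 0 then 1 else 0)

lemma zcode_inj : Function.Injective zcode := by
  intro a b h
  unfold zcode at h
  split_ifs at h <;> omega

lemma zcode_ge {z : ℤ} (hz : z ≠ 0) : 2 ≤ zcode z := by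
  unfold zcode
  have : 1 ≤ z.natAbs := by
    have := Int.natAbs_pos.mpr hz
    omega
  omega

lemma zcode_le (z : ℤ) : (zcode z : ℝ) ≤ 2 * |(z:ℝ)| + 1 := by
  unfold zcode
  have h1 : ((if z < 0 then 1 else 0 : ℕ) : ℝ) ≤ 1 := by
    split_ifs <;> simp
  have h2 : ((z.natAbs : ℕ) : ℝ) = |(z:ℝ)| := by
    rw [Nat.cast_natAbs]
    simp
  push_cast
  push_cast at h1
  rw [h2] at *
  linarith

/-- The sum of `2^{-code}` over a finite set of nonzero integers is at most one. -/
lemma sum_zcode_le (A : Finset ℤ) :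
    ∑ z ∈ A.filter (· ≠ 0), ((1:ℝ) / 2) ^ zcode z ≤ 1 := by
  classical
  set B := A.filter (· ≠ 0) with hB
  have h1 : ∑ z ∈ B, ((1:ℝ) / 2) ^ zcode z = ∑ c ∈ B.image zcode, ((1:ℝ) / 2) ^ c := by
    rw [Finset.sum_image (fun a _ b _ h => zcode_inj h)]
  rw [h1]
  set C := B.image zcode with hC
  have h2 : ∀ c ∈ C, 2 ≤ c := by
    intro c hc
    obtain ⟨z, hz, rfl⟩ := Finset.mem_image.mp hc
    exact zcode_ge (Finset.mem_filter.mp hz).2
  -- compare with a geometric sum
  obtain ⟨N, hN⟩ : ∃ N, ∀ c ∈ C, c < N + 2 := by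
    refine ⟨C.sup id + 1, ?_⟩
    intro c hc
    have : c ≤ C.sup id := Finset.le_sup (f := id) hc
    omega
  have h3 : ∑ c ∈ C, ((1:ℝ) / 2) ^ c ≤ ∑ i ∈ Finset.range N, ((1:ℝ) / 2) ^ (i + 2) := by
    have h4 : ∑ i ∈ Finset.range N, ((1:ℝ) / 2) ^ (i + 2) =
        ∑ c ∈ (Finset.range N).image (· + 2), ((1:ℝ) / 2) ^ c := by
      rw [Finset.sum_image (fun a _ b _ h => by simpa using h)]
    rw [h4]
    apply Finset.sum_le_sum_of_subset_of_nonneg
    · intro c hc
      have h5 := h2 c hc
      have h6 := hN c hc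
      refine Finset.mem_image.mpr ⟨c - 2, Finset.mem_range.mpr (by omega), by omega⟩
    · intro _ _ _
      positivity
  refine le_trans h3 ?_
  have h7 : ∑ i ∈ Finset.range N, ((1:ℝ) / 2) ^ (i + 2) =
      (1 / 4) * ∑ i ∈ Finset.range N, ((1:ℝ) / 2) ^ i := by
    rw [Finset.mul_sum]
    apply Finset.sum_congr rfl
    intro i _
    rw [pow_add]
    ring
  rw [h7]
  have h8 := sum_geometric_two_le N
  linarith


section codes

variable {U : Type*} [Fintype U] [DecidableEq U]

/-- The cost of one linear constraint in the partial colouring lemma. -/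
noncomputable def cost (v : U → ℝ) (Δ : ℝ) : ℝ :=
  if ∑ k, v k ^ 2 = 0 then 0 else 6 * Real.exp (-(Δ ^ 2 / (4 * ∑ k, v k ^ 2)))

omit [DecidableEq U] in
lemma cost_nonneg (v : U → ℝ) (Δ : ℝ) : 0 ≤ cost v Δ := by
  unfold cost
  split_ifs
  · exact le_rfl
  · positivity

/-- The rounded value of the signed sum. -/
noncomputable def zval (v : U → ℝ) (Δ : ℝ) (σ : U → Bool) : ℤ := round (sx v σ / (2 * Δ))

lemma exists_code (v : U → ℝ) {Δ : ℝ} (hΔ : 0 < Δ) (hy : 4 * ∑ k, v k ^ 2 ≤ Δ ^ 2) :
    ∃ ℓ : ℤ → ℝ, (∀ σ, 0 ≤ ℓ (zval v Δ σ)) ∧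
      (∑ z ∈ Finset.univ.image (zval v Δ), Real.exp (-ℓ z) ≤ 1) ∧
      ∑ σ : U → Bool, ℓ (zval v Δ σ) ≤ (2:ℝ) ^ Fintype.card U * cost v Δ := by
  classical
  have hs0 : 0 ≤ ∑ k, v k ^ 2 := Finset.sum_nonneg (fun _ _ => by positivity)
  by_cases hs : ∑ k, v k ^ 2 = 0
  · -- the zero vector
    have hv : ∀ k, v k = 0 := by
      intro k
      have := (Finset.sum_eq_zero_iff_of_nonneg (fun k _ => by positivity)).mp hs k
        (Finset.mem_univ k)
      simpa using this
    have hz : ∀ σ, zval v Δ σ = 0 := by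
      intro σ
      simp [zval, sx, hv]
    refine ⟨fun _ => 0, fun _ => le_rfl, ?_, ?_⟩
    · have : Finset.univ.image (zval v Δ) = {0} := by
        ext z
        simp only [Finset.mem_image, Finset.mem_univ, true_and, Finset.mem_singleton]
        constructor
        · rintro ⟨σ, rfl⟩
          exact hz σ
        · rintro rfl
          exact ⟨fun _ => true, hz _⟩
      rw [this]
      simp
    · simp [cost, hs]
  · have hs1 : 0 < ∑ k, v k ^ 2 := lt_of_le_of_ne hs0 (Ne.symm hs)
    set s2 := ∑ k, v k ^ 2 with hs2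
    set b := Δ ^ 2 / (4 * s2) with hb
    have hb1 : 1 ≤ b := by
      rw [hb, one_le_div (by positivity)]
      exact hy
    set ξ := Real.exp (-b) with hξ
    have hξ0 : 0 < ξ := Real.exp_pos _
    have hξ1 : ξ ≤ 1 / 2 := by
      have h1 : (2:ℝ) ≤ Real.exp b := by
        have := Real.add_one_le_exp b
        linarith
      rw [hξ, Real.exp_neg, one_div]
      exact inv_anti₀ (by norm_num) h1
    have hlog : -Real.log (1 - ξ) ≤ 2 * ξ := by
      have h1 := Real.one_sub_inv_le_log_of_pos (show 0 < 1 - ξ by linarith)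
      have h2 : (1 - ξ)⁻¹ ≤ 1 + 2 * ξ := by
        rw [inv_le_iff_one_le_mul₀ (by linarith)]
        nlinarith
      linarith
    have hlog0 : 0 ≤ -Real.log (1 - ξ) := by
      have := Real.log_nonpos (show 0 ≤ 1 - ξ by linarith) (by linarith)
      linarith
    have hlog2 : 0 < Real.log 2 := Real.log_pos (by norm_num)
    have hlog2' : Real.log 2 ≤ 1 := by
      have := Real.log_two_lt_d9
      linarith
    refine ⟨fun z => if z = 0 then -Real.log (1 - ξ) else b + zcode z * Real.log 2, ?_, ?_, ?_⟩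
    · intro σ
      dsimp only
      split_ifs
      · exact hlog0
      · positivity
    · -- Kraft
      set A := Finset.univ.image (zval v Δ) with hA
      have h1 : ∀ z ∈ A.filter (· ≠ 0),
          Real.exp (-(if z = 0 then -Real.log (1 - ξ) else b + zcode z * Real.log 2)) =
            ξ * ((1:ℝ) / 2) ^ zcode z := by
        intro z hz
        rw [if_neg (Finset.mem_filter.mp hz).2, neg_add, Real.exp_add]
        congr 1
        rw [← Real.rpow_natCast, Real.rpow_def_of_pos (by norm_num), Real.log_div (by norm_num)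
          (by norm_num), Real.log_one]
        congr 1
        ring
      have h2 : ∑ z ∈ A.filter (· ≠ 0),
          Real.exp (-(if z = 0 then -Real.log (1 - ξ) else b + zcode z * Real.log 2)) ≤ ξ := by
        rw [Finset.sum_congr rfl h1, ← Finset.mul_sum]
        have := sum_zcode_le A
        nlinarith
      have h3 : ∑ z ∈ A.filter (fun z => ¬ (z ≠ 0)),
          Real.exp (-(if z = 0 then -Real.log (1 - ξ) else b + zcode z * Real.log 2)) ≤ 1 - ξ := by
        have hsub : A.filter (fun z => ¬ (z ≠ 0)) ⊆ {0} := by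
          intro z hz
          have := (Finset.mem_filter.mp hz).2
          simp only [ne_eq, not_not] at this
          simp [this]
        refine le_trans (Finset.sum_le_sum_of_subset_of_nonneg hsub
          (fun _ _ _ => (Real.exp_pos _).le)) ?_
        simp only [Finset.sum_singleton, if_true, neg_neg]
        rw [Real.exp_log (by linarith)]
      rw [← Finset.sum_filter_add_sum_filter_not A (· ≠ 0)]
      linarith
    · -- expectation
      have hcost : cost v Δ = 6 * ξ := by
        simp [cost, hs, hξ, hb, ← hs2]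
      rw [hcost]
      set u : (U → Bool) → ℝ := fun σ => |sx v σ| / Δ with hu
      have hpt : ∀ σ, (if zval v Δ σ = 0 then -Real.log (1 - ξ)
          else b + zcode (zval v Δ σ) * Real.log 2) ≤
          2 * ξ + (b + 3) * Real.exp (4 * b * (u σ - 1)) := by
        intro σ
        have hexp0 := Real.exp_pos (4 * b * (u σ - 1))
        have hb0 : 0 < b := by linarith
        split_ifs with hz
        · have : 0 ≤ (b + 3) * Real.exp (4 * b * (u σ - 1)) := by positivity
          linarith
        · -- the rounded value is nonzero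
          set y := sx v σ / (2 * Δ) with hy'
          have hyu : |y| = u σ / 2 := by
            rw [hy', abs_div, abs_of_pos (by positivity : (0:ℝ) < 2 * Δ), hu]
            field_simp
          have hr := abs_sub_round y
          have hz' : (zval v Δ σ : ℝ) = (round y : ℝ) := rfl
          have hz1 : (1:ℝ) ≤ |(round y : ℝ)| := by
            have h1 : round y ≠ 0 := hz
            have h2 : (1:ℤ) ≤ |round y| := Int.one_le_abs h1
            exact_mod_cast h2
          have hu1 : 1 ≤ u σ := by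
            have h1 : |(round y : ℝ)| ≤ |y| + 1 / 2 := by
              have := abs_sub_abs_le_abs_sub (round y : ℝ) y
              rw [abs_sub_comm] at this
              linarith
            rw [hyu] at h1
            linarith
          have hc : (zcode (zval v Δ σ) : ℝ) ≤ 3 * u σ := by
            have h1 := zcode_le (zval v Δ σ)
            rw [hz'] at h1
            have h2 : |(round y : ℝ)| ≤ |y| + 1 / 2 := by
              have := abs_sub_abs_le_abs_sub (round y : ℝ) y
              rw [abs_sub_comm] at this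
              linarith
            rw [hyu] at h2
            linarith
          have h3 : (zcode (zval v Δ σ) : ℝ) * Real.log 2 ≤ 3 * u σ := by
            have h0 : (0:ℝ) ≤ zcode (zval v Δ σ) := by positivity
            nlinarith
          have h4 : u σ ≤ Real.exp (4 * b * (u σ - 1)) := by
            have h5 : u σ - 1 ≤ 4 * b * (u σ - 1) := by nlinarith
            have h6 := Real.add_one_le_exp (4 * b * (u σ - 1))
            linarith
          have h7 : 1 ≤ Real.exp (4 * b * (u σ - 1)) := le_trans hu1 h4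
          nlinarith
      have hsum : ∑ σ : U → Bool, Real.exp (4 * b * (u σ - 1)) ≤
          2 * ((2:ℝ) ^ Fintype.card U * Real.exp (-(2 * b))) := by
        have h1 := sum_exp_abs_sx v (4 * b / Δ)
        have e1 : ∀ σ : U → Bool, Real.exp (4 * b * (u σ - 1)) =
            Real.exp (-(4 * b)) * Real.exp (4 * b / Δ * |sx v σ|) := by
          intro σ
          rw [← Real.exp_add]
          congr 1
          rw [hu]
          field_simp
          ring
        rw [Finset.sum_congr rfl (fun σ _ => e1 σ), ← Finset.mul_sum]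
        have e2 : (4 * b / Δ) ^ 2 * s2 / 2 = 2 * b := by
          have hb' : b * (4 * s2) = Δ ^ 2 := by
            rw [hb]
            field_simp
          have hΔ2 : Δ ^ 2 ≠ 0 := by positivity
          field_simp
          nlinarith
        rw [e2] at h1
        have e3 : Real.exp (-(2 * b)) = Real.exp (-(4 * b)) * Real.exp (2 * b) := by
          rw [← Real.exp_add]
          congr 1
          ring
        rw [e3]
        have h4 := mul_le_mul_of_nonneg_left h1 (Real.exp_pos (-(4 * b))).le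
        nlinarith
      have hkey : (b + 3) * Real.exp (-(2 * b)) ≤ 2 * ξ := by
        have h1 : Real.exp (-(2 * b)) = ξ * ξ := by
          rw [hξ, ← Real.exp_add]
          congr 1
          ring
        have h2 : (b + 3) * ξ ≤ 2 := by
          have h3 := Real.add_one_le_exp b
          have h4 : ξ * Real.exp b = 1 := by
            rw [hξ, ← Real.exp_add]
            simp
          have h5 : (b + 3) ≤ 2 * Real.exp b := by linarith
          calc (b + 3) * ξ ≤ (2 * Real.exp b) * ξ := mul_le_mul_of_nonneg_right h5 hξ0.le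
            _ = 2 := by rw [mul_assoc, mul_comm (Real.exp b), h4]; ring
        rw [h1]
        nlinarith
      calc ∑ σ : U → Bool, (if zval v Δ σ = 0 then -Real.log (1 - ξ)
            else b + zcode (zval v Δ σ) * Real.log 2)
          ≤ ∑ σ : U → Bool, (2 * ξ + (b + 3) * Real.exp (4 * b * (u σ - 1))) :=
            Finset.sum_le_sum (fun σ _ => hpt σ)
        _ = (2:ℝ) ^ Fintype.card U * (2 * ξ) +
              (b + 3) * ∑ σ : U → Bool, Real.exp (4 * b * (u σ - 1)) := by
            rw [Finset.sum_add_distrib, Finset.sum_const, Finset.card_univ,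
              Fintype.card_fun, Fintype.card_bool, nsmul_eq_mul, ← Finset.mul_sum]
            push_cast
            ring
        _ ≤ (2:ℝ) ^ Fintype.card U * (2 * ξ) +
              (b + 3) * (2 * ((2:ℝ) ^ Fintype.card U * Real.exp (-(2 * b)))) := by
            have : 0 < b + 3 := by linarith
            nlinarith
        _ ≤ (2:ℝ) ^ Fintype.card U * (6 * ξ) := by
            have h2m : (0:ℝ) < (2:ℝ) ^ Fintype.card U := by positivity
            have := mul_le_mul_of_nonneg_left hkey h2m.le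
            nlinarith

end codes


section pigeon

/-- The pigeonhole principle with code lengths (a weighted form of the entropy method). -/
lemma pigeon {Sig A : Type*} [Fintype Sig] [DecidableEq Sig] [Fintype A] [DecidableEq A]
    (Z : A → Sig → ℤ) (ℓ : A → ℤ → ℝ) {B : ℝ} (hB : 0 < B)
    (h1 : ∀ α σ, 0 ≤ ℓ α (Z α σ))
    (h2 : ∀ α, ∑ z ∈ Finset.univ.image (Z α), Real.exp (-ℓ α z) ≤ 1)
    (h3 : ∑ α, ∑ σ, ℓ α (Z α σ) ≤ (Fintype.card Sig : ℝ) * B) [Nonempty Sig] :
    ∃ σ₀, (Fintype.card Sig : ℝ) * Real.exp (-(2 * B)) / 2 ≤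
      ((Finset.univ.filter (fun σ => ∀ α, Z α σ = Z α σ₀)).card : ℝ) := by
  classical
  set L : Sig → ℝ := fun σ => ∑ α, ℓ α (Z α σ) with hL
  have hL0 : ∀ σ, 0 ≤ L σ := fun σ => Finset.sum_nonneg (fun α _ => h1 α σ)
  have hsum : ∑ σ, L σ ≤ (Fintype.card Sig : ℝ) * B := by
    rw [hL, Finset.sum_comm]
    exact h3
  set G := Finset.univ.filter (fun σ => L σ ≤ 2 * B) with hG
  set Gc := Finset.univ.filter (fun σ => ¬ (L σ ≤ 2 * B)) with hGc
  have hcards : (G.card : ℝ) + (Gc.card : ℝ) = Fintype.card Sig := by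
    have := Finset.card_filter_add_card_filter_not (s := (Finset.univ : Finset Sig))
      (fun σ => L σ ≤ 2 * B)
    rw [Finset.card_univ] at this
    exact_mod_cast this
  have hGc2 : (Gc.card : ℝ) * (2 * B) ≤ (Fintype.card Sig : ℝ) * B := by
    calc (Gc.card : ℝ) * (2 * B) = ∑ σ ∈ Gc, (2 * B) := by
          rw [Finset.sum_const, nsmul_eq_mul]
      _ ≤ ∑ σ ∈ Gc, L σ := by
          apply Finset.sum_le_sum
          intro σ hσ
          have := (Finset.mem_filter.mp hσ).2
          linarith [not_le.mp this]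
      _ ≤ ∑ σ, L σ := Finset.sum_le_sum_of_subset_of_nonneg (Finset.subset_univ _)
          (fun σ _ _ => hL0 σ)
      _ ≤ _ := hsum
  have hcardpos : (0:ℝ) < Fintype.card Sig := by
    exact_mod_cast Fintype.card_pos
  have hGlarge : (Fintype.card Sig : ℝ) / 2 ≤ G.card := by
    have : (Gc.card : ℝ) * 2 ≤ Fintype.card Sig := by
      have h5 : ((Gc.card : ℝ) * 2) * B ≤ (Fintype.card Sig : ℝ) * B := by linarith
      exact le_of_mul_le_mul_right h5 hB
    linarith
  have hGne : G.Nonempty := by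
    rw [← Finset.card_pos]
    have : (0:ℝ) < G.card := by linarith
    exact_mod_cast this
  set f : Sig → (A → ℤ) := fun σ α => Z α σ with hf
  set T := G.image f with hT
  set P := Fintype.piFinset (fun α => Finset.univ.image (Z α)) with hP
  have hTP : T ⊆ P := by
    intro z hz
    obtain ⟨σ, -, rfl⟩ := Finset.mem_image.mp hz
    exact Fintype.mem_piFinset.mpr (fun α => Finset.mem_image_of_mem _ (Finset.mem_univ σ))
  have hkraft : ∑ z ∈ P, ∏ α, Real.exp (-ℓ α (z α)) ≤ 1 := by
    have hpu := Finset.prod_univ_sum (fun α => Finset.univ.image (Z α))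
      (fun α z => Real.exp (-ℓ α z))
    rw [hP, ← hpu]
    exact Finset.prod_le_one (fun α _ => Finset.sum_nonneg (fun _ _ => (Real.exp_pos _).le))
      (fun α _ => h2 α)
  have hTcard : (T.card : ℝ) * Real.exp (-(2 * B)) ≤ 1 := by
    calc (T.card : ℝ) * Real.exp (-(2 * B)) = ∑ z ∈ T, Real.exp (-(2 * B)) := by
          rw [Finset.sum_const, nsmul_eq_mul]
      _ ≤ ∑ z ∈ T, ∏ α, Real.exp (-ℓ α (z α)) := by
          apply Finset.sum_le_sum
          intro z hz
          obtain ⟨σ, hσ, rfl⟩ := Finset.mem_image.mp hz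
          rw [← Real.exp_sum]
          apply Real.exp_le_exp.mpr
          have h5 := (Finset.mem_filter.mp hσ).2
          have h6 : ∑ α, -ℓ α (f σ α) = - L σ := by
            rw [hL, Finset.sum_neg_distrib]
          rw [h6]
          linarith
      _ ≤ ∑ z ∈ P, ∏ α, Real.exp (-ℓ α (z α)) :=
          Finset.sum_le_sum_of_subset_of_nonneg hTP
            (fun z _ _ => Finset.prod_nonneg (fun _ _ => (Real.exp_pos _).le))
      _ ≤ 1 := hkraft
  set b := (Fintype.card Sig : ℝ) * Real.exp (-(2 * B)) / 2 with hb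
  have hTne : T.Nonempty := hGne.image f
  have hnsmul : T.card • b ≤ (G.card : ℝ) := by
    rw [nsmul_eq_mul, hb]
    have h7 : (T.card : ℝ) * ((Fintype.card Sig : ℝ) * Real.exp (-(2 * B)) / 2) =
        ((T.card : ℝ) * Real.exp (-(2 * B))) * ((Fintype.card Sig : ℝ) / 2) := by ring
    rw [h7]
    calc ((T.card : ℝ) * Real.exp (-(2 * B))) * ((Fintype.card Sig : ℝ) / 2)
        ≤ 1 * ((Fintype.card Sig : ℝ) / 2) :=
          mul_le_mul_of_nonneg_right hTcard (by positivity)
      _ ≤ _ := by linarith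
  obtain ⟨y, hy, hyb⟩ := Finset.exists_le_card_fiber_of_nsmul_le_card_of_maps_to
    (fun σ hσ => Finset.mem_image_of_mem f hσ) hTne hnsmul
  obtain ⟨σ₀, -, rfl⟩ := Finset.mem_image.mp hy
  refine ⟨σ₀, le_trans hyb ?_⟩
  have hsub : (G.filter (fun x => f x = f σ₀)) ⊆
      Finset.univ.filter (fun σ => ∀ α, Z α σ = Z α σ₀) := by
    intro σ hσ
    have h8 := (Finset.mem_filter.mp hσ).2
    refine Finset.mem_filter.mpr ⟨Finset.mem_univ _, fun α => ?_⟩
    exact congrFun h8 α
  exact_mod_cast Finset.card_le_card hsub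

end pigeon

section hamming

variable {U : Type*} [Fintype U] [DecidableEq U]

omit [DecidableEq U] in
/-- A large set of sign patterns contains two patterns which differ at many places. -/
lemma exists_far (S : Finset (U → Bool)) (k : ℕ)
    (hS : ((9:ℝ) / 8) ^ Fintype.card U * (8:ℝ) ^ k < (S.card : ℝ)) :
    ∃ σ ∈ S, ∃ σ' ∈ S, k < (Finset.univ.filter (fun i => σ i ≠ σ' i)).card := by
  classical
  have hpos : (0:ℝ) < S.card := lt_trans (by positivity) hS
  have hne : S.Nonempty := by
    rw [← Finset.card_pos]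
    exact_mod_cast hpos
  obtain ⟨σ, hσ⟩ := hne
  by_contra hcon
  push Not at hcon
  have hall : ∀ σ' ∈ S, (Finset.univ.filter (fun i => σ i ≠ σ' i)).card ≤ k := hcon σ hσ
  set D : (U → Bool) → Finset U := fun σ' => Finset.univ.filter (fun i => σ i ≠ σ' i) with hD
  have hinj : Set.InjOn D S := by
    intro a _ b _ hab
    funext i
    have h1 : i ∈ D a ↔ i ∈ D b := by rw [hab]
    simp only [hD, Finset.mem_filter, Finset.mem_univ, true_and] at h1
    cases ha : a i <;> cases hb : b i <;> cases hs : σ i <;> simp_all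
  set W := (Finset.univ : Finset U).powerset.filter (fun t => t.card ≤ k) with hW
  have hmaps : ∀ σ' ∈ S, D σ' ∈ W := by
    intro σ' hσ'
    exact Finset.mem_filter.mpr ⟨Finset.mem_powerset.mpr (Finset.subset_univ _), hall σ' hσ'⟩
  have hcard : S.card ≤ W.card := Finset.card_le_card_of_injOn D hmaps hinj
  have hWbound : (W.card : ℝ) ≤ ((9:ℝ) / 8) ^ Fintype.card U * (8:ℝ) ^ k := by
    have h1 : ∑ t ∈ (Finset.univ : Finset U).powerset,
        ((1:ℝ) / 8) ^ t.card * (1:ℝ) ^ ((Finset.univ : Finset U).card - t.card) =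
        ((1:ℝ) / 8 + 1) ^ (Finset.univ : Finset U).card :=
      Finset.sum_pow_mul_eq_add_pow _ _ _
    have h2 : (W.card : ℝ) * ((1:ℝ) / 8) ^ k ≤ ((1:ℝ) / 8 + 1) ^ (Finset.univ : Finset U).card := by
      rw [← h1]
      calc (W.card : ℝ) * ((1:ℝ) / 8) ^ k = ∑ t ∈ W, ((1:ℝ) / 8) ^ k := by
            rw [Finset.sum_const, nsmul_eq_mul]
        _ ≤ ∑ t ∈ W, ((1:ℝ) / 8) ^ t.card * (1:ℝ) ^ ((Finset.univ : Finset U).card - t.card) := by
            apply Finset.sum_le_sum
            intro t ht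
            have := (Finset.mem_filter.mp ht).2
            simp only [one_pow, mul_one]
            exact pow_le_pow_of_le_one (by norm_num) (by norm_num) this
        _ ≤ _ := Finset.sum_le_sum_of_subset_of_nonneg (Finset.filter_subset _ _)
            (fun _ _ _ => by positivity)
    have h3 : ((1:ℝ) / 8 + 1) = 9 / 8 := by norm_num
    rw [h3, Finset.card_univ] at h2
    have h4 : ((1:ℝ) / 8) ^ k * (8:ℝ) ^ k = 1 := by
      rw [← mul_pow]
      norm_num
    calc (W.card : ℝ) = ((W.card : ℝ) * ((1:ℝ) / 8) ^ k) * (8:ℝ) ^ k := by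
          rw [mul_assoc, h4, mul_one]
      _ ≤ _ := mul_le_mul_of_nonneg_right h2 (by positivity)
  have : (S.card : ℝ) ≤ W.card := by exact_mod_cast hcard
  linarith

end hamming

section coloring

variable {U A : Type*} [Fintype U] [DecidableEq U] [Fintype A] [DecidableEq A]

/-- The numerical inequality behind the partial colouring lemma. -/
lemma numeric_coloring (m : ℕ) (hm : 16 ≤ m) :
    ((9:ℝ) / 8) ^ m * (8:ℝ) ^ (m / 16) <
      (2:ℝ) ^ m * Real.exp (-(2 * ((m:ℝ) / 10))) / 2 := by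
  set k := m / 16 with hk
  have hk1 : 1 ≤ k := by omega
  have hmk : 16 * k ≤ m := by omega
  have h1 : ((4:ℝ) / 5) ^ m ≤ Real.exp (-(2 * ((m:ℝ) / 10))) := by
    have h2 : (4:ℝ) / 5 ≤ Real.exp (-(1 / 5)) := by
      have := Real.add_one_le_exp (-(1 / 5 : ℝ))
      linarith
    calc ((4:ℝ) / 5) ^ m ≤ (Real.exp (-(1 / 5))) ^ m :=
          pow_le_pow_left₀ (by norm_num) h2 m
      _ = _ := by
          rw [← Real.exp_nat_mul]
          congr 1
          ring
  have h3 : (32:ℝ) ≤ ((64:ℝ) / 45) ^ 16 := by norm_num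
  have h4 : (32:ℝ) ^ k ≤ ((64:ℝ) / 45) ^ m := by
    calc (32:ℝ) ^ k ≤ (((64:ℝ) / 45) ^ 16) ^ k := pow_le_pow_left₀ (by norm_num) h3 k
      _ = ((64:ℝ) / 45) ^ (16 * k) := by rw [pow_mul]
      _ ≤ _ := pow_le_pow_right₀ (by norm_num) hmk
  have h5 : 2 * (8:ℝ) ^ k < (32:ℝ) ^ k := by
    have h6 : (32:ℝ) ^ k = (8:ℝ) ^ k * (4:ℝ) ^ k := by
      rw [← mul_pow]
      norm_num
    have h7 : (4:ℝ) ≤ (4:ℝ) ^ k := by
      calc (4:ℝ) = (4:ℝ) ^ 1 := by norm_num
        _ ≤ _ := pow_le_pow_right₀ (by norm_num) hk1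
    have h8 : (0:ℝ) < (8:ℝ) ^ k := by positivity
    rw [h6]
    nlinarith
  have h9 : ((9:ℝ) / 8) ^ m * ((64:ℝ) / 45) ^ m = (2:ℝ) ^ m * ((4:ℝ) / 5) ^ m := by
    rw [← mul_pow, ← mul_pow]
    norm_num
  have h10 : (0:ℝ) < ((9:ℝ) / 8) ^ m := by positivity
  have h11 : (2:ℝ) ^ m * ((4:ℝ) / 5) ^ m ≤ (2:ℝ) ^ m * Real.exp (-(2 * ((m:ℝ) / 10))) :=
    mul_le_mul_of_nonneg_left h1 (by positivity)
  have h12 : ((9:ℝ) / 8) ^ m * (2 * (8:ℝ) ^ k) < ((9:ℝ) / 8) ^ m * ((64:ℝ) / 45) ^ m :=
    mul_lt_mul_of_pos_left (lt_of_lt_of_le h5 h4) h10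
  linarith

/-- **Partial colouring lemma** (Beck's entropy method). -/
theorem partial_coloring (v : A → U → ℝ) (Δ : A → ℝ) (hΔ : ∀ α, 0 < Δ α)
    (hy : ∀ α, 4 * ∑ k, v α k ^ 2 ≤ Δ α ^ 2)
    (hm : 16 ≤ Fintype.card U)
    (hcost : ∑ α, cost (v α) (Δ α) ≤ (Fintype.card U : ℝ) / 10) :
    ∃ χ : U → ℝ, (∀ k, χ k = 0 ∨ χ k = 1 ∨ χ k = -1) ∧
      (Fintype.card U : ℝ) / 16 ≤ ((Finset.univ.filter (fun k => χ k ≠ 0)).card : ℝ) ∧
      ∀ α, |∑ k, χ k * v α k| ≤ Δ α := by
  classical
  set m := Fintype.card U with hmdef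
  choose ℓ hℓ0 hℓ1 hℓ2 using fun α => exists_code (v α) (hΔ α) (hy α)
  set B : ℝ := (m:ℝ) / 10 with hB
  have hB0 : 0 < B := by
    have : (16:ℝ) ≤ m := by exact_mod_cast hm
    rw [hB]
    linarith
  have hcardsig : (Fintype.card (U → Bool) : ℝ) = (2:ℝ) ^ m := by
    rw [Fintype.card_fun, Fintype.card_bool]
    push_cast
    rfl
  have h3 : ∑ α, ∑ σ, ℓ α (zval (v α) (Δ α) σ) ≤ (Fintype.card (U → Bool) : ℝ) * B := by
    rw [hcardsig]
    calc ∑ α, ∑ σ, ℓ α (zval (v α) (Δ α) σ) ≤ ∑ α, (2:ℝ) ^ m * cost (v α) (Δ α) :=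
          Finset.sum_le_sum (fun α _ => hℓ2 α)
      _ = (2:ℝ) ^ m * ∑ α, cost (v α) (Δ α) := by rw [Finset.mul_sum]
      _ ≤ _ := mul_le_mul_of_nonneg_left hcost (by positivity)
  obtain ⟨σ₀, hσ₀⟩ := pigeon (fun α => zval (v α) (Δ α)) ℓ hB0 hℓ0 hℓ1 h3
  rw [hcardsig] at hσ₀
  set S := Finset.univ.filter (fun σ => ∀ α, zval (v α) (Δ α) σ = zval (v α) (Δ α) σ₀) with hS
  have hnum := numeric_coloring m hm
  obtain ⟨σ, hσ, σ', hσ', hfar⟩ := exists_far S (m / 16) (lt_of_lt_of_le hnum hσ₀)
  refine ⟨fun k => (sgn (σ k) - sgn (σ' k)) / 2, ?_, ?_, ?_⟩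
  · intro k
    exact sgn_half _ _
  · have hsub : Finset.univ.filter (fun i => σ i ≠ σ' i) ⊆
        Finset.univ.filter (fun k => (sgn (σ k) - sgn (σ' k)) / 2 ≠ 0) := by
      intro i hi
      have h1 := (Finset.mem_filter.mp hi).2
      refine Finset.mem_filter.mpr ⟨Finset.mem_univ _, ?_⟩
      exact sgn_half_ne h1
    have h2 := Finset.card_le_card hsub
    have h3 : (m:ℝ) / 16 ≤ ((m / 16 : ℕ) : ℝ) + 1 := by
      have h4 : m < 16 * (m / 16) + 16 := by omega
      have h5 : (m:ℝ) < 16 * ((m / 16 : ℕ) : ℝ) + 16 := by exact_mod_cast h4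
      linarith
    have h6 : (((m / 16 : ℕ) : ℝ) + 1) ≤ (Finset.univ.filter (fun i => σ i ≠ σ' i)).card := by
      exact_mod_cast hfar
    have h7 : ((Finset.univ.filter (fun i => σ i ≠ σ' i)).card : ℝ) ≤
        (Finset.univ.filter (fun k => (sgn (σ k) - sgn (σ' k)) / 2 ≠ 0)).card := by
      exact_mod_cast h2
    linarith
  · intro α
    have hz1 := (Finset.mem_filter.mp hσ).2 α
    have hz2 := (Finset.mem_filter.mp hσ').2 α
    have hzz : zval (v α) (Δ α) σ = zval (v α) (Δ α) σ' := by rw [hz1, hz2]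
    have hΔα := hΔ α
    set x := sx (v α) σ with hx
    set x' := sx (v α) σ' with hx'
    have e : ∑ k, (sgn (σ k) - sgn (σ' k)) / 2 * v α k = (x - x') / 2 := by
      rw [hx, hx', sx, sx, ← Finset.sum_sub_distrib, Finset.sum_div]
      apply Finset.sum_congr rfl
      intro k _
      ring
    rw [e]
    have h1 := abs_sub_round (x / (2 * Δ α))
    have h2 := abs_sub_round (x' / (2 * Δ α))
    have hzz' : round (x / (2 * Δ α)) = round (x' / (2 * Δ α)) := hzz
    rw [hzz'] at h1
    have h3 : |x / (2 * Δ α) - x' / (2 * Δ α)| ≤ 1 := by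
      have h4 := abs_sub_le (x / (2 * Δ α)) (round (x' / (2 * Δ α)) : ℝ) (x' / (2 * Δ α))
      rw [abs_sub_comm (round (x' / (2 * Δ α)) : ℝ)] at h4
      linarith
    rw [← sub_div, abs_div, abs_of_pos (by positivity : (0:ℝ) < 2 * Δ α),
      div_le_one (by positivity)] at h3
    rw [abs_div, abs_of_pos (by norm_num : (0:ℝ) < 2)]
    linarith

end coloring

end Vale.Agent.Lib.P249L
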