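import Mathlib
import Vale.Agent.Lib.P249L.Coloring

open Finset

namespace Vale.Agent.Lib.P249L

/-- The entry `x` lies in the dyadic level `ℓ` below the height `h`. -/
abbrev InLev (h x : ℝ) (ℓ : ℕ) : Prop := h * (1 / 2) ^ (ℓ + 1) < |x| ∧ |x| ≤ h * (1 / 2) ^ ℓ

/-- The part of `x` in the level `ℓ`. -/
noncomputable def lv (h x : ℝ) (ℓ : ℕ) : ℝ := if InLev h x ℓ then x else 0

lemma inLev_exists {h x : ℝ} (hh : 0 < h) (hx0 : x ≠ 0) (hx : |x| ≤ h) : ∃ ℓ, InLev h x ℓ := by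
  have hx1 : 0 < |x| := abs_pos.mpr hx0
  have hy : 0 < |x| / h := div_pos hx1 hh
  obtain ⟨n, hn1, hn2⟩ := exists_nat_pow_near_of_lt_one hy ((div_le_one hh).mpr hx)
    (by norm_num : (0:ℝ) < 1 / 2) (by norm_num : (1:ℝ) / 2 < 1)
  refine ⟨n, ?_, ?_⟩
  · rw [lt_div_iff₀ hh] at hn1
    linarith
  · rw [div_le_iff₀ hh] at hn2
    linarith

lemma inLev_unique {h x : ℝ} (hh : 0 < h) {a b : ℕ} (ha : InLev h x a) (hb : InLev h x b) :
    a = b := by
  by_contra hne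
  wlog hab : a < b generalizing a b
  · exact this hb ha (Ne.symm hne) (lt_of_le_of_ne (not_lt.mp hab) (Ne.symm hne))
  have h1 : ((1:ℝ) / 2) ^ b ≤ (1 / 2) ^ (a + 1) :=
    pow_le_pow_of_le_one (by norm_num) (by norm_num) hab
  have h2 := ha.1
  have h3 := hb.2
  have h4 : h * ((1:ℝ) / 2) ^ b ≤ h * (1 / 2) ^ (a + 1) := mul_le_mul_of_nonneg_left h1 hh.le
  linarith

lemma sum_lv {h x : ℝ} (hh : 0 < h) (hx : |x| ≤ h) {L₀ : ℕ}
    (hL₀ : x ≠ 0 → ∃ ℓ < L₀, InLev h x ℓ) :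
    ∑ ℓ ∈ Finset.range L₀, lv h x ℓ = x := by
  by_cases hx0 : x = 0
  · subst hx0
    apply Finset.sum_eq_zero
    intro ℓ _
    simp [lv]
  · obtain ⟨ℓ, hℓ, hin⟩ := hL₀ hx0
    rw [Finset.sum_eq_single ℓ]
    · unfold lv
      rw [if_pos hin]
    · intro b _ hb
      unfold lv
      rw [if_neg]
      intro hb'
      exact hb (inLev_unique hh hb' hin)
    · intro hℓ'
      exact absurd (Finset.mem_range.mpr hℓ) hℓ'

lemma sum_geom_le (r : ℝ) (hr0 : 0 ≤ r) (hr1 : r < 1) (n : ℕ) :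
    ∑ i ∈ Finset.range n, r ^ i ≤ 1 / (1 - r) := by
  rw [geom_sum_eq (ne_of_lt hr1)]
  have h1 : (r ^ n - 1) / (r - 1) = (1 - r ^ n) / (1 - r) := by
    rw [← neg_div_neg_eq]
    ring_nf
  rw [h1]
  apply div_le_div_of_nonneg_right _ (by linarith)
  have h3 : 0 ≤ r ^ n := pow_nonneg hr0 n
  linarith

/-- The bound for one constraint of the array lemma. -/
lemma cost_le_of_bound {U : Type*} [Fintype U] (v : U → ℝ) {Δ N a b : ℝ} (q : ℕ) (hq : 1 ≤ q)
    (hΔ : 0 < Δ) (hN : 0 ≤ N) (ha : 0 ≤ a) (hb : 0 ≤ b)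
    (h1 : ∑ k, v k ^ 2 ≤ N * a * Δ ^ 2) (h2 : ∑ k, v k ^ 2 ≤ b * Δ ^ 2) :
    cost v Δ ≤ 6 * (q.factorial : ℝ) * 4 ^ q * (N * a * b ^ (q - 1)) := by
  unfold cost
  split_ifs with hs
  · positivity
  · have hs0 : 0 < ∑ k, v k ^ 2 := by
      have : 0 ≤ ∑ k, v k ^ 2 := Finset.sum_nonneg (fun _ _ => by positivity)
      exact lt_of_le_of_ne this (Ne.symm hs)
    set s2 := ∑ k, v k ^ 2 with hs2
    set y := s2 / Δ ^ 2 with hy
    have hΔ2 : 0 < Δ ^ 2 := by positivity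
    have hy0 : 0 < y := div_pos hs0 hΔ2
    have hy1 : y ≤ N * a := by
      rw [hy, div_le_iff₀ hΔ2]
      exact h1
    have hy2 : y ≤ b := by
      rw [hy, div_le_iff₀ hΔ2]
      exact h2
    set x := Δ ^ 2 / (4 * s2) with hx
    have hx0 : 0 < x := by positivity
    have hxy : x = 1 / (4 * y) := by
      rw [hx, hy]
      field_simp
    have hexp : Real.exp (-x) ≤ q.factorial * (4 * y) ^ q := by
      have h3 := Real.pow_div_factorial_le_exp x hx0.le q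
      rw [Real.exp_neg]
      have hfac : (0:ℝ) < q.factorial := by exact_mod_cast Nat.factorial_pos q
      have h4 : x ^ q * (4 * y) ^ q = 1 := by
        rw [← mul_pow, hxy]
        have : 1 / (4 * y) * (4 * y) = 1 := by field_simp
        rw [this, one_pow]
      have h5 : 0 < x ^ q := by positivity
      have h6 : (x ^ q)⁻¹ = (4 * y) ^ q := by
        field_simp
        linarith
      have h7 : x ^ q / (q.factorial : ℝ) ≤ Real.exp x := h3
      rw [div_le_iff₀ hfac] at h7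
      rw [inv_le_comm₀ (Real.exp_pos _) (by positivity)]
      rw [mul_inv, ← h6, inv_inv]
      rw [← div_eq_inv_mul]
      rw [div_le_iff₀ hfac]
      linarith
    have hpow : y ^ q ≤ N * a * b ^ (q - 1) := by
      obtain ⟨r, rfl⟩ : ∃ r, q = r + 1 := ⟨q - 1, by omega⟩
      rw [pow_succ', Nat.add_sub_cancel]
      exact mul_le_mul hy1 (pow_le_pow_left₀ hy0.le hy2 r) (by positivity) (by positivity)
    have hfac : (0:ℝ) ≤ q.factorial := by positivity
    calc 6 * Real.exp (-x) ≤ 6 * (q.factorial * (4 * y) ^ q) := by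
          apply mul_le_mul_of_nonneg_left hexp (by norm_num)
      _ = 6 * (q.factorial : ℝ) * 4 ^ q * y ^ q := by
          rw [mul_pow]
          ring
      _ ≤ _ := by
          apply mul_le_mul_of_nonneg_left hpow
          positivity


section array

variable {U A : Type*} [Fintype U] [DecidableEq U] [Fintype A] [DecidableEq A]

/-- The constant of the array lemma. -/
noncomputable def arrayConst (L K : ℝ) (K₁ : ℕ) : ℝ :=
  6 * ((6 * K₁ + 1).factorial : ℝ) * 4 ^ (6 * K₁ + 1) * (L ^ 2 * K * 2 ^ K₁) * (9 / 5)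

omit [DecidableEq U] in
/-- The number of entries of a column in a level is controlled by the mass. -/
lemma level_mass (g : U → ℝ) {h M : ℝ} (hM : ∑ k, |g k| ≤ M) (ℓ : ℕ) :
    ((Finset.univ.filter (fun k => InLev h (g k) ℓ)).card : ℝ) * (h * (1 / 2) ^ (ℓ + 1)) ≤ M := by
  refine le_trans ?_ hM
  calc ((Finset.univ.filter (fun k => InLev h (g k) ℓ)).card : ℝ) * (h * (1 / 2) ^ (ℓ + 1))
      = ∑ k ∈ Finset.univ.filter (fun k => InLev h (g k) ℓ), (h * (1 / 2) ^ (ℓ + 1)) := by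
        rw [Finset.sum_const, nsmul_eq_mul]
    _ ≤ ∑ k ∈ Finset.univ.filter (fun k => InLev h (g k) ℓ), |g k| := by
        apply Finset.sum_le_sum
        intro k hk
        exact (Finset.mem_filter.mp hk).2.1.le
    _ ≤ ∑ k, |g k| := Finset.sum_le_sum_of_subset_of_nonneg (Finset.subset_univ _)
        (fun _ _ _ => abs_nonneg _)

omit [DecidableEq U] in
/-- The sum of squares of a level is at most the number of entries times the top square. -/
lemma level_sq (g : U → ℝ) (h : ℝ) (ℓ : ℕ) :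
    ∑ k, lv h (g k) ℓ ^ 2 ≤
      ((Finset.univ.filter (fun k => InLev h (g k) ℓ)).card : ℝ) * (h * (1 / 2) ^ ℓ) ^ 2 := by
  calc ∑ k, lv h (g k) ℓ ^ 2
      = ∑ k ∈ Finset.univ.filter (fun k => InLev h (g k) ℓ), g k ^ 2 := by
        rw [Finset.sum_filter]
        apply Finset.sum_congr rfl
        intro k _
        unfold lv
        split_ifs <;> simp
    _ ≤ ∑ k ∈ Finset.univ.filter (fun k => InLev h (g k) ℓ), (h * (1 / 2) ^ ℓ) ^ 2 := by
        apply Finset.sum_le_sum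
        intro k hk
        have h1 := (Finset.mem_filter.mp hk).2.2
        rw [← sq_abs (g k)]
        exact pow_le_pow_left₀ (abs_nonneg _) h1 2
    _ = _ := by rw [Finset.sum_const, nsmul_eq_mul]

omit [DecidableEq A] in
/-- The number of columns with an entry in a given level, at one row. -/
lemma level_count (g : A → ℝ) {τ τb L K : ℝ} {K₁ : ℕ} (hτ : 0 < τ) (hτb : τ ≤ τb)
    (hL : 0 < L) (hK₁ : 1 ≤ K₁) (hK : 0 ≤ K)
    (hi : ∀ α, |g α| ≤ L * τ)
    (hiii : ∀ θ, 0 < θ → θ ≤ 1 →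
      ((Finset.univ.filter (fun α => θ * (L * τ) ≤ |g α|)).card : ℝ) ≤ K * (1 / θ) ^ K₁)
    (ℓ : ℕ) :
    ((Finset.univ.filter (fun α => InLev (L * τb) (g α) ℓ)).card : ℝ) ≤
      K * (2:ℝ) ^ ((ℓ + 1) * K₁) * (τ / τb) := by
  have hτb0 : 0 < τb := lt_of_lt_of_le hτ hτb
  set θ := τb * (1 / 2) ^ (ℓ + 1) / τ with hθ
  have hθ0 : 0 < θ := by positivity
  have hr0 : 0 ≤ K * (2:ℝ) ^ ((ℓ + 1) * K₁) * (τ / τb) := by positivity
  by_cases hθ1 : θ ≤ 1
  · have hsub : Finset.univ.filter (fun α => InLev (L * τb) (g α) ℓ) ⊆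
        Finset.univ.filter (fun α => θ * (L * τ) ≤ |g α|) := by
      intro α hα
      have h1 := (Finset.mem_filter.mp hα).2.1
      refine Finset.mem_filter.mpr ⟨Finset.mem_univ _, ?_⟩
      have e : θ * (L * τ) = L * τb * (1 / 2) ^ (ℓ + 1) := by
        rw [hθ]
        field_simp
      rw [e]
      exact h1.le
    have h2 : ((Finset.univ.filter (fun α => InLev (L * τb) (g α) ℓ)).card : ℝ) ≤
        ((Finset.univ.filter (fun α => θ * (L * τ) ≤ |g α|)).card : ℝ) := by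
      exact_mod_cast Finset.card_le_card hsub
    refine le_trans h2 (le_trans (hiii θ hθ0 hθ1) ?_)
    have e1 : 1 / θ = (2:ℝ) ^ (ℓ + 1) * (τ / τb) := by
      rw [hθ]
      have : ((1:ℝ) / 2) ^ (ℓ + 1) * (2:ℝ) ^ (ℓ + 1) = 1 := by
        rw [← mul_pow]
        norm_num
      field_simp
      field_simp at this
      linarith
    rw [e1, mul_pow, ← pow_mul, mul_assoc]
    apply mul_le_mul_of_nonneg_left _ hK
    apply mul_le_mul_of_nonneg_left _ (by positivity)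
    have h3 : τ / τb ≤ 1 := (div_le_one hτb0).mpr hτb
    have h4 : 0 ≤ τ / τb := by positivity
    calc (τ / τb) ^ K₁ ≤ (τ / τb) ^ 1 := pow_le_pow_of_le_one h4 h3 hK₁
      _ = τ / τb := pow_one _
  · have hempty : Finset.univ.filter (fun α => InLev (L * τb) (g α) ℓ) = ∅ := by
      apply Finset.filter_eq_empty_iff.mpr
      intro α _ hin
      have h1 := hin.1
      have h2 := hi α
      push Not at hθ1
      have h3 : τ < τb * (1 / 2) ^ (ℓ + 1) := by
        rw [hθ, lt_div_iff₀ hτ] at hθ1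
        linarith
      have h4 : L * τ < L * (τb * (1 / 2) ^ (ℓ + 1)) := mul_lt_mul_of_pos_left h3 hL
      have h5 : L * (τb * (1 / 2) ^ (ℓ + 1)) = L * τb * (1 / 2) ^ (ℓ + 1) := by ring
      linarith
    rw [hempty]
    simpa using hr0

omit [DecidableEq U] [DecidableEq A] in
/-- The total cost of the level `ℓ` in the array lemma. -/
lemma level_cost (g : A → U → ℝ) (τ : U → ℝ) {τb L M K T ε : ℝ} {K₁ : ℕ}
    (hτ0 : ∀ k, 0 < τ k) (hτb : ∀ k, τ k ≤ τb) (hT : ∑ k, τ k ≤ T)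
    (hL : 0 < L) (hK : 0 ≤ K) (hε : 0 < ε) (hK₁ : 1 ≤ K₁) (hτb0 : 0 < τb)
    (hi : ∀ α k, |g α k| ≤ L * τ k)
    (hii : ∀ α, ∑ k, |g α k| ≤ M)
    (hiii : ∀ k θ, 0 < θ → θ ≤ 1 →
      ((Finset.univ.filter (fun α => θ * (L * τ k) ≤ |g α k|)).card : ℝ) ≤ K * (1 / θ) ^ K₁)
    (hcond1 : 8 * M * (L * τb) ≤ ε ^ 2) (ℓ : ℕ) :
    (∀ α, 4 * ∑ k, lv (L * τb) (g α k) ℓ ^ 2 ≤ (ε * (3 / 4) ^ ℓ) ^ 2) ∧
    ∑ α, cost (fun k => lv (L * τb) (g α k) ℓ) (ε * (3 / 4) ^ ℓ) ≤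
      arrayConst L K K₁ * (5 / 9) * (τb / ε ^ 2 * T) * (4 / 9) ^ ℓ := by
  set h := L * τb with hh
  have hh0 : 0 < h := by positivity
  set q := 6 * K₁ + 1 with hq
  have hε2 : 0 < ε ^ 2 := by positivity
  set Δ := ε * (3 / 4 : ℝ) ^ ℓ with hΔ
  have hΔ0 : 0 < Δ := by positivity
  have hΔ2 : Δ ^ 2 = ε ^ 2 * (9 / 16) ^ ℓ := by
    rw [hΔ, mul_pow, ← pow_mul, mul_comm ℓ 2, pow_mul]
    norm_num
  -- notation for the number of entries
  set N : A → ℝ := fun α => ((Finset.univ.filter (fun k => InLev h (g α k) ℓ)).card : ℝ) with hN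
  set a := h ^ 2 / ε ^ 2 * (4 / 9 : ℝ) ^ ℓ with ha
  set b := (8 / 9 : ℝ) ^ ℓ with hb
  have hN0 : ∀ α, 0 ≤ N α := fun α => by positivity
  have ha0 : 0 ≤ a := by positivity
  have hb0 : 0 ≤ b := by positivity
  have hsq1 : ∀ α, ∑ k, lv h (g α k) ℓ ^ 2 ≤ N α * a * Δ ^ 2 := by
    intro α
    refine le_trans (level_sq (g α) h ℓ) (le_of_eq ?_)
    rw [hΔ2, ha, mul_pow h, ← pow_mul, hN]
    have e : ((1:ℝ) / 2) ^ (ℓ * 2) = (4 / 9) ^ ℓ * (9 / 16) ^ ℓ := by
      rw [← mul_pow, pow_mul', ]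
      norm_num
    rw [e]
    field_simp
  have hmass : ∀ α, N α * (h * (1 / 2) ^ (ℓ + 1)) ≤ M := fun α => level_mass (g α) (hii α) ℓ
  have hNa : ∀ α, 4 * (N α * a) ≤ b := by
    intro α
    have h1 := hmass α
    have e : 4 * (N α * a) = (N α * (h * (1 / 2) ^ (ℓ + 1))) * (8 * h / ε ^ 2) * ((4 / 9 : ℝ) ^ ℓ * 2 ^ ℓ) := by
      rw [ha]
      have : ((1:ℝ) / 2) ^ (ℓ + 1) * 2 ^ ℓ = 1 / 2 := by
        rw [pow_succ, mul_comm, ← mul_assoc, ← mul_pow]
        norm_num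
      calc 4 * (N α * (h ^ 2 / ε ^ 2 * (4 / 9) ^ ℓ))
          = (N α * h * (((1:ℝ) / 2) ^ (ℓ + 1) * 2 ^ ℓ)) * (8 * h / ε ^ 2) * (4 / 9) ^ ℓ := by
            rw [this]
            ring
        _ = _ := by ring
    rw [e]
    have h2 : (4 / 9 : ℝ) ^ ℓ * 2 ^ ℓ = b := by
      rw [hb, ← mul_pow]
      norm_num
    rw [h2]
    have h3 : 8 * M * h / ε ^ 2 ≤ 1 := by
      rw [div_le_one hε2]
      exact hcond1
    have h4 : 0 ≤ 8 * h / ε ^ 2 := by positivity
    calc (N α * (h * (1 / 2) ^ (ℓ + 1))) * (8 * h / ε ^ 2) * b ≤ M * (8 * h / ε ^ 2) * b := by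
          apply mul_le_mul_of_nonneg_right _ hb0
          exact mul_le_mul_of_nonneg_right h1 h4
      _ = (8 * M * h / ε ^ 2) * b := by ring
      _ ≤ 1 * b := mul_le_mul_of_nonneg_right h3 hb0
      _ = b := one_mul _
  have hsq2 : ∀ α, ∑ k, lv h (g α k) ℓ ^ 2 ≤ b * Δ ^ 2 := by
    intro α
    have h1 := hsq1 α
    have h2 := hNa α
    have h3 : 0 ≤ N α * a := mul_nonneg (hN0 α) ha0
    have h4 : N α * a ≤ b := by linarith
    exact le_trans h1 (mul_le_mul_of_nonneg_right h4 (by positivity))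
  refine ⟨?_, ?_⟩
  · intro α
    have h1 := hsq1 α
    have h2 := hNa α
    have h3 : 4 * (N α * a * Δ ^ 2) ≤ 1 * Δ ^ 2 := by
      have h4 : b ≤ 1 := pow_le_one₀ (by norm_num) (by norm_num)
      have h5 : 4 * (N α * a) ≤ 1 := le_trans h2 h4
      nlinarith [sq_nonneg Δ]
    linarith
  · -- the sum of the costs
    have hq1 : 1 ≤ q := by omega
    have hcostα : ∀ α, cost (fun k => lv h (g α k) ℓ) Δ ≤
        6 * (q.factorial : ℝ) * 4 ^ q * (N α * a * b ^ (q - 1)) := fun α =>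
      cost_le_of_bound _ q hq1 hΔ0 (hN0 α) ha0 hb0 (hsq1 α) (hsq2 α)
    have hsumN : ∑ α, N α ≤ K * (2:ℝ) ^ ((ℓ + 1) * K₁) * (T / τb) := by
      have h1 : ∑ α, N α = ∑ k, ((Finset.univ.filter (fun α => InLev h (g α k) ℓ)).card : ℝ) := by
        simp only [hN, Finset.card_filter]
        push_cast
        rw [Finset.sum_comm]
      rw [h1]
      calc ∑ k, ((Finset.univ.filter (fun α => InLev h (g α k) ℓ)).card : ℝ)
          ≤ ∑ k, K * (2:ℝ) ^ ((ℓ + 1) * K₁) * (τ k / τb) := by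
            apply Finset.sum_le_sum
            intro k _
            exact level_count (fun α => g α k) (hτ0 k) (hτb k) hL hK₁ hK (fun α => hi α k)
              (hiii k) ℓ
        _ = K * (2:ℝ) ^ ((ℓ + 1) * K₁) * ((∑ k, τ k) / τb) := by
            rw [← Finset.mul_sum, Finset.sum_div]
        _ ≤ _ := by
            apply mul_le_mul_of_nonneg_left _ (by positivity)
            exact div_le_div_of_nonneg_right hT hτb0.le
    calc ∑ α, cost (fun k => lv h (g α k) ℓ) Δ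
        ≤ ∑ α, 6 * (q.factorial : ℝ) * 4 ^ q * (N α * a * b ^ (q - 1)) :=
          Finset.sum_le_sum (fun α _ => hcostα α)
      _ = 6 * (q.factorial : ℝ) * 4 ^ q * (a * b ^ (q - 1)) * ∑ α, N α := by
          rw [Finset.mul_sum]
          apply Finset.sum_congr rfl
          intro α _
          ring
      _ ≤ 6 * (q.factorial : ℝ) * 4 ^ q * (a * b ^ (q - 1)) *
            (K * (2:ℝ) ^ ((ℓ + 1) * K₁) * (T / τb)) :=
          mul_le_mul_of_nonneg_left hsumN (by positivity)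
      _ ≤ _ := by
          -- the exponential factors
          have hqq : q - 1 = 6 * K₁ := by omega
          rw [hqq]
          have hbb : b ^ (6 * K₁) * (2:ℝ) ^ (ℓ * K₁) ≤ 1 := by
            rw [hb, ← pow_mul, mul_comm ℓ (6 * K₁), pow_mul, mul_comm ℓ K₁, pow_mul (2:ℝ) K₁ ℓ,
              ← mul_pow]
            apply pow_le_one₀ (by positivity)
            rw [pow_mul, ← mul_pow]
            apply pow_le_one₀ (by positivity)
            norm_num
          have hT0 : 0 ≤ T := le_trans (Finset.sum_nonneg (fun k _ => (hτ0 k).le)) hT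
          set X := 6 * (q.factorial : ℝ) * 4 ^ q * (L ^ 2 * K * 2 ^ K₁) * (τb / ε ^ 2 * T) *
            (4 / 9) ^ ℓ with hX
          have hX0 : 0 ≤ X := by positivity
          have e1 : 6 * (q.factorial : ℝ) * 4 ^ q * (a * b ^ (6 * K₁)) *
              (K * (2:ℝ) ^ ((ℓ + 1) * K₁) * (T / τb)) =
              X * (b ^ (6 * K₁) * (2:ℝ) ^ (ℓ * K₁)) := by
            rw [hX, ha, hh, add_mul, one_mul, pow_add (2:ℝ) (ℓ * K₁) K₁]
            field_simp
          have e2 : arrayConst L K K₁ * (5 / 9) * (τb / ε ^ 2 * T) * (4 / 9) ^ ℓ = X := by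
            rw [hX, arrayConst, ← hq]
            ring
          rw [e1, e2]
          exact mul_le_of_le_one_right hX0 hbb

/-- **The array lemma.** -/
theorem array_lemma (g : A → U → ℝ) (τ : U → ℝ) {τb L M K T ε : ℝ} {K₁ : ℕ}
    (hτ0 : ∀ k, 0 < τ k) (hτb : ∀ k, τ k ≤ τb) (hT : ∑ k, τ k ≤ T)
    (hL : 0 < L) (hK : 0 ≤ K) (hε : 0 < ε) (hK₁ : 1 ≤ K₁) (hτb0 : 0 < τb)
    (hi : ∀ α k, |g α k| ≤ L * τ k)
    (hii : ∀ α, ∑ k, |g α k| ≤ M)
    (hiii : ∀ k θ, 0 < θ → θ ≤ 1 →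
      ((Finset.univ.filter (fun α => θ * (L * τ k) ≤ |g α k|)).card : ℝ) ≤ K * (1 / θ) ^ K₁)
    (hcond1 : 8 * M * (L * τb) ≤ ε ^ 2)
    (hcond2 : arrayConst L K K₁ * (τb / ε ^ 2 * T) ≤ (Fintype.card U : ℝ) / 10)
    (hm : 16 ≤ Fintype.card U) :
    ∃ χ : U → ℝ, (∀ k, χ k = 0 ∨ χ k = 1 ∨ χ k = -1) ∧
      (Fintype.card U : ℝ) / 16 ≤ ((Finset.univ.filter (fun k => χ k ≠ 0)).card : ℝ) ∧
      ∀ α, |∑ k, χ k * g α k| ≤ 4 * ε := by
  classical
  set h := L * τb with hh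
  have hh0 : 0 < h := by positivity
  -- the number of levels
  have hlev : ∀ q : A × U, ∃ ℓ, g q.1 q.2 ≠ 0 → InLev h (g q.1 q.2) ℓ := by
    intro q
    by_cases hq : g q.1 q.2 = 0
    · exact ⟨0, fun h' => absurd hq h'⟩
    · have hle : |g q.1 q.2| ≤ h :=
        le_trans (hi q.1 q.2) (mul_le_mul_of_nonneg_left (hτb q.2) hL.le)
      obtain ⟨ℓ, hℓ⟩ := inLev_exists hh0 hq hle
      exact ⟨ℓ, fun _ => hℓ⟩
  choose lev hlev using hlev
  set L₀ := (Finset.univ : Finset (A × U)).sup lev + 1 with hL₀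
  have hlevL : ∀ q, lev q < L₀ := by
    intro q
    have : lev q ≤ (Finset.univ : Finset (A × U)).sup lev := Finset.le_sup (Finset.mem_univ q)
    omega
  have hdecomp : ∀ α k, ∑ ℓ ∈ Finset.range L₀, lv h (g α k) ℓ = g α k := by
    intro α k
    apply sum_lv hh0
    · exact le_trans (hi α k) (mul_le_mul_of_nonneg_left (hτb k) hL.le)
    · intro hne
      exact ⟨lev (α, k), hlevL _, hlev (α, k) hne⟩
  -- the constraints
  have hlc := fun ℓ : ℕ => level_cost g τ hτ0 hτb hT hL hK hε hK₁ hτb0 hi hii hiii hcond1 ℓ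
  rw [← hh] at hlc
  have hcostsum : ∑ q : A × Fin L₀,
      cost (fun k => lv h (g q.1 k) (q.2 : ℕ)) (ε * (3 / 4) ^ (q.2 : ℕ)) ≤
      (Fintype.card U : ℝ) / 10 := by
    rw [Fintype.sum_prod_type_right]
    calc ∑ ℓ : Fin L₀, ∑ α, cost (fun k => lv h (g α k) (ℓ : ℕ)) (ε * (3 / 4) ^ (ℓ : ℕ))
        ≤ ∑ ℓ : Fin L₀, arrayConst L K K₁ * (5 / 9) * (τb / ε ^ 2 * T) * (4 / 9) ^ (ℓ : ℕ) :=
          Finset.sum_le_sum (fun ℓ _ => (hlc ℓ).2)
      _ = arrayConst L K K₁ * (5 / 9) * (τb / ε ^ 2 * T) * ∑ ℓ ∈ Finset.range L₀, (4 / 9) ^ ℓ := by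
          rw [Finset.mul_sum, Finset.sum_range]
      _ ≤ arrayConst L K K₁ * (5 / 9) * (τb / ε ^ 2 * T) * (9 / 5) := by
          have h1 := sum_geom_le (4 / 9 : ℝ) (by norm_num) (by norm_num) L₀
          have h2 : (1:ℝ) / (1 - 4 / 9) = 9 / 5 := by norm_num
          rw [h2] at h1
          apply mul_le_mul_of_nonneg_left h1
          have hT0 : 0 ≤ T := le_trans (Finset.sum_nonneg (fun k _ => (hτ0 k).le)) hT
          unfold arrayConst
          positivity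
      _ = arrayConst L K K₁ * (τb / ε ^ 2 * T) := by ring
      _ ≤ _ := hcond2
  obtain ⟨χ, hχ1, hχ2, hχ3⟩ := partial_coloring
    (fun (q : A × Fin L₀) k => lv h (g q.1 k) (q.2 : ℕ))
    (fun q => ε * (3 / 4) ^ (q.2 : ℕ))
    (fun q => by positivity)
    (fun q => (hlc q.2).1 q.1)
    hm hcostsum
  refine ⟨χ, hχ1, hχ2, ?_⟩
  intro α
  have e : ∑ k, χ k * g α k =
      ∑ ℓ : Fin L₀, ∑ k, χ k * lv h (g α k) (ℓ : ℕ) := by
    rw [Finset.sum_comm]
    apply Finset.sum_congr rfl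
    intro k _
    rw [← Finset.mul_sum]
    congr 1
    rw [Fin.sum_univ_eq_sum_range (fun ℓ => lv h (g α k) ℓ) L₀]
    exact (hdecomp α k).symm
  rw [e]
  calc |∑ ℓ : Fin L₀, ∑ k, χ k * lv h (g α k) (ℓ : ℕ)|
      ≤ ∑ ℓ : Fin L₀, |∑ k, χ k * lv h (g α k) (ℓ : ℕ)| := Finset.abs_sum_le_sum_abs _ _
    _ ≤ ∑ ℓ : Fin L₀, ε * (3 / 4) ^ (ℓ : ℕ) := by
        apply Finset.sum_le_sum
        intro ℓ _
        exact hχ3 (α, ℓ)
    _ = ε * ∑ ℓ ∈ Finset.range L₀, (3 / 4) ^ ℓ := by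
        rw [Finset.mul_sum, Finset.sum_range]
    _ ≤ ε * 4 := by
        apply mul_le_mul_of_nonneg_left _ hε.le
        have h1 := sum_geom_le (3 / 4 : ℝ) (by norm_num) (by norm_num) L₀
        have h2 : (1:ℝ) / (1 - 3 / 4) = 4 := by norm_num
        rwa [h2] at h1
    _ = 4 * ε := by ring

end array

end Vale.Agent.Lib.P249L
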