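import Mathlib
import Vale.Agent.Lib.P249.Sobolev

open Finset

namespace Vale.Agent.Lib.P249L

open Vale.Agent.Lib.P249

variable {ι : Type*} [Fintype ι]

/-- The constant of the two cluster inequality. -/
noncomputable def tclConst (p : ℝ) : ℝ := 6 * (2:ℝ) ^ p * ((6:ℝ) ^ p) ^ 4

lemma tclConst_pos (p : ℝ) : 0 < tclConst p := by
  unfold tclConst; positivity

lemma tclConst_ge_one {p : ℝ} (hp : 1 ≤ p) : 1 ≤ tclConst p := by
  unfold tclConst
  have h1 : (1:ℝ) ≤ (2:ℝ) ^ p := Real.one_le_rpow (by norm_num) (by linarith)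
  have h2 : (1:ℝ) ≤ (6:ℝ) ^ p := Real.one_le_rpow (by norm_num) (by linarith)
  have h3 : (1:ℝ) ≤ ((6:ℝ) ^ p) ^ 4 := one_le_pow₀ h2
  nlinarith [mul_le_mul h1 h3 (by norm_num) (by positivity)]

/-- Every set has a point of energy at most the average. -/
lemma exists_low_energy {d : ι → ι → ℝ} {r : ι → ι → ℕ} (h : RankedMetric d r)
    (p : ℝ) (a : ι → ℝ) (P : Finset ι) (hP : P.Nonempty) :
    ∃ k ∈ P, (P.card : ℝ) * En d r p a k ≤ Etot d r p a := by
  have hIpos : (0:ℝ) < P.card := by exact_mod_cast Finset.card_pos.mpr hP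
  have hle : ∑ k ∈ P, En d r p a k ≤ ∑ k ∈ P, (Etot d r p a / (P.card : ℝ)) := by
    rw [Finset.sum_const, nsmul_eq_mul, mul_div_cancel₀ _ hIpos.ne']
    exact Finset.sum_le_sum_of_subset_of_nonneg (Finset.subset_univ _)
      (fun x _ _ => En_nonneg h p a x)
  obtain ⟨k, hk, hk2⟩ := Finset.exists_le_of_sum_le hP hle
  refine ⟨k, hk, ?_⟩
  rw [le_div_iff₀ hIpos] at hk2
  linarith

/-- A lower bound of the energy at a point by a set of far values. -/
lemma En_ge_of_set {d : ι → ι → ℝ} {r : ι → ι → ℕ} (h : RankedMetric d r)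
    {p : ℝ} (hp : 1 ≤ p) (a : ι → ℝ) (k : ι) (T : Finset ι) {G : ℕ} {Δ R : ℝ}
    (hΔ : 0 < Δ) (hR : 0 < R) (hrank : ∀ y ∈ T, r k y < G)
    (hval : ∀ y ∈ T, Δ ≤ |a k - a y|) (hdist : ∀ y ∈ T, d k y ≤ R) :
    (T.card : ℝ) * (1 / ((G : ℝ) * Real.sqrt (G : ℝ)) * (Δ / R) ^ p) ≤ En d r p a k := by
  have hterm : ∀ y ∈ T, 1 / ((G : ℝ) * Real.sqrt (G : ℝ)) * (Δ / R) ^ p ≤
      wt (r k y) * (|a k - a y| / d k y) ^ p := by
    intro y hy
    have hne : k ≠ y := by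
      rintro rfl
      have := hval k hy
      simp at this
      linarith
    have hdpos : 0 < d k y := h.pos k y hne
    apply mul_le_mul (wt_ge (hrank y hy)) _ (by positivity) (wt_pos _).le
    apply Real.rpow_le_rpow (by positivity) _ (by linarith)
    rw [div_le_div_iff₀ hR hdpos]
    have h1 := hval y hy
    have h2 := hdist y hy
    exact mul_le_mul h1 h2 hdpos.le (abs_nonneg _)
  calc (T.card : ℝ) * (1 / ((G : ℝ) * Real.sqrt (G : ℝ)) * (Δ / R) ^ p)
      = ∑ y ∈ T, (1 / ((G : ℝ) * Real.sqrt (G : ℝ)) * (Δ / R) ^ p) := by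
        rw [Finset.sum_const, nsmul_eq_mul]
    _ ≤ ∑ y ∈ T, wt (r k y) * (|a k - a y| / d k y) ^ p := Finset.sum_le_sum hterm
    _ ≤ ∑ y, wt (r k y) * (|a k - a y| / d k y) ^ p :=
        Finset.sum_le_sum_of_subset_of_nonneg (Finset.subset_univ _)
          (fun y _ _ => term_nonneg h p a k y)

/-- One step of growth for the two cluster inequality. -/
lemma grow {d : ι → ι → ℝ} {r : ι → ι → ℕ} (h : RankedMetric d r)
    {p : ℝ} (hp : 1 ≤ p) (a : ι → ℝ) {Δ R tol W A : ℝ} (hΔ : 0 < Δ) (hR : 0 < R) (htol : 0 < tol)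
    (hW : 1 ≤ W) (hA : 1 ≤ A)
    (H1 : 6 * A ^ 3 * Etot d r p a < W * (Δ / 2 / R) ^ p)
    (H2 : 4 * A * Etot d r p a < W * (tol / R) ^ p)
    (P Q : Finset ι) (hP : W ^ 2 ≤ (P.card : ℝ)) (hQ : W ^ 2 ≤ (Q.card : ℝ))
    (hval : ∀ x ∈ P, ∀ y ∈ Q, Δ / 2 ≤ |a x - a y|)
    (hdist : ∀ x ∈ P, ∀ y ∈ Q, d x y ≤ R) :
    ∃ k ∈ P, ∃ P' : Finset ι, (A * W) ^ 2 ≤ (P'.card : ℝ) ∧
      ∀ z ∈ P', |a z - a k| ≤ tol ∧ d k z ≤ R := by
  classical
  have hW0 : 0 < W := by linarith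
  have hA0 : 0 < A := by linarith
  have hPpos : (0:ℝ) < P.card := lt_of_lt_of_le (by positivity) hP
  have hPne : P.Nonempty := by
    rw [← Finset.card_pos]
    exact_mod_cast hPpos
  obtain ⟨k, hkP, hkE⟩ := exists_low_energy h p a P hPne
  set E := Etot d r p a with hE
  have hEn0 := En_nonneg h p a k
  refine ⟨k, hkP, ?_⟩
  -- the number of points
  set G := ⌈2 * A ^ 2 * W ^ 2⌉₊ with hGdef
  have hG' : 2 * A ^ 2 * W ^ 2 ≤ (G : ℝ) := Nat.le_ceil _
  have hAW : 1 ≤ A ^ 2 * W ^ 2 := by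
    have h1 : 1 ≤ A ^ 2 := one_le_pow₀ hA
    have h2 : 1 ≤ W ^ 2 := one_le_pow₀ hW
    nlinarith
  have hG : (G : ℝ) ≤ 3 * A ^ 2 * W ^ 2 := by
    have := Nat.ceil_lt_add_one (a := 2 * A ^ 2 * W ^ 2) (by positivity)
    rw [← hGdef] at this
    nlinarith
  have hG1 : 1 ≤ G := by
    have : (1:ℝ) ≤ (G : ℝ) := by nlinarith
    exact_mod_cast this
  have hG0 : (0:ℝ) < G := by exact_mod_cast hG1
  set sG := Real.sqrt (G : ℝ) with hsG
  have hsG0 : 0 < sG := Real.sqrt_pos.mpr hG0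
  have hsG2 : sG ≤ 2 * A * W := by
    rw [hsG, Real.sqrt_le_left (by positivity)]
    nlinarith [mul_pos hA0 hW0]
  have hGs : (G : ℝ) * sG ≤ 6 * A ^ 3 * W ^ 3 := by
    calc (G : ℝ) * sG ≤ (3 * A ^ 2 * W ^ 2) * (2 * A * W) :=
          mul_le_mul hG hsG2 hsG0.le (by positivity)
      _ = _ := by ring
  -- all of the points of Q can not have small rank
  have hΔR : 0 < (Δ / 2 / R) ^ p := by positivity
  have htR : 0 < (tol / R) ^ p := by positivity
  obtain ⟨y0, hy0Q, hy0⟩ : ∃ y ∈ Q, G ≤ r k y := by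
    by_contra hcon
    push Not at hcon
    have h1 := En_ge_of_set h hp a k Q (G := G) (Δ := Δ / 2) (R := R) (by positivity) hR hcon
      (fun y hy => hval k hkP y hy) (fun y hy => hdist k hkP y hy)
    rw [← hsG] at h1
    set X := 1 / ((G : ℝ) * sG) * (Δ / 2 / R) ^ p with hX
    have hX0 : 0 < X := by positivity
    have h2 : W ^ 2 * (W ^ 2 * X) ≤ E := by
      calc W ^ 2 * (W ^ 2 * X) ≤ (P.card : ℝ) * ((Q.card : ℝ) * X) := by
            apply mul_le_mul hP _ (by positivity) (by positivity)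
            exact mul_le_mul_of_nonneg_right hQ hX0.le
        _ ≤ (P.card : ℝ) * En d r p a k := mul_le_mul_of_nonneg_left h1 (by positivity)
        _ ≤ E := hkE
    have h3 : W * (Δ / 2 / R) ^ p ≤ 6 * A ^ 3 * (W ^ 2 * (W ^ 2 * X)) := by
      have hGs0 : 0 < (G : ℝ) * sG := by positivity
      have e : 6 * A ^ 3 * (W ^ 2 * (W ^ 2 * X)) =
          (Δ / 2 / R) ^ p * (6 * A ^ 3 * W ^ 4 / ((G : ℝ) * sG)) := by
        rw [hX]
        field_simp
      rw [e, mul_comm W]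
      apply mul_le_mul_of_nonneg_left _ hΔR.le
      rw [le_div_iff₀ hGs0]
      calc W * ((G : ℝ) * sG) ≤ W * (6 * A ^ 3 * W ^ 3) :=
            mul_le_mul_of_nonneg_left hGs hW0.le
        _ = _ := by ring
    have h4 : 6 * A ^ 3 * (W ^ 2 * (W ^ 2 * X)) ≤ 6 * A ^ 3 * E :=
      mul_le_mul_of_nonneg_left h2 (by positivity)
    linarith
  -- the first points in the order of k
  have hGcard : G ≤ Fintype.card ι := le_trans hy0 (le_of_lt (h.lt k y0))
  set B' := Finset.univ.filter (fun z => r k z < G) with hB'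
  have hB'card : B'.card = G := card_rank_filter h k G hGcard
  have hB'dist : ∀ z ∈ B', d k z ≤ R := by
    intro z hz
    have hz' : r k z < G := by simpa [hB'] using hz
    exact le_trans (h.mono k y0 z (by omega)) (hdist k hkP y0 hy0Q)
  set N := B'.filter (fun z => tol < |a z - a k|) with hN
  set I' := B'.filter (fun z => ¬ (tol < |a z - a k|)) with hI'
  have hsum : N.card + I'.card = B'.card := Finset.card_filter_add_card_filter_not (s := B') _
  have hNbound : (N.card : ℝ) ≤ (G : ℝ) / 2 := by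
    by_contra hcon
    push Not at hcon
    have h1 := En_ge_of_set h hp a k N (G := G) (Δ := tol) (R := R) htol hR
      (fun y hy => by simpa [hB'] using (Finset.mem_filter.mp hy).1)
      (fun y hy => by
        rw [abs_sub_comm]
        exact (Finset.mem_filter.mp hy).2.le)
      (fun y hy => hB'dist y (Finset.mem_filter.mp hy).1)
    rw [← hsG] at h1
    set X := 1 / ((G : ℝ) * sG) * (tol / R) ^ p with hX
    have hX0 : 0 < X := by positivity
    have h2 : W ^ 2 * (((G : ℝ) / 2) * X) ≤ E := by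
      calc W ^ 2 * (((G : ℝ) / 2) * X) ≤ (P.card : ℝ) * ((N.card : ℝ) * X) := by
            apply mul_le_mul hP _ (by positivity) (by positivity)
            exact mul_le_mul_of_nonneg_right hcon.le hX0.le
        _ ≤ (P.card : ℝ) * En d r p a k := mul_le_mul_of_nonneg_left h1 (by positivity)
        _ ≤ E := hkE
    have h3 : W * (tol / R) ^ p ≤ 4 * A * (W ^ 2 * (((G : ℝ) / 2) * X)) := by
      have e : 4 * A * (W ^ 2 * (((G : ℝ) / 2) * X)) =
          (tol / R) ^ p * (2 * A * W ^ 2 / sG) := by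
        rw [hX]
        field_simp
        ring
      rw [e, mul_comm W]
      apply mul_le_mul_of_nonneg_left _ htR.le
      rw [le_div_iff₀ hsG0]
      calc W * sG ≤ W * (2 * A * W) := mul_le_mul_of_nonneg_left hsG2 hW0.le
        _ = _ := by ring
    have h4 : 4 * A * (W ^ 2 * (((G : ℝ) / 2) * X)) ≤ 4 * A * E :=
      mul_le_mul_of_nonneg_left h2 (by positivity)
    linarith
  refine ⟨I', ?_, ?_⟩
  · have h1 : (N.card : ℝ) + (I'.card : ℝ) = (G : ℝ) := by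
      rw [← hB'card, ← hsum]
      push_cast
      ring
    have h2 : (G : ℝ) / 2 ≤ (I'.card : ℝ) := by linarith
    have h3 : (A * W) ^ 2 = A ^ 2 * W ^ 2 := by ring
    rw [h3]
    linarith
  · intro z hz
    have h1 := (Finset.mem_filter.mp hz).2
    exact ⟨not_lt.mp h1, hB'dist z (Finset.mem_filter.mp hz).1⟩


lemma tcl_H1 {p Δ ρ E W₀ : ℝ} (hp : 1 ≤ p) (hΔ : 0 < Δ) (hρ : 0 < ρ) (hE0 : 0 ≤ E) (hW₀ : 0 < W₀)
    (hmain : 6 * (2:ℝ) ^ p * ((6:ℝ) ^ p) ^ 3 * E < W₀ * (Δ / ρ) ^ p) (s : ℕ) :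
    6 * ((6:ℝ) ^ p) ^ 3 * E < W₀ * ((6:ℝ) ^ p) ^ s * (Δ / 2 / ((3:ℝ) ^ s * ρ)) ^ p := by
  have hp0 : 0 < p := by linarith
  set A := (6:ℝ) ^ p with hA
  set B := (2:ℝ) ^ p with hB
  set T3 := (3:ℝ) ^ p with hT3
  set σ := Δ / ρ with hσ
  have hσ0 : 0 < σ := div_pos hΔ hρ
  have hσp : 0 < σ ^ p := Real.rpow_pos_of_pos hσ0 p
  have hB1 : 1 ≤ B := Real.one_le_rpow (by norm_num) hp0.le
  have hB0 : 0 < B := by linarith
  have hT30 : 0 < T3 := by positivity
  have hAeq : A = B * T3 := by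
    rw [hA, hB, hT3, ← Real.mul_rpow (by norm_num) (by norm_num)]
    norm_num
  have e : (Δ / 2 / ((3:ℝ) ^ s * ρ)) ^ p = σ ^ p / (B * T3 ^ s) := by
    have : Δ / 2 / ((3:ℝ) ^ s * ρ) = σ / (2 * (3:ℝ) ^ s) := by
      rw [hσ]
      field_simp
    rw [this, Real.div_rpow hσ0.le (by positivity),
      Real.mul_rpow (by norm_num) (by positivity), Real.rpow_pow_comm (by norm_num)]
  rw [e]
  have e2 : W₀ * A ^ s * (σ ^ p / (B * T3 ^ s)) = (W₀ * σ ^ p / B) * B ^ s := by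
    rw [hAeq, mul_pow]
    field_simp
  rw [e2]
  have h1 : 1 ≤ B ^ s := one_le_pow₀ hB1
  have h2 : 6 * A ^ 3 * E < W₀ * σ ^ p / B := by
    rw [lt_div_iff₀ hB0]
    calc 6 * A ^ 3 * E * B = 6 * B * A ^ 3 * E := by ring
      _ < _ := hmain
  have h3 : 0 < W₀ * σ ^ p / B := by positivity
  nlinarith

lemma tcl_H2 {p Δ ρ E W₀ : ℝ} (hp : 1 ≤ p) (hΔ : 0 < Δ) (hρ : 0 < ρ) (hE0 : 0 ≤ E) (hW₀ : 0 < W₀)
    (hmain : 6 * (2:ℝ) ^ p * ((6:ℝ) ^ p) ^ 3 * E < W₀ * (Δ / ρ) ^ p) (s : ℕ) :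
    4 * (6:ℝ) ^ p * E < W₀ * ((6:ℝ) ^ p) ^ s * (Δ * (1 / 2) ^ (s + 3) / ((3:ℝ) ^ s * ρ)) ^ p := by
  have hp0 : 0 < p := by linarith
  set A := (6:ℝ) ^ p with hA
  set B := (2:ℝ) ^ p with hB
  set σ := Δ / ρ with hσ
  have hσ0 : 0 < σ := div_pos hΔ hρ
  have hσp : 0 < σ ^ p := Real.rpow_pos_of_pos hσ0 p
  have hB1 : 1 ≤ B := Real.one_le_rpow (by norm_num) hp0.le
  have hA1 : 1 ≤ A := Real.one_le_rpow (by norm_num) hp0.le
  have hA0 : 0 < A := by linarith
  have e : (Δ * (1 / 2) ^ (s + 3) / ((3:ℝ) ^ s * ρ)) ^ p = σ ^ p / ((8:ℝ) ^ p * A ^ s) := by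
    have : Δ * (1 / 2) ^ (s + 3) / ((3:ℝ) ^ s * ρ) = σ / (8 * (6:ℝ) ^ s) := by
      have e6 : (6:ℝ) ^ s = 2 ^ s * 3 ^ s := by
        rw [← mul_pow]
        norm_num
      have e8 : ((1:ℝ) / 2) ^ (s + 3) = 1 / (8 * 2 ^ s) := by
        rw [one_div_pow, pow_add]
        norm_num
        ring
      rw [hσ, e6, e8]
      field_simp
    rw [this, Real.div_rpow hσ0.le (by positivity),
      Real.mul_rpow (by norm_num) (by positivity), Real.rpow_pow_comm (by norm_num)]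
  rw [e]
  have e2 : W₀ * A ^ s * (σ ^ p / ((8:ℝ) ^ p * A ^ s)) = W₀ * σ ^ p / (8:ℝ) ^ p := by
    field_simp
  rw [e2, lt_div_iff₀ (by positivity)]
  have h8 : (8:ℝ) ^ p ≤ B * A := by
    have e3 : B * A = ((2:ℝ) * 6) ^ p := by
      rw [Real.mul_rpow (by norm_num) (by norm_num)]
    rw [e3]
    exact Real.rpow_le_rpow (by norm_num) (by norm_num) hp0.le
  have h9 : 4 * A * E * (8:ℝ) ^ p ≤ 6 * B * A ^ 3 * E := by
    have h10 : 4 * A * E * (8:ℝ) ^ p ≤ 4 * A * E * (B * A) :=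
      mul_le_mul_of_nonneg_left h8 (by positivity)
    have h11 : 4 * A * E * (B * A) = 4 * B * A ^ 2 * E := by ring
    have h12 : 4 * B * A ^ 2 * E ≤ 6 * B * A ^ 3 * E := by
      have h13 : 0 ≤ B * A ^ 2 * E := by positivity
      have h14 : B * A ^ 2 * E ≤ B * A ^ 2 * E * A :=
        le_mul_of_one_le_right h13 hA1
      nlinarith
    linarith
  linarith

/-- **The two cluster inequality.** -/
theorem tcl {d : ι → ι → ℝ} {r : ι → ι → ℕ} (h : RankedMetric d r)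
    {p : ℝ} (hp : 1 ≤ p) (a : ι → ℝ) {I J : Finset ι} {c Δ ρ N : ℝ}
    (hΔ : 0 < Δ) (hρ : 0 < ρ) (hN : 1 ≤ N) (hI : N ≤ (I.card : ℝ)) (hJ : N ≤ (J.card : ℝ))
    (haI : ∀ x ∈ I, a x ≤ c) (haJ : ∀ y ∈ J, c + Δ ≤ a y) (hd : ∀ x ∈ I, ∀ y ∈ J, d x y ≤ ρ) :
    Real.sqrt N * (Δ / ρ) ^ p ≤ tclConst p * Etot d r p a := by
  classical
  by_contra hsmall
  push Not at hsmall
  set E := Etot d r p a with hE
  have hE0 : 0 ≤ E := Etot_nonneg h p a
  set A := (6:ℝ) ^ p with hA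
  set B := (2:ℝ) ^ p with hB
  set T3 := (3:ℝ) ^ p with hT3
  have hp0 : 0 < p := by linarith
  have hA1 : 1 < A := Real.one_lt_rpow (by norm_num) hp0
  have hA1' : 1 ≤ A := hA1.le
  have hB1 : 1 ≤ B := Real.one_le_rpow (by norm_num) hp0.le
  have hT31 : 1 ≤ T3 := Real.one_le_rpow (by norm_num) hp0.le
  have hAeq : A = B * T3 := by
    rw [hA, hB, hT3, ← Real.mul_rpow (by norm_num) (by norm_num)]
    norm_num
  have hA0 : 0 < A := by linarith
  have hB0 : 0 < B := by linarith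
  set σ := Δ / ρ with hσ
  have hσ0 : 0 < σ := div_pos hΔ hρ
  have hσp : 0 < σ ^ p := Real.rpow_pos_of_pos hσ0 p
  obtain ⟨t₀, ht₁, ht₂⟩ := exists_nat_pow_near hN (show 1 < A ^ 2 by nlinarith)
  set W₀ := A ^ t₀ with hW₀
  have hW₀1 : 1 ≤ W₀ := one_le_pow₀ hA1'
  have hW₀0 : 0 < W₀ := by linarith
  have hsq : Real.sqrt N ≤ A * W₀ := by
    rw [Real.sqrt_le_left (by positivity)]
    have : (A ^ 2) ^ (t₀ + 1) = (A * W₀) ^ 2 := by
      rw [hW₀, pow_succ, ← pow_mul, mul_pow, ← pow_mul]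
      ring
    rw [← this]
    exact ht₂.le
  have hW₀2 : W₀ ^ 2 ≤ N := by
    have : (A ^ 2) ^ t₀ = W₀ ^ 2 := by
      rw [hW₀, ← pow_mul, ← pow_mul, mul_comm]
    rw [← this]
    exact ht₁
  -- the bound in the form we use
  have hmain : 6 * B * A ^ 3 * E < W₀ * σ ^ p := by
    have h1 : 6 * B * A ^ 4 * E < Real.sqrt N * σ ^ p := by
      have : tclConst p = 6 * B * A ^ 4 := rfl
      rw [this] at hsmall
      exact hsmall
    have h2 : Real.sqrt N * σ ^ p ≤ (A * W₀) * σ ^ p := mul_le_mul_of_nonneg_right hsq hσp.le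
    have h3 : A * (6 * B * A ^ 3 * E) < A * (W₀ * σ ^ p) := by
      calc A * (6 * B * A ^ 3 * E) = 6 * B * A ^ 4 * E := by ring
        _ < _ := lt_of_lt_of_le h1 h2
        _ = _ := by ring
    exact lt_of_mul_lt_mul_left h3 hA0.le
  -- the induction
  have hind : ∀ s : ℕ, ∃ (I' J' : Finset ι) (c₁ c₂ : ℝ),
      (W₀ * A ^ s) ^ 2 ≤ (I'.card : ℝ) ∧ (W₀ * A ^ s) ^ 2 ≤ (J'.card : ℝ) ∧
      (∀ x ∈ I', a x ≤ c₁) ∧ (∀ y ∈ J', c₂ ≤ a y) ∧
      Δ / 2 + Δ * (1 / 2) ^ (s + 1) ≤ c₂ - c₁ ∧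
      ∀ x ∈ I', ∀ y ∈ J', d x y ≤ (3:ℝ) ^ s * ρ := by
    intro s
    induction s with
    | zero =>
      refine ⟨I, J, c, c + Δ, ?_, ?_, haI, haJ, ?_, ?_⟩
      · simp only [pow_zero, mul_one]
        linarith
      · simp only [pow_zero, mul_one]
        linarith
      · norm_num
        linarith
      · simpa using hd
    | succ s ih =>
      obtain ⟨I', J', c₁, c₂, hI', hJ', ha₁, ha₂, hgap, hdd⟩ := ih
      set W := W₀ * A ^ s with hW
      have hW1 : 1 ≤ W := by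
        have : 1 ≤ A ^ s := one_le_pow₀ hA1'
        nlinarith
      set R := (3:ℝ) ^ s * ρ with hR
      have hR0 : 0 < R := by positivity
      set tol := Δ * (1 / 2) ^ (s + 3) with htol
      have htol0 : 0 < tol := by positivity
      have h12 : (0:ℝ) < (1 / 2) ^ (s + 1) := by positivity
      have hval : ∀ x ∈ I', ∀ y ∈ J', Δ / 2 ≤ |a x - a y| := by
        intro x hx y hy
        have h1 := ha₁ x hx
        have h2 := ha₂ y hy
        have h3 : Δ * (1 / 2) ^ (s + 1) ≥ 0 := by positivity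
        rw [abs_sub_comm]
        refine le_trans ?_ (le_abs_self _)
        linarith
      -- the energy conditions
      have hH1 : 6 * A ^ 3 * E < W * (Δ / 2 / R) ^ p :=
        tcl_H1 hp hΔ hρ hE0 hW₀0 hmain s
      have hH2 : 4 * A * E < W * (tol / R) ^ p :=
        tcl_H2 hp hΔ hρ hE0 hW₀0 hmain s
      have hval' : ∀ x ∈ J', ∀ y ∈ I', Δ / 2 ≤ |a x - a y| := by
        intro x hx y hy
        rw [abs_sub_comm]
        exact hval y hy x hx
      have hdd' : ∀ x ∈ J', ∀ y ∈ I', d x y ≤ R := by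
        intro x hx y hy
        rw [h.symm]
        exact hdd y hy x hx
      obtain ⟨k, hk, I'', hI''c, hI''⟩ := grow h hp a hΔ hR0 htol0 hW1 hA1' hH1 hH2 I' J' hI' hJ'
        hval hdd
      obtain ⟨k', hk', J'', hJ''c, hJ''⟩ := grow h hp a hΔ hR0 htol0 hW1 hA1' hH1 hH2 J' I' hJ' hI'
        hval' hdd'
      have hWs : W₀ * A ^ (s + 1) = A * W := by
        rw [hW, pow_succ]
        ring
      refine ⟨I'', J'', c₁ + tol, c₂ - tol, ?_, ?_, ?_, ?_, ?_, ?_⟩
      · rw [hWs]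
        exact hI''c
      · rw [hWs]
        exact hJ''c
      · intro x hx
        have h1 := (hI'' x hx).1
        have h2 := ha₁ k hk
        have h3 := (abs_le.mp h1).2
        linarith
      · intro y hy
        have h1 := (hJ'' y hy).1
        have h2 := ha₂ k' hk'
        have h3 := (abs_le.mp h1).1
        linarith
      · have e : Δ / 2 + Δ * (1 / 2) ^ (s + 1 + 1) + 2 * tol = Δ / 2 + Δ * (1 / 2) ^ (s + 1) := by
          rw [htol]
          ring
        linarith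
      · intro x hx y hy
        have h1 := (hI'' x hx).2
        have h2 := (hJ'' y hy).2
        have h3 := hdd k hk k' hk'
        have h4 : d x y ≤ d x k + d k k' + d k' y := by
          have h5 := h.tri x k y
          have h6 := h.tri k k' y
          linarith
        rw [h.symm x k] at h4
        have e : (3:ℝ) ^ (s + 1) * ρ = 3 * R := by
          rw [hR, pow_succ]
          ring
        rw [e]
        linarith
  -- contradiction with finiteness
  obtain ⟨s, hs⟩ := pow_unbounded_of_one_lt (Fintype.card ι : ℝ) hA1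
  obtain ⟨I', _, _, _, h1, _⟩ := hind s
  have h2 : (I'.card : ℝ) ≤ (Fintype.card ι : ℝ) := by exact_mod_cast Finset.card_le_univ I'
  have h3 : 1 ≤ A ^ s := one_le_pow₀ hA1'
  have h4 : A ^ s ≤ W₀ * A ^ s := le_mul_of_one_le_left (by positivity) hW₀1
  have h5 : W₀ * A ^ s ≤ (W₀ * A ^ s) ^ 2 := by
    have : 1 ≤ W₀ * A ^ s := le_trans h3 h4
    nlinarith
  linarith

end Vale.Agent.Lib.P249L
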