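import Mathlib
import Vale.Agent.Lib.P249L.TwoCluster

open Finset

namespace Vale.Agent.Lib.P249L

open Vale.Agent.Lib.P249

variable {ι : Type*} [Fintype ι]

section median

omit [Fintype ι] in
/-- Existence of a median of the values of `a` on a nonempty finite set. -/
lemma exists_median (S : Finset ι) (a : ι → ℝ) (hS : S.Nonempty) :
    ∃ c, (∃ y ∈ S, a y = c) ∧ S.card ≤ 2 * (S.filter (fun y => a y ≤ c)).card ∧
      S.card ≤ 2 * (S.filter (fun y => c ≤ a y)).card := by
  classical
  set V := S.filter (fun y => S.card ≤ 2 * (S.filter (fun z => a z ≤ a y)).card) with hV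
  have hVne : V.Nonempty := by
    obtain ⟨y, hy, hmax⟩ := Finset.exists_max_image S a hS
    refine ⟨y, Finset.mem_filter.mpr ⟨hy, ?_⟩⟩
    have : S.filter (fun z => a z ≤ a y) = S := Finset.filter_true_of_mem hmax
    rw [this]
    omega
  obtain ⟨y₀, hy₀, hmin⟩ := Finset.exists_min_image V a hVne
  have hy₀S := (Finset.mem_filter.mp hy₀).1
  have hy₀c := (Finset.mem_filter.mp hy₀).2
  refine ⟨a y₀, ⟨y₀, hy₀S, rfl⟩, hy₀c, ?_⟩
  set Lo := S.filter (fun z => a z < a y₀) with hLo
  have hcard : (S.filter (fun y => a y₀ ≤ a y)).card + Lo.card = S.card := by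
    have := Finset.card_filter_add_card_filter_not (s := S) (fun y => a y₀ ≤ a y)
    have e : S.filter (fun y => ¬ a y₀ ≤ a y) = Lo := by
      ext z
      simp [hLo]
    rw [e] at this
    exact this
  by_cases hLoe : Lo = ∅
  · rw [hLoe] at hcard
    simp at hcard
    omega
  · obtain ⟨z₀, hz₀, hmax⟩ := Finset.exists_max_image Lo a (Finset.nonempty_iff_ne_empty.mpr hLoe)
    have hz₀S := (Finset.mem_filter.mp hz₀).1
    have hz₀c := (Finset.mem_filter.mp hz₀).2
    have hnot : ¬ (S.card ≤ 2 * (S.filter (fun z => a z ≤ a z₀)).card) := by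
      intro hc
      have := hmin z₀ (Finset.mem_filter.mpr ⟨hz₀S, hc⟩)
      linarith
    have hsub : Lo ⊆ S.filter (fun z => a z ≤ a z₀) := by
      intro w hw
      exact Finset.mem_filter.mpr ⟨(Finset.mem_filter.mp hw).1, hmax w hw⟩
    have := Finset.card_le_card hsub
    omega

open Classical in
/-- A median of the values of `a` on `S`. -/
noncomputable def med (S : Finset ι) (a : ι → ℝ) : ℝ :=
  if h : S.Nonempty then Classical.choose (exists_median S a h) else 0

lemma med_mem {S : Finset ι} (a : ι → ℝ) (hS : S.Nonempty) : ∃ y ∈ S, a y = med S a := by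
  rw [med, dif_pos hS]
  exact (Classical.choose_spec (exists_median S a hS)).1

lemma med_low {S : Finset ι} (a : ι → ℝ) (hS : S.Nonempty) :
    S.card ≤ 2 * (S.filter (fun y => a y ≤ med S a)).card := by
  rw [med, dif_pos hS]
  exact (Classical.choose_spec (exists_median S a hS)).2.1

lemma med_high {S : Finset ι} (a : ι → ℝ) (hS : S.Nonempty) :
    S.card ≤ 2 * (S.filter (fun y => med S a ≤ a y)).card := by
  rw [med, dif_pos hS]
  exact (Classical.choose_spec (exists_median S a hS)).2.2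

end median

section balls

variable {d : ι → ι → ℝ} {r : ι → ι → ℕ}

/-- The open ball of radius `ρ` around `x`. -/
noncomputable def ball (d : ι → ι → ℝ) (x : ι) (ρ : ℝ) : Finset ι :=
  Finset.univ.filter (fun y => d x y < ρ)

lemma mem_ball {x y : ι} {ρ : ℝ} : y ∈ ball d x ρ ↔ d x y < ρ := by
  simp [ball]

/-- A point of a ball has rank smaller than the cardinality of the ball. -/
lemma rank_lt_card_ball (h : RankedMetric d r) {x y : ι} {ρ : ℝ} (hy : y ∈ ball d x ρ) :
    r x y < (ball d x ρ).card := by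
  classical
  by_contra hcon
  push Not at hcon
  have hR := h.lt x y
  -- the points of rank at most `r x y` all belong to the ball
  have hsub : Finset.univ.filter (fun z => r x z < r x y + 1) ⊆ ball d x ρ := by
    intro z hz
    have hz' : r x z < r x y + 1 := (Finset.mem_filter.mp hz).2
    rw [mem_ball]
    have hz2 : r x z ≤ r x y := by omega
    exact lt_of_le_of_lt (h.mono x y z hz2) (mem_ball.mp hy)
  have hcard := card_rank_filter h x (r x y + 1) (by omega)
  have := Finset.card_le_card hsub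
  omega

/-- The points of low rank lie in every ball which has enough points. -/
lemma low_rank_subset_ball (h : RankedMetric d r) {x : ι} {ρ : ℝ} {q : ℕ}
    (hq : q ≤ (ball d x ρ).card) :
    Finset.univ.filter (fun z => r x z < q) ⊆ ball d x ρ := by
  classical
  intro z hz
  have hz' : r x z < q := (Finset.mem_filter.mp hz).2
  by_contra hzb
  -- all points of the ball have rank smaller than the rank of `z`
  have hlt : ∀ y ∈ ball d x ρ, r x y < r x z := by
    intro y hy
    by_contra hcon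
    push Not at hcon
    have h1 := h.mono x y z hcon
    apply hzb
    rw [mem_ball] at *
    linarith
  have hsub : ball d x ρ ⊆ Finset.univ.filter (fun y => r x y < r x z) := by
    intro y hy
    exact Finset.mem_filter.mpr ⟨Finset.mem_univ _, hlt y hy⟩
  have h2 := Finset.card_le_card hsub
  have h3 := card_rank_filter h x (r x z) (le_of_lt (h.lt x z))
  omega

lemma self_mem_ball (h : RankedMetric d r) {x : ι} {ρ : ℝ} (hρ : 0 < ρ) : x ∈ ball d x ρ := by
  rw [mem_ball, h.self]
  exact hρ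

lemma ball_dist (h : RankedMetric d r) {x y z : ι} {ρ : ℝ} (hy : y ∈ ball d x ρ)
    (hz : z ∈ ball d x ρ) : d y z ≤ 2 * ρ := by
  have h1 := mem_ball.mp hy
  have h2 := mem_ball.mp hz
  have h3 := h.tri y x z
  rw [h.symm y x] at h3
  linarith

end balls

section hits

variable {d : ι → ι → ℝ} {r : ι → ι → ℕ} {p : ℝ}

/-- The far half of a set with respect to a value `v`. -/
lemma far_half {S : Finset ι} (a : ι → ℝ) (hS : S.Nonempty) (v : ℝ) :
    ∃ Z ⊆ S, S.card ≤ 2 * Z.card ∧
      ((∀ y ∈ Z, a y ≤ v - |v - med S a|) ∨ (∀ y ∈ Z, v + |v - med S a| ≤ a y)) := by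
  classical
  by_cases hc : med S a ≤ v
  · refine ⟨S.filter (fun y => a y ≤ med S a), Finset.filter_subset _ _, med_low a hS, Or.inl ?_⟩
    intro y hy
    have := (Finset.mem_filter.mp hy).2
    rw [abs_of_nonneg (by linarith)]
    linarith
  · push Not at hc
    refine ⟨S.filter (fun y => med S a ≤ a y), Finset.filter_subset _ _, med_high a hS, Or.inr ?_⟩
    intro y hy
    have := (Finset.mem_filter.mp hy).2
    rw [abs_of_neg (by linarith)]
    linarith

/-- The number of points of a flat part in the two cluster inequality. -/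
noncomputable def Nm (p K θ : ℝ) : ℝ := (tclConst p * K ^ p / θ) ^ 2

/-- The cardinality threshold attached to a level `θ`. -/
noncomputable def Qn (p K θ : ℝ) : ℕ := ⌈2 * Nm p K θ⌉₊ + 2

lemma Nm_nonneg (p K θ : ℝ) : 0 ≤ Nm p K θ := sq_nonneg _

lemma Qn_ge (p K θ : ℝ) : 2 * Nm p K θ + 2 ≤ (Qn p K θ : ℝ) := by
  unfold Qn
  push_cast
  have := Nat.le_ceil (2 * Nm p K θ)
  linarith

lemma Qn_le (p K θ : ℝ) : (Qn p K θ : ℝ) ≤ 2 * Nm p K θ + 3 := by
  unfold Qn
  push_cast
  have := Nat.ceil_lt_add_one (a := 2 * Nm p K θ) (by have := Nm_nonneg p K θ; positivity)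
  linarith

lemma two_le_Qn (p K θ : ℝ) : 2 ≤ Qn p K θ := by
  unfold Qn
  omega

lemma Nm_ge_one {p K θ : ℝ} (hp : 1 ≤ p) (hK : 1 ≤ K) (hθ0 : 0 < θ) (hθ1 : θ ≤ 1) :
    1 ≤ Nm p K θ := by
  unfold Nm
  have h1 := tclConst_ge_one hp
  have h2 : 1 ≤ K ^ p := Real.one_le_rpow hK (by linarith)
  have h3 : 1 ≤ tclConst p * K ^ p / θ := by
    rw [one_le_div hθ0]
    nlinarith
  exact one_le_pow₀ h3

lemma Qn_le' {p K θ : ℝ} (hp : 1 ≤ p) (hK : 1 ≤ K) (hθ0 : 0 < θ) (hθ1 : θ ≤ 1) :
    (Qn p K θ : ℝ) ≤ 5 * Nm p K θ := by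
  have h1 := Qn_le p K θ
  have h2 := Nm_ge_one hp hK hθ0 hθ1
  linarith

lemma sqrt_Qn_le {p K θ : ℝ} (hp : 1 ≤ p) (hK : 1 ≤ K) (hθ0 : 0 < θ) (hθ1 : θ ≤ 1) :
    Real.sqrt (Qn p K θ : ℝ) ≤ 3 * (tclConst p * K ^ p / θ) := by
  have h0 : 0 ≤ tclConst p * K ^ p / θ := by
    have := tclConst_pos p
    have h2 : 0 < K ^ p := by
      apply Real.rpow_pos_of_pos
      linarith
    positivity
  rw [Real.sqrt_le_left (by positivity)]
  have h1 := Qn_le' hp hK hθ0 hθ1
  unfold Nm at h1
  nlinarith [sq_nonneg (tclConst p * K ^ p / θ)]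

/-- The arithmetic of the two cluster inequality, in the form used below. -/
lemma tcl_excl {p K θ E D ρ N : ℝ} (hp : 1 ≤ p) (hK : 0 < K) (hθ0 : 0 < θ) (hE : 0 < E)
    (hρ : 0 < ρ) (hN : 1 ≤ N)
    (hlow : θ * E ≤ (D / ρ) ^ p) (hD : 0 ≤ D)
    (htcl : Real.sqrt N * (D / K / ρ) ^ p ≤ tclConst p * E) :
    N ≤ Nm p K θ := by
  have hp0 : 0 < p := by linarith
  have hKp : 0 < K ^ p := Real.rpow_pos_of_pos hK p
  have e : (D / K / ρ) ^ p = (D / ρ) ^ p / K ^ p := by
    have : D / K / ρ = (D / ρ) / K := by ring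
    rw [this, Real.div_rpow (by positivity) hK.le]
  rw [e] at htcl
  have h1 : Real.sqrt N * (θ * E / K ^ p) ≤ tclConst p * E := by
    refine le_trans ?_ htcl
    apply mul_le_mul_of_nonneg_left _ (Real.sqrt_nonneg _)
    exact div_le_div_of_nonneg_right hlow hKp.le
  have h2 : Real.sqrt N ≤ tclConst p * K ^ p / θ := by
    rw [le_div_iff₀ hθ0]
    have h3 : (Real.sqrt N * θ) * E ≤ (tclConst p * K ^ p) * E := by
      have h4 : Real.sqrt N * (θ * E / K ^ p) * K ^ p ≤ tclConst p * E * K ^ p :=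
        mul_le_mul_of_nonneg_right h1 hKp.le
      have e2 : Real.sqrt N * (θ * E / K ^ p) * K ^ p = (Real.sqrt N * θ) * E := by
        field_simp
      rw [e2] at h4
      linarith
    exact le_of_mul_le_mul_right h3 hE
  unfold Nm
  have h5 : N = Real.sqrt N ^ 2 := (Real.sq_sqrt (by linarith)).symm
  rw [h5]
  exact pow_le_pow_left₀ (Real.sqrt_nonneg _) h2 2

/-- If the point `x` is far from the median of a ball with many points, then most of its
closest points are far from `x`. -/
lemma hit_flat_exclusion (h : RankedMetric d r) (hp : 1 ≤ p) (a : ι → ℝ) {x : ι} {ρ θ : ℝ}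
    (hρ : 0 < ρ) (hθ0 : 0 < θ) (hE : 0 < Etot d r p a)
    (hhit : θ * Etot d r p a ≤ (|a x - med (ball d x ρ) a| / ρ) ^ p)
    (hQ : Qn p 4 θ ≤ (ball d x ρ).card) :
    Qn p 4 θ ≤ 2 * ((Finset.univ.filter (fun z => r x z < Qn p 4 θ)).filter
      (fun z => |a x - med (ball d x ρ) a| / 2 ≤ |a z - a x|)).card := by
  classical
  have hp0 : 0 < p := by linarith
  set S := ball d x ρ with hS
  set c := med S a with hc
  set D := |a x - c| with hD
  set E := Etot d r p a with hEdef
  set Q := Qn p 4 θ with hQdef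
  have hSne : S.Nonempty := ⟨x, self_mem_ball h hρ⟩
  have hD0 : 0 < D := by
    rcases (abs_nonneg (a x - c)).lt_or_eq with h1 | h1
    · exact h1
    · exfalso
      rw [hD, ← h1, zero_div, Real.zero_rpow hp0.ne'] at hhit
      have : 0 < θ * E := mul_pos hθ0 hE
      linarith
  set F := Finset.univ.filter (fun z => r x z < Q) with hF
  have hQn : Q ≤ Fintype.card ι := le_trans hQ (Finset.card_le_univ _)
  have hFcard : F.card = Q := card_rank_filter h x Q hQn
  have hFS : F ⊆ S := low_rank_subset_ball h hQ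
  set T := F.filter (fun z => D / 2 ≤ |a z - a x|) with hT
  set F' := F.filter (fun z => ¬ (D / 2 ≤ |a z - a x|)) with hF'
  have hsum : T.card + F'.card = F.card := Finset.card_filter_add_card_filter_not (s := F) _
  by_contra hcon
  push Not at hcon
  obtain ⟨Z, hZS, hZc, hZ⟩ := far_half a hSne (a x)
  rw [← hc, ← hD] at hZ
  have hQ2 : (2:ℝ) ≤ Q := by exact_mod_cast two_le_Qn p 4 θ
  have hN1 : (1:ℝ) ≤ (Q:ℝ) / 2 := by linarith
  have hZN : (Q:ℝ) / 2 ≤ (Z.card : ℝ) := by
    have h1 : (S.card : ℝ) ≤ 2 * Z.card := by exact_mod_cast hZc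
    have h2 : (Q : ℝ) ≤ S.card := by exact_mod_cast hQ
    linarith
  have hF'N : (Q:ℝ) / 2 ≤ (F'.card : ℝ) := by
    have h1 : (T.card : ℝ) + F'.card = Q := by
      rw [← hFcard, ← hsum]
      push_cast
      ring
    have h2 : 2 * (T.card : ℝ) < Q := by exact_mod_cast hcon
    linarith
  have hdist : ∀ u ∈ S, ∀ v ∈ S, d u v ≤ 2 * ρ := fun u hu v hv => ball_dist h hu hv
  have hF'S : ∀ z ∈ F', z ∈ S := fun z hz => hFS (Finset.mem_filter.mp hz).1
  have hF'val : ∀ z ∈ F', |a z - a x| < D / 2 := fun z hz => not_le.mp (Finset.mem_filter.mp hz).2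
  have hconc : Real.sqrt ((Q:ℝ) / 2) * (D / 4 / ρ * 1) ^ p ≤ tclConst p * E := by
    have e : D / 4 / ρ * 1 = D / 2 / (2 * ρ) := by
      field_simp
      norm_num
    rw [e]
    rcases hZ with hZ | hZ
    · refine tcl h hp a (I := Z) (J := F') (c := a x - D) (Δ := D / 2) (ρ := 2 * ρ)
        (by positivity) (by positivity) hN1 hZN hF'N hZ ?_ ?_
      · intro y hy
        have := (abs_lt.mp (hF'val y hy)).1
        linarith
      · intro u hu v hv
        exact hdist u (hZS hu) v (hF'S v hv)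
    · refine tcl h hp a (I := F') (J := Z) (c := a x + D / 2) (Δ := D / 2) (ρ := 2 * ρ)
        (by positivity) (by positivity) hN1 hF'N hZN ?_ ?_ ?_
      · intro y hy
        have := (abs_lt.mp (hF'val y hy)).2
        linarith
      · intro y hy
        have := hZ y hy
        linarith
      · intro u hu v hv
        exact hdist u (hF'S u hu) v (hZS hv)
  rw [mul_one] at hconc
  have hle := tcl_excl (K := 4) hp (by norm_num) hθ0 hE hρ hN1 hhit hD0.le hconc
  have h5 := Qn_ge p 4 θ
  rw [← hQdef] at h5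
  linarith

/-- A point far from the median of a ball has large energy. -/
lemma hit_energy_aux (h : RankedMetric d r) (hp : 1 ≤ p) (a : ι → ℝ) {x : ι} {ρ θ : ℝ}
    (hρ : 0 < ρ) (hθ0 : 0 < θ) (hE : 0 < Etot d r p a)
    (hhit : θ * Etot d r p a ≤ (|a x - med (ball d x ρ) a| / ρ) ^ p) :
    θ * Etot d r p a / (2 * Real.sqrt (Qn p 4 θ) * (2:ℝ) ^ p) ≤ En d r p a x := by
  classical
  have hp0 : 0 < p := by linarith
  set S := ball d x ρ with hS
  set c := med S a with hc
  set D := |a x - c| with hD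
  set E := Etot d r p a with hEdef
  set Q := Qn p 4 θ with hQdef
  have hSne : S.Nonempty := ⟨x, self_mem_ball h hρ⟩
  have hD0 : 0 < D := by
    rcases (abs_nonneg (a x - c)).lt_or_eq with h1 | h1
    · exact h1
    · exfalso
      rw [hD, ← h1, zero_div, Real.zero_rpow hp0.ne'] at hhit
      have : 0 < θ * E := mul_pos hθ0 hE
      linarith
  have hQ2 : (2:ℝ) ≤ Q := by exact_mod_cast two_le_Qn p 4 θ
  have hQ0 : (0:ℝ) < Q := by linarith
  have hsQ : 0 < Real.sqrt (Q:ℝ) := Real.sqrt_pos.mpr hQ0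
  have h2p : (1:ℝ) ≤ (2:ℝ) ^ p := Real.one_le_rpow (by norm_num) hp0.le
  have hθE : 0 < θ * E := mul_pos hθ0 hE
  by_cases hcase : (S.card : ℝ) ≤ Q
  · -- few points in the ball
    obtain ⟨Z, hZS, hZc, hZ⟩ := far_half a hSne (a x)
    rw [← hc, ← hD] at hZ
    have hGpos : 0 < S.card := Finset.card_pos.mpr hSne
    have hG0 : (0:ℝ) < S.card := by exact_mod_cast hGpos
    have hval : ∀ y ∈ Z, D ≤ |a x - a y| := by
      intro y hy
      rcases hZ with hZ | hZ
      · have := hZ y hy
        rw [abs_of_nonneg (by linarith)]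
        linarith
      · have := hZ y hy
        rw [abs_sub_comm, abs_of_nonneg (by linarith)]
        linarith
    have h1 := En_ge_of_set h hp a x Z (G := S.card) (Δ := D) (R := ρ) hD0 hρ
      (fun y hy => rank_lt_card_ball h (hZS hy)) hval
      (fun y hy => (mem_ball.mp (hZS hy)).le)
    set sG := Real.sqrt (S.card : ℝ) with hsG
    have hsG0 : 0 < sG := Real.sqrt_pos.mpr hG0
    have hsGle : sG ≤ Real.sqrt Q := Real.sqrt_le_sqrt hcase
    have hsGsq : sG * sG = S.card := Real.mul_self_sqrt hG0.le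
    have hZc' : (S.card : ℝ) ≤ 2 * Z.card := by exact_mod_cast hZc
    have hr : (D / ρ) ^ p / (2 * sG) ≤ (Z.card : ℝ) * (1 / ((S.card : ℝ) * sG) * (D / ρ) ^ p) := by
      have hDp : 0 ≤ (D / ρ) ^ p := by positivity
      have e : (Z.card : ℝ) * (1 / ((S.card : ℝ) * sG) * (D / ρ) ^ p) =
          ((Z.card : ℝ) / ((S.card : ℝ) * sG)) * (D / ρ) ^ p := by ring
      rw [e, div_eq_mul_inv, mul_comm]
      apply mul_le_mul_of_nonneg_right _ hDp
      rw [inv_eq_one_div, div_le_div_iff₀ (by positivity) (by positivity)]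
      nlinarith
    have h2 : θ * E / (2 * Real.sqrt Q * (2:ℝ) ^ p) ≤ (D / ρ) ^ p / (2 * sG) := by
      apply div_le_div₀ (by positivity) hhit (by positivity)
      have : 2 * sG * 1 ≤ 2 * Real.sqrt Q * (2:ℝ) ^ p := by
        apply mul_le_mul (by linarith) h2p (by norm_num) (by positivity)
      linarith
    linarith
  · -- many points in the ball
    push Not at hcase
    have hQcard : Q ≤ S.card := by exact_mod_cast hcase.le
    have hT := hit_flat_exclusion h hp a hρ hθ0 hE hhit hQcard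
    rw [← hQdef, ← hS, ← hc, ← hD] at hT
    set T := (Finset.univ.filter (fun z => r x z < Q)).filter (fun z => D / 2 ≤ |a z - a x|) with hTd
    have hFS : Finset.univ.filter (fun z => r x z < Q) ⊆ S := low_rank_subset_ball h hQcard
    have h1 := En_ge_of_set h hp a x T (G := Q) (Δ := D / 2) (R := ρ) (by positivity) hρ
      (fun y hy => (Finset.mem_filter.mp (Finset.mem_filter.mp hy).1).2)
      (fun y hy => by
        rw [abs_sub_comm]
        exact (Finset.mem_filter.mp hy).2)
      (fun y hy => (mem_ball.mp (hFS (Finset.mem_filter.mp hy).1)).le)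
    set sQ := Real.sqrt (Q:ℝ) with hsQd
    have hsQsq : sQ * sQ = Q := Real.mul_self_sqrt hQ0.le
    have hTc' : (Q : ℝ) ≤ 2 * T.card := by exact_mod_cast hT
    have e2 : (D / 2 / ρ) ^ p = (D / ρ) ^ p / (2:ℝ) ^ p := by
      have : D / 2 / ρ = (D / ρ) / 2 := by ring
      rw [this, Real.div_rpow (by positivity) (by norm_num)]
    rw [e2] at h1
    have hr : (θ * E / (2:ℝ) ^ p) / (2 * sQ) ≤
        (T.card : ℝ) * (1 / ((Q : ℝ) * sQ) * ((D / ρ) ^ p / (2:ℝ) ^ p)) := by
      have h3 : θ * E / (2:ℝ) ^ p ≤ (D / ρ) ^ p / (2:ℝ) ^ p :=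
        div_le_div_of_nonneg_right hhit (by positivity)
      have h4 : 0 ≤ (D / ρ) ^ p / (2:ℝ) ^ p := by positivity
      have e : (T.card : ℝ) * (1 / ((Q : ℝ) * sQ) * ((D / ρ) ^ p / (2:ℝ) ^ p)) =
          ((T.card : ℝ) / ((Q : ℝ) * sQ)) * ((D / ρ) ^ p / (2:ℝ) ^ p) := by ring
      rw [e]
      have h5 : 1 / (2 * sQ) ≤ (T.card : ℝ) / ((Q : ℝ) * sQ) := by
        rw [div_le_div_iff₀ (by positivity) (by positivity)]
        nlinarith
      calc (θ * E / (2:ℝ) ^ p) / (2 * sQ) = (1 / (2 * sQ)) * (θ * E / (2:ℝ) ^ p) := by ring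
        _ ≤ (1 / (2 * sQ)) * ((D / ρ) ^ p / (2:ℝ) ^ p) :=
            mul_le_mul_of_nonneg_left h3 (by positivity)
        _ ≤ _ := mul_le_mul_of_nonneg_right h5 h4
    have e3 : θ * E / (2 * sQ * (2:ℝ) ^ p) = (θ * E / (2:ℝ) ^ p) / (2 * sQ) := by
      field_simp
    rw [e3]
    linarith

/-- The constant of `hit_energy`. -/
noncomputable def hitConst (p : ℝ) : ℝ := 6 * tclConst p * (8:ℝ) ^ p

lemma hitConst_pos (p : ℝ) : 0 < hitConst p := by
  unfold hitConst
  have := tclConst_pos p
  positivity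

/-- A point far from the median of a ball has large energy. -/
lemma hit_energy (h : RankedMetric d r) (hp : 1 ≤ p) (a : ι → ℝ) {x : ι} {ρ θ : ℝ}
    (hρ : 0 < ρ) (hθ0 : 0 < θ) (hθ1 : θ ≤ 1) (hE : 0 < Etot d r p a)
    (hhit : θ * Etot d r p a ≤ (|a x - med (ball d x ρ) a| / ρ) ^ p) :
    θ ^ 2 * Etot d r p a / hitConst p ≤ En d r p a x := by
  refine le_trans ?_ (hit_energy_aux h hp a hρ hθ0 hE hhit)
  have h1 := sqrt_Qn_le hp (by norm_num : (1:ℝ) ≤ 4) hθ0 hθ1
  set sQ := Real.sqrt (Qn p 4 θ : ℝ) with hsQ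
  have hQ0 : (0:ℝ) < Qn p 4 θ := by
    have := two_le_Qn p 4 θ
    exact_mod_cast (by omega : 0 < Qn p 4 θ)
  have hsQ0 : 0 < sQ := Real.sqrt_pos.mpr hQ0
  have hT := tclConst_pos p
  have e8 : (8:ℝ) ^ p = (4:ℝ) ^ p * (2:ℝ) ^ p := by
    rw [← Real.mul_rpow (by norm_num) (by norm_num)]
    norm_num
  set E := Etot d r p a with hEd
  have h2p : (0:ℝ) < (2:ℝ) ^ p := by positivity
  have h4p : (0:ℝ) < (4:ℝ) ^ p := by positivity
  have e : θ ^ 2 * E / hitConst p = θ * E / ((6 * (tclConst p * (4:ℝ) ^ p / θ)) * (2:ℝ) ^ p) := by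
    unfold hitConst
    rw [e8]
    field_simp
  rw [e]
  apply div_le_div_of_nonneg_left (by positivity) (by positivity)
  apply mul_le_mul_of_nonneg_right _ h2p.le
  linarith

lemma le_of_rpow_le {t B p : ℝ} (ht : 0 ≤ t) (hp : 1 ≤ p) (hB : 1 ≤ B) (h : t ^ p ≤ B) : t ≤ B := by
  by_cases h1 : t ≤ 1
  · linarith
  · push Not at h1
    have h2 : t ^ (1:ℝ) ≤ t ^ p := Real.rpow_le_rpow_of_exponent_le h1.le hp
    rw [Real.rpow_one] at h2
    linarith

/-- The radius attached to an exponent. -/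
noncomputable def rad (e : ℤ) : ℝ := 2 * (2:ℝ) ^ e

lemma rad_pos (e : ℤ) : 0 < rad e := by
  unfold rad
  positivity

lemma rad_mono {e e' : ℤ} (h : e ≤ e') : rad e ≤ rad e' := by
  unfold rad
  have := zpow_le_zpow_right₀ (by norm_num : (1:ℝ) ≤ 2) h
  linarith

lemma rad_le_zpow {e e' : ℤ} (h : e < e') : rad e ≤ (2:ℝ) ^ e' := by
  unfold rad
  have h1 : e + 1 ≤ e' := h
  have h2 := zpow_le_zpow_right₀ (by norm_num : (1:ℝ) ≤ 2) h1
  rw [zpow_add_one₀ (by norm_num)] at h2
  linarith

/-- The cardinalities of the balls attached to nonempty windows are strictly increasing. -/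
lemma card_ball_lt {x y : ι} {e e' : ℤ} (hee : e < e')
    (hy1 : (2:ℝ) ^ e' ≤ d x y) (hy2 : d x y < rad e') :
    (ball d x (rad e)).card < (ball d x (rad e')).card := by
  apply Finset.card_lt_card
  refine ⟨?_, ?_⟩
  · intro z hz
    rw [mem_ball] at *
    exact lt_of_lt_of_le hz (rad_mono hee.le)
  · intro hsub
    have h1 : y ∈ ball d x (rad e') := mem_ball.mpr hy2
    have h2 := mem_ball.mp (hsub h1)
    have h3 := rad_le_zpow hee
    linarith

/-- The number of exponents `e` at which a point is far from the median. -/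
lemma count_exponents (h : RankedMetric d r) (hp : 1 ≤ p) (a : ι → ℝ) {x : ι} {θ : ℝ}
    (hθ0 : 0 < θ) (hθ1 : θ ≤ 1) (hE : 0 < Etot d r p a) (W : Finset ℤ)
    (hW : ∀ e ∈ W, (∃ y, y ≠ x ∧ (2:ℝ) ^ e ≤ d x y ∧ d x y < rad e) ∧
      θ * Etot d r p a ≤ (|a x - med (ball d x (rad e)) a| / rad e) ^ p) :
    (W.card : ℝ) ≤ (Qn p 4 θ : ℝ) + 4 * Real.sqrt (Qn p 4 θ) / θ + 1 := by
  classical
  have hp0 : 0 < p := by linarith
  set Q := Qn p 4 θ with hQdef
  set E := Etot d r p a with hEdef
  set W₁ := W.filter (fun e => (ball d x (rad e)).card ≤ Q) with hW₁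
  set W₂ := W.filter (fun e => ¬ (ball d x (rad e)).card ≤ Q) with hW₂
  have hsplit : W₁.card + W₂.card = W.card := Finset.card_filter_add_card_filter_not (s := W) _
  have hQ2 : 2 ≤ Q := two_le_Qn p 4 θ
  have hQ0 : (0:ℝ) < Q := by exact_mod_cast (by omega : 0 < Q)
  set sQ := Real.sqrt (Q:ℝ) with hsQ
  have hsQ1 : 1 ≤ sQ := by
    rw [hsQ, Real.one_le_sqrt]
    exact_mod_cast (by omega : 1 ≤ Q)
  -- the small balls
  have hW₁card : W₁.card ≤ Q := by
    have hmaps : ∀ e ∈ W₁, (ball d x (rad e)).card ∈ Finset.Icc 1 Q := by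
      intro e he
      have h1 := (Finset.mem_filter.mp he).2
      have h2 : x ∈ ball d x (rad e) := self_mem_ball h (rad_pos e)
      have h3 : 0 < (ball d x (rad e)).card := Finset.card_pos.mpr ⟨x, h2⟩
      exact Finset.mem_Icc.mpr ⟨h3, h1⟩
    have hinj : Set.InjOn (fun e => (ball d x (rad e)).card) (W₁ : Set ℤ) := by
      intro e he e' he' heq
      by_contra hne
      have he1 := (Finset.mem_filter.mp he).1
      have he'1 := (Finset.mem_filter.mp he').1
      rcases lt_or_gt_of_ne hne with hlt | hlt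
      · obtain ⟨⟨y, _, hy1, hy2⟩, _⟩ := hW e' he'1
        have := card_ball_lt hlt hy1 hy2
        simp only at heq
        omega
      · obtain ⟨⟨y, _, hy1, hy2⟩, _⟩ := hW e he1
        have := card_ball_lt hlt hy1 hy2
        simp only at heq
        omega
    have := Finset.card_le_card_of_injOn _ hmaps hinj
    simpa using this
  -- the large balls
  have hW₂card : (W₂.card : ℝ) ≤ 4 * sQ / θ + 1 := by
    by_cases hne : W₂.Nonempty
    · have hQn : Q ≤ Fintype.card ι := by
        obtain ⟨e, he⟩ := hne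
        have h1 := (Finset.mem_filter.mp he).2
        have h2 : (ball d x (rad e)).card ≤ Fintype.card ι := Finset.card_le_univ _
        omega
      set F := Finset.univ.filter (fun z => r x z < Q) with hF
      have hFcard : F.card = Q := card_rank_filter h x Q hQn
      have hFne : F.Nonempty := by
        rw [← Finset.card_pos, hFcard]
        omega
      obtain ⟨ys, hysF, hys⟩ := Finset.exists_max_image F (fun z => d x z) hFne
      set ρs := d x ys with hρs
      have hρs0 : 0 < ρs := by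
        obtain ⟨z, hzF, hzx⟩ := Finset.exists_mem_ne (by omega : 1 < F.card) x
        have h1 := h.pos x z (Ne.symm hzx)
        have h2 := hys z hzF
        linarith
      set M' := 4 * sQ / θ with hM'
      have hM'0 : 0 < M' := by positivity
      have hrad : ∀ e ∈ W₂, ρs < rad e ∧ rad e ≤ M' * ρs := by
        intro e he
        have he1 := (Finset.mem_filter.mp he).1
        have he2 : Q ≤ (ball d x (rad e)).card := by
          have := (Finset.mem_filter.mp he).2
          omega
        obtain ⟨_, hhit⟩ := hW e he1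
        have hFS : F ⊆ ball d x (rad e) := low_rank_subset_ball h he2
        refine ⟨mem_ball.mp (hFS hysF), ?_⟩
        have hT := hit_flat_exclusion h hp a (rad_pos e) hθ0 hE hhit he2
        rw [← hQdef, ← hF] at hT
        set D := |a x - med (ball d x (rad e)) a| with hD
        have hD0 : 0 < D := by
          rcases (abs_nonneg (a x - med (ball d x (rad e)) a)).lt_or_eq with h1 | h1
          · exact h1
          · exfalso
            rw [hD, ← h1, zero_div, Real.zero_rpow hp0.ne'] at hhit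
            have : 0 < θ * E := mul_pos hθ0 hE
            linarith
        set T := F.filter (fun z => D / 2 ≤ |a z - a x|) with hTd
        have h1 := En_ge_of_set h hp a x T (G := Q) (Δ := D / 2) (R := ρs) (by positivity) hρs0
          (fun y hy => (Finset.mem_filter.mp (Finset.mem_filter.mp hy).1).2)
          (fun y hy => by
            rw [abs_sub_comm]
            exact (Finset.mem_filter.mp hy).2)
          (fun y hy => hys y (Finset.mem_filter.mp hy).1)
        rw [← hsQ] at h1
        have hsQsq : sQ * sQ = Q := Real.mul_self_sqrt hQ0.le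
        have hTc' : (Q : ℝ) ≤ 2 * T.card := by exact_mod_cast hT
        have hEnE : En d r p a x ≤ E :=
          Finset.single_le_sum (f := fun x => En d r p a x) (fun z _ => En_nonneg h p a z)
            (Finset.mem_univ x)
        set b := (D / 2 / ρs) ^ p with hb
        have hb0 : 0 ≤ b := by positivity
        have h2 : b / (2 * sQ) ≤ (T.card : ℝ) * (1 / ((Q : ℝ) * sQ) * b) := by
          have e : (T.card : ℝ) * (1 / ((Q : ℝ) * sQ) * b) = ((T.card : ℝ) / ((Q : ℝ) * sQ)) * b := by
            ring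
          rw [e, div_eq_mul_inv, mul_comm]
          apply mul_le_mul_of_nonneg_right _ hb0
          rw [inv_eq_one_div, div_le_div_iff₀ (by positivity) (by positivity)]
          nlinarith
        have h3 : b ≤ 2 * sQ * E := by
          have h4 : b / (2 * sQ) ≤ E := by linarith
          rwa [div_le_iff₀ (by positivity), mul_comm] at h4
        -- compare the radii
        set t := rad e / (2 * ρs) with ht
        have ht0 : 0 < t := div_pos (rad_pos e) (by positivity)
        have e2 : D / 2 / ρs = (D / rad e) * t := by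
          rw [ht]
          have := (rad_pos e).ne'
          field_simp
        have h5 : (D / rad e) ^ p * t ^ p = b := by
          rw [hb, e2, Real.mul_rpow (by have := rad_pos e; positivity) ht0.le]
        have h6 : θ * E * t ^ p ≤ 2 * sQ * E := by
          have htp : 0 ≤ t ^ p := by positivity
          calc θ * E * t ^ p ≤ (D / rad e) ^ p * t ^ p := mul_le_mul_of_nonneg_right hhit htp
            _ = b := h5
            _ ≤ _ := h3
        have h7 : t ^ p ≤ 2 * sQ / θ := by
          rw [le_div_iff₀ hθ0]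
          have h8 : (t ^ p * θ) * E ≤ (2 * sQ) * E := by
            calc (t ^ p * θ) * E = θ * E * t ^ p := by ring
              _ ≤ _ := h6
          exact le_of_mul_le_mul_right h8 hE
        have hB1 : 1 ≤ 2 * sQ / θ := by
          rw [one_le_div hθ0]
          linarith
        have h9 := le_of_rpow_le ht0.le hp hB1 h7
        rw [ht, div_le_iff₀ (by positivity)] at h9
        have e3 : 2 * sQ / θ * (2 * ρs) = M' * ρs := by
          rw [hM']
          ring
        rw [e3] at h9
        exact h9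
      set e₀ := W₂.min' hne with he₀
      have he₀mem : e₀ ∈ W₂ := Finset.min'_mem _ _
      have hmaps : ∀ e ∈ W₂, (e - e₀).toNat ∈ Finset.range ⌈M'⌉₊ := by
        intro e he
        have hle : e₀ ≤ e := Finset.min'_le _ _ he
        obtain ⟨n, hn⟩ := Int.eq_ofNat_of_zero_le (sub_nonneg.mpr hle)
        rw [hn]
        simp only [Int.toNat_natCast, Finset.mem_range]
        have h1 := (hrad e he).2
        have h2 := (hrad e₀ he₀mem).1
        have h3 : rad e = (2:ℝ) ^ n * rad e₀ := by
          have h4 : e = e₀ + (n:ℤ) := by omega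
          rw [h4, rad, rad, zpow_add₀ (by norm_num), zpow_natCast]
          ring
        have h5 : (2:ℝ) ^ n < M' := by
          have h6 : (2:ℝ) ^ n * rad e₀ ≤ M' * ρs := by
            rw [← h3]
            exact h1
          have h7 : (2:ℝ) ^ n * ρs < (2:ℝ) ^ n * rad e₀ :=
            mul_lt_mul_of_pos_left h2 (by positivity)
          have h8 : (2:ℝ) ^ n * ρs < M' * ρs := lt_of_lt_of_le h7 h6
          exact lt_of_mul_lt_mul_right h8 hρs0.le
        have h9 : (n:ℝ) < (2:ℝ) ^ n := by exact_mod_cast Nat.lt_two_pow_self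
        have h10 : (n:ℝ) < M' := lt_trans h9 h5
        exact Nat.lt_ceil.mpr h10
      have hinj : Set.InjOn (fun e : ℤ => (e - e₀).toNat) (W₂ : Set ℤ) := by
        intro e he e' he' heq
        have hle : e₀ ≤ e := Finset.min'_le _ _ he
        have hle' : e₀ ≤ e' := Finset.min'_le _ _ he'
        simp only at heq
        omega
      have h1 := Finset.card_le_card_of_injOn _ hmaps hinj
      rw [Finset.card_range] at h1
      have h2 : (W₂.card : ℝ) ≤ (⌈M'⌉₊ : ℝ) := by exact_mod_cast h1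
      have h3 := Nat.ceil_lt_add_one hM'0.le
      linarith
    · rw [Finset.not_nonempty_iff_eq_empty] at hne
      rw [hne]
      simp only [Finset.card_empty, Nat.cast_zero]
      positivity
  have h1 : (W.card : ℝ) = W₁.card + W₂.card := by
    rw [← hsplit]
    push_cast
    ring
  have h2 : (W₁.card : ℝ) ≤ Q := by exact_mod_cast hW₁card
  rw [h1]
  linarith

/-- The number of points with a large share of the energy. -/
lemma card_high_energy (h : RankedMetric d r) (a : ι → ℝ) {e₀ : ℝ} (he₀ : 0 < e₀)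
    (hE : 0 < Etot d r p a) (H : Finset ι)
    (hH : ∀ x ∈ H, e₀ * Etot d r p a ≤ En d r p a x) :
    (H.card : ℝ) ≤ 1 / e₀ := by
  rw [le_div_iff₀ he₀]
  have h1 : (H.card : ℝ) * (e₀ * Etot d r p a) ≤ Etot d r p a := by
    calc (H.card : ℝ) * (e₀ * Etot d r p a) = ∑ x ∈ H, (e₀ * Etot d r p a) := by
          rw [Finset.sum_const, nsmul_eq_mul]
      _ ≤ ∑ x ∈ H, En d r p a x := Finset.sum_le_sum hH
      _ ≤ Etot d r p a := Finset.sum_le_sum_of_subset_of_nonneg (Finset.subset_univ _)
          (fun x _ _ => En_nonneg h p a x)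
  have h2 : ((H.card : ℝ) * e₀) * Etot d r p a ≤ 1 * Etot d r p a := by
    rw [one_mul]
    calc ((H.card : ℝ) * e₀) * Etot d r p a = (H.card : ℝ) * (e₀ * Etot d r p a) := by ring
      _ ≤ _ := h1
  exact le_of_mul_le_mul_right h2 hE

/-- The polynomial bound for the number of exponents of a point. -/
noncomputable def rowConst (p : ℝ) : ℝ := 18 * (tclConst p * (4:ℝ) ^ p) ^ 2

lemma rowConst_pos (p : ℝ) : 0 < rowConst p := by
  unfold rowConst
  have := tclConst_pos p
  positivity

lemma exponents_le {p θ : ℝ} (hp : 1 ≤ p) (hθ0 : 0 < θ) (hθ1 : θ ≤ 1) :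
    (Qn p 4 θ : ℝ) + 4 * Real.sqrt (Qn p 4 θ) / θ + 1 ≤ rowConst p / θ ^ 2 := by
  have h1 := Qn_le' hp (by norm_num : (1:ℝ) ≤ 4) hθ0 hθ1
  have h2 := sqrt_Qn_le hp (by norm_num : (1:ℝ) ≤ 4) hθ0 hθ1
  set u := tclConst p * (4:ℝ) ^ p with hu
  have hu1 : 1 ≤ u := by
    have h3 := tclConst_ge_one hp
    have h4 : (1:ℝ) ≤ (4:ℝ) ^ p := Real.one_le_rpow (by norm_num) (by linarith)
    rw [hu]
    nlinarith
  have hNm : Nm p 4 θ = u ^ 2 / θ ^ 2 := by
    unfold Nm
    rw [div_pow]
  rw [hNm] at h1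
  have h5 : 4 * Real.sqrt (Qn p 4 θ) / θ ≤ 12 * u / θ ^ 2 := by
    have h6 : 4 * Real.sqrt (Qn p 4 θ) ≤ 4 * (3 * (u / θ)) := by linarith
    calc 4 * Real.sqrt (Qn p 4 θ) / θ ≤ 4 * (3 * (u / θ)) / θ :=
          div_le_div_of_nonneg_right h6 hθ0.le
      _ = _ := by
          field_simp
          norm_num
  have h7 : (1:ℝ) ≤ 1 / θ ^ 2 := by
    rw [one_le_div (by positivity)]
    have : θ ^ 2 ≤ 1 ^ 2 := pow_le_pow_left₀ hθ0.le hθ1 2
    linarith
  have h8 : rowConst p / θ ^ 2 = 18 * (u ^ 2 / θ ^ 2) := by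
    unfold rowConst
    rw [← hu]
    ring
  rw [h8]
  have h9 : 5 * (u ^ 2 / θ ^ 2) + 12 * u / θ ^ 2 + 1 / θ ^ 2 ≤ 18 * (u ^ 2 / θ ^ 2) := by
    have e : 5 * (u ^ 2 / θ ^ 2) + 12 * u / θ ^ 2 + 1 / θ ^ 2 =
        (5 * u ^ 2 + 12 * u + 1) / θ ^ 2 := by
      field_simp
    have e' : 18 * (u ^ 2 / θ ^ 2) = (18 * u ^ 2) / θ ^ 2 := by ring
    rw [e, e']
    apply div_le_div_of_nonneg_right _ (by positivity)
    nlinarith
  linarith

/-- The number of rows hit at the level `θ`. -/
lemma count_rows (h : RankedMetric d r) (hp : 1 ≤ p) (a : ι → ℝ) {θ : ℝ}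
    (hθ0 : 0 < θ) (hθ1 : θ ≤ 1) (hE : 0 < Etot d r p a) (A : Finset (ι × ℤ))
    (hA : ∀ q ∈ A, ∃ y, y ≠ q.1 ∧ (2:ℝ) ^ q.2 ≤ d q.1 y ∧ d q.1 y < rad q.2) :
    ((A.filter (fun q => θ * Etot d r p a ≤
      (|a q.1 - med (ball d q.1 (rad q.2)) a| / rad q.2) ^ p)).card : ℝ) ≤
      hitConst p * rowConst p / θ ^ 4 := by
  classical
  set Hit := A.filter (fun q => θ * Etot d r p a ≤
      (|a q.1 - med (ball d q.1 (rad q.2)) a| / rad q.2) ^ p) with hHit
  have hK := hitConst_pos p
  have he₀ : 0 < θ ^ 2 / hitConst p := by positivity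
  have h1 : (Hit.card : ℝ) = ∑ x ∈ Hit.image Prod.fst, ((Hit.filter (fun q => q.1 = x)).card : ℝ) := by
    rw [Finset.card_eq_sum_card_image Prod.fst Hit]
    push_cast
    rfl
  have hH : ((Hit.image Prod.fst).card : ℝ) ≤ 1 / (θ ^ 2 / hitConst p) := by
    apply card_high_energy h a he₀ hE
    intro x hx
    obtain ⟨q, hq, rfl⟩ := Finset.mem_image.mp hx
    have := hit_energy h hp a (rad_pos q.2) hθ0 hθ1 hE (Finset.mem_filter.mp hq).2
    calc θ ^ 2 / hitConst p * Etot d r p a = θ ^ 2 * Etot d r p a / hitConst p := by ring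
      _ ≤ _ := this
  have hfib : ∀ x ∈ Hit.image Prod.fst, ((Hit.filter (fun q => q.1 = x)).card : ℝ) ≤
      rowConst p / θ ^ 2 := by
    intro x _
    refine le_trans ?_ (exponents_le hp hθ0 hθ1)
    have hcard : (Hit.filter (fun q => q.1 = x)).card =
        ((Hit.filter (fun q => q.1 = x)).image Prod.snd).card := by
      rw [Finset.card_image_of_injOn]
      intro q hq q' hq' heq
      have h2 := (Finset.mem_filter.mp hq).2
      have h3 := (Finset.mem_filter.mp hq').2
      exact Prod.ext (h2.trans h3.symm) heq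
    rw [hcard]
    apply count_exponents (x := x) h hp a hθ0 hθ1 hE
    intro e he
    obtain ⟨q, hq, rfl⟩ := Finset.mem_image.mp he
    have h2 := Finset.mem_filter.mp hq
    have h3 := Finset.mem_filter.mp h2.1
    have h4 : q.1 = x := h2.2
    subst h4
    exact ⟨hA q h3.1, h3.2⟩
  rw [h1]
  calc ∑ x ∈ Hit.image Prod.fst, ((Hit.filter (fun q => q.1 = x)).card : ℝ)
      ≤ ∑ x ∈ Hit.image Prod.fst, (rowConst p / θ ^ 2) := Finset.sum_le_sum hfib
    _ = ((Hit.image Prod.fst).card : ℝ) * (rowConst p / θ ^ 2) := by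
        rw [Finset.sum_const, nsmul_eq_mul]
    _ ≤ (1 / (θ ^ 2 / hitConst p)) * (rowConst p / θ ^ 2) :=
        mul_le_mul_of_nonneg_right hH (by have := rowConst_pos p; positivity)
    _ = _ := by
        field_simp

end hits

end Vale.Agent.Lib.P249L
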