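import Mathlib
import Vale.Agent.Lib.P249L.Rows

open Finset

namespace Vale.Agent.Lib.P249L

open Vale.Agent.Lib.P249

variable {ι : Type*} [Fintype ι]

section pairs

variable {d : ι → ι → ℝ} {r : ι → ι → ℕ} {p : ℝ}

/-- A base constant for the pair estimates. -/
noncomputable def uConst (p : ℝ) : ℝ := tclConst p * (16:ℝ) ^ p

lemma uConst_ge_one (hp : 1 ≤ p) : 1 ≤ uConst p := by
  unfold uConst
  have h1 := tclConst_ge_one hp
  have h2 : (1:ℝ) ≤ (16:ℝ) ^ p := Real.one_le_rpow (by norm_num) (by linarith)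
  nlinarith

/-- The constant in the lower bound of the energy for the pair estimate. -/
noncomputable def KB (p : ℝ) : ℝ := 15 * (8:ℝ) ^ p * uConst p ^ 3 + hitConst p * ((16:ℝ) / 9) ^ p

lemma KB_pos (hp : 1 ≤ p) : 0 < KB p := by
  unfold KB
  have h1 := uConst_ge_one hp
  have h2 := hitConst_pos p
  positivity

/-- The lower bound of the energy in the pair estimate. -/
noncomputable def eB (p θ : ℝ) : ℝ := θ ^ 4 / KB p

lemma eB_pos (hp : 1 ≤ p) {θ : ℝ} (hθ : 0 < θ) : 0 < eB p θ := by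
  unfold eB
  have := KB_pos hp
  positivity

lemma Gn_bounds (hp : 1 ≤ p) {θ : ℝ} (hθ0 : 0 < θ) (hθ1 : θ ≤ 1) :
    (Qn p 16 θ : ℝ) ≤ 5 * (uConst p / θ) ^ 2 ∧ Real.sqrt (Qn p 16 θ) ≤ 3 * (uConst p / θ) :=
  ⟨Qn_le' hp (by norm_num) hθ0 hθ1, sqrt_Qn_le hp (by norm_num) hθ0 hθ1⟩

lemma eB_le1 (hp : 1 ≤ p) {θ : ℝ} (hθ0 : 0 < θ) (hθ1 : θ ≤ 1) :
    eB p θ ≤ θ / ((8:ℝ) ^ p * (Qn p 16 θ : ℝ) * Real.sqrt (Qn p 16 θ)) := by
  obtain ⟨h1, h2⟩ := Gn_bounds hp hθ0 hθ1
  set G : ℝ := (Qn p 16 θ : ℝ) with hG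
  set u := uConst p with hu
  have hu1 : 1 ≤ u := uConst_ge_one hp
  have hG0 : 0 < G := by
    have := two_le_Qn p 16 θ
    rw [hG]
    exact_mod_cast (by omega : 0 < Qn p 16 θ)
  have hs0 : 0 < Real.sqrt G := Real.sqrt_pos.mpr hG0
  have h8 : (0:ℝ) < (8:ℝ) ^ p := by positivity
  have h3 : G * Real.sqrt G ≤ 15 * u ^ 3 / θ ^ 3 := by
    calc G * Real.sqrt G ≤ (5 * (u / θ) ^ 2) * (3 * (u / θ)) :=
          mul_le_mul h1 h2 hs0.le (by positivity)
      _ = _ := by
          field_simp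
          norm_num
  have hK : 15 * (8:ℝ) ^ p * u ^ 3 ≤ KB p := by
    unfold KB
    have := hitConst_pos p
    have h4 : 0 ≤ hitConst p * ((16:ℝ) / 9) ^ p := by positivity
    rw [← hu]
    linarith
  unfold eB
  rw [div_le_div_iff₀ (KB_pos hp) (by positivity)]
  have h5 : (8:ℝ) ^ p * G * Real.sqrt G ≤ (8:ℝ) ^ p * (15 * u ^ 3 / θ ^ 3) := by
    rw [mul_assoc]
    exact mul_le_mul_of_nonneg_left h3 h8.le
  calc θ ^ 4 * ((8:ℝ) ^ p * G * Real.sqrt G) ≤ θ ^ 4 * ((8:ℝ) ^ p * (15 * u ^ 3 / θ ^ 3)) :=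
        mul_le_mul_of_nonneg_left h5 (by positivity)
    _ = θ * (15 * (8:ℝ) ^ p * u ^ 3) := by
        field_simp
    _ ≤ θ * KB p := mul_le_mul_of_nonneg_left hK hθ0.le

lemma eB_le2 (hp : 1 ≤ p) {θ : ℝ} (hθ0 : 0 < θ) (hθ1 : θ ≤ 1) :
    eB p θ ≤ (((3:ℝ) / 4) ^ p * θ) ^ 2 / hitConst p := by
  have hK := hitConst_pos p
  have hsq : (((3:ℝ) / 4) ^ p) ^ 2 * ((16:ℝ) / 9) ^ p = 1 := by
    have e : (((3:ℝ) / 4) ^ p) ^ 2 = ((9:ℝ) / 16) ^ p := by
      rw [← Real.rpow_natCast, ← Real.rpow_mul (by norm_num), mul_comm,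
        Real.rpow_mul (by norm_num)]
      norm_num
    rw [e, ← Real.mul_rpow (by norm_num) (by norm_num)]
    norm_num
  have h1 : hitConst p * ((16:ℝ) / 9) ^ p ≤ KB p := by
    unfold KB
    have h2 := uConst_ge_one hp
    have h3 : 0 ≤ 15 * (8:ℝ) ^ p * uConst p ^ 3 := by positivity
    linarith
  unfold eB
  rw [div_le_div_iff₀ (KB_pos hp) hK]
  have h4 : θ ^ 4 ≤ θ ^ 2 := pow_le_pow_of_le_one hθ0.le hθ1 (by norm_num)
  have h5 : 0 < ((16:ℝ) / 9) ^ p := by positivity
  have h6 : (((3:ℝ) / 4) ^ p * θ) ^ 2 * KB p ≥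
      (((3:ℝ) / 4) ^ p * θ) ^ 2 * (hitConst p * ((16:ℝ) / 9) ^ p) :=
    mul_le_mul_of_nonneg_left h1 (by positivity)
  have e : (((3:ℝ) / 4) ^ p * θ) ^ 2 * (hitConst p * ((16:ℝ) / 9) ^ p) =
      θ ^ 2 * hitConst p * ((((3:ℝ) / 4) ^ p) ^ 2 * ((16:ℝ) / 9) ^ p) := by ring
  rw [e, hsq, mul_one] at h6
  have h7 : θ ^ 4 * hitConst p ≤ θ ^ 2 * hitConst p := mul_le_mul_of_nonneg_right h4 hK.le
  linarith

lemma ball_cross_dist (h : RankedMetric d r) {i j x y : ι} {ρ : ℝ} (hdij : d i j < ρ)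
    (hx : x ∈ ball d i ρ) (hy : y ∈ ball d j ρ) : d x y ≤ 3 * ρ := by
  have h1 := mem_ball.mp hx
  have h2 := mem_ball.mp hy
  have h3 : d x y ≤ d x i + d i j + d j y := by
    have h4 := h.tri x i y
    have h5 := h.tri i j y
    linarith
  rw [h.symm x i] at h3
  linarith

/-- The medians of two neighbouring balls can only be far apart if one of the balls is small. -/
lemma pair_not_both_large (h : RankedMetric d r) (hp : 1 ≤ p) (a : ι → ℝ) {i j : ι} {ρ θ : ℝ}
    (hρ : 0 < ρ) (hθ0 : 0 < θ) (hE : 0 < Etot d r p a) (hdij : d i j < ρ)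
    (hgap : θ * Etot d r p a ≤ (|med (ball d i ρ) a - med (ball d j ρ) a| / ρ) ^ p)
    (hi : Qn p 16 θ ≤ (ball d i ρ).card) (hj : Qn p 16 θ ≤ (ball d j ρ).card) : False := by
  classical
  have hp0 : 0 < p := by linarith
  set S := ball d i ρ with hS
  set S' := ball d j ρ with hS'
  set c := med S a with hc
  set c' := med S' a with hc'
  set W := |c - c'| with hW
  set E := Etot d r p a with hEd
  set G := Qn p 16 θ with hG
  have hWpos : 0 < W := by
    rcases (abs_nonneg (c - c')).lt_or_eq with h1 | h1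
    · exact h1
    · exfalso
      rw [hW, ← h1, zero_div, Real.zero_rpow hp0.ne'] at hgap
      have : 0 < θ * E := mul_pos hθ0 hE
      linarith
  have hSne : S.Nonempty := ⟨i, self_mem_ball h hρ⟩
  have hS'ne : S'.Nonempty := ⟨j, self_mem_ball h hρ⟩
  have hG2 : (2:ℝ) ≤ G := by exact_mod_cast two_le_Qn p 16 θ
  have hN1 : (1:ℝ) ≤ (G:ℝ) / 2 := by linarith
  have hGS : (G:ℝ) ≤ S.card := by exact_mod_cast hi
  have hGS' : (G:ℝ) ≤ S'.card := by exact_mod_cast hj
  have hlow : ∀ {T : Finset ι}, T.Nonempty → (G:ℝ) ≤ T.card →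
      (G:ℝ) / 2 ≤ ((T.filter (fun y => a y ≤ med T a)).card : ℝ) := by
    intro T hT hT2
    have := med_low a hT
    have h2 : (T.card : ℝ) ≤ 2 * ((T.filter (fun y => a y ≤ med T a)).card : ℝ) := by
      exact_mod_cast this
    linarith
  have hhigh : ∀ {T : Finset ι}, T.Nonempty → (G:ℝ) ≤ T.card →
      (G:ℝ) / 2 ≤ ((T.filter (fun y => med T a ≤ a y)).card : ℝ) := by
    intro T hT hT2
    have := med_high a hT
    have h2 : (T.card : ℝ) ≤ 2 * ((T.filter (fun y => med T a ≤ a y)).card : ℝ) := by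
      exact_mod_cast this
    linarith
  have hcross : ∀ x ∈ S, ∀ y ∈ S', d x y ≤ 16 * ρ := by
    intro x hx y hy
    have := ball_cross_dist h hdij hx hy
    linarith
  have hcross' : ∀ x ∈ S', ∀ y ∈ S, d x y ≤ 16 * ρ := by
    intro x hx y hy
    rw [h.symm]
    exact hcross y hy x hx
  have hconc : Real.sqrt ((G:ℝ) / 2) * (W / 16 / ρ) ^ p ≤ tclConst p * E := by
    have e : W / 16 / ρ = W / (16 * ρ) := by
      field_simp
    rw [e]
    rcases lt_or_gt_of_ne (show c ≠ c' from fun he => by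
      rw [hW, he, sub_self, abs_zero] at hWpos
      exact lt_irrefl _ hWpos) with hlt | hlt
    · have hWe : W = c' - c := by
        rw [hW, abs_of_neg (by linarith)]
        ring
      refine tcl h hp a (I := S.filter (fun y => a y ≤ c)) (J := S'.filter (fun y => c' ≤ a y))
        (c := c) hWpos (by positivity) hN1 (hlow hSne hGS) (hhigh hS'ne hGS') ?_ ?_ ?_
      · intro x hx
        exact (Finset.mem_filter.mp hx).2
      · intro y hy
        have := (Finset.mem_filter.mp hy).2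
        linarith
      · intro x hx y hy
        exact hcross x (Finset.mem_filter.mp hx).1 y (Finset.mem_filter.mp hy).1
    · have hWe : W = c - c' := by
        rw [hW, abs_of_pos (by linarith)]
      refine tcl h hp a (I := S'.filter (fun y => a y ≤ c')) (J := S.filter (fun y => c ≤ a y))
        (c := c') hWpos (by positivity) hN1 (hlow hS'ne hGS') (hhigh hSne hGS) ?_ ?_ ?_
      · intro x hx
        exact (Finset.mem_filter.mp hx).2
      · intro y hy
        have := (Finset.mem_filter.mp hy).2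
        linarith
      · intro x hx y hy
        exact hcross' x (Finset.mem_filter.mp hx).1 y (Finset.mem_filter.mp hy).1
  have hle := tcl_excl (K := 16) hp (by norm_num) hθ0 hE hρ hN1 hgap hWpos.le hconc
  have h5 := Qn_ge p 16 θ
  rw [← hG] at h5
  linarith

/-- The case of a large second ball in `pair_side`. -/
lemma pair_side_aux (h : RankedMetric d r) (hp : 1 ≤ p) (a : ι → ℝ) {x x' : ι} {ρ θ W : ℝ}
    (hρ : 0 < ρ) (hθ0 : 0 < θ) (hθ1 : θ ≤ 1) (hE : 0 < Etot d r p a) (hd : d x x' < ρ)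
    (hWpos : 0 < W) (hgap : θ * Etot d r p a ≤ (W / ρ) ^ p)
    (hEn : En d r p a x < eB p θ * Etot d r p a)
    (hxx' : |a x - a x'| ≤ W / 8)
    (hD'3 : 3 * W / 4 ≤ |a x' - med (ball d x' ρ) a|)
    (hGS' : Qn p 16 θ ≤ (ball d x' ρ).card) : False := by
  classical
  have hp0 : 0 < p := by linarith
  set S' := ball d x' ρ with hS'
  set c' := med S' a with hc'
  set E := Etot d r p a with hEd
  set G := Qn p 16 θ with hG
  have hS'ne : S'.Nonempty := ⟨x', self_mem_ball h hρ⟩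
  have hG2nat : 2 ≤ G := two_le_Qn p 16 θ
  have hG2 : (2:ℝ) ≤ G := by exact_mod_cast hG2nat
  have hG0 : (0:ℝ) < G := by linarith
  set sG := Real.sqrt (G:ℝ) with hsG
  have hsG0 : 0 < sG := Real.sqrt_pos.mpr hG0
  have hsGsq : sG * sG = G := Real.mul_self_sqrt hG0.le
  have h8p : (0:ℝ) < (8:ℝ) ^ p := by positivity
  have hW8 : (W / 8 / ρ) ^ p = (W / ρ) ^ p / (8:ℝ) ^ p := by
    have : W / 8 / ρ = (W / ρ) / 8 := by ring
    rw [this, Real.div_rpow (by positivity) (by norm_num)]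
  have hθE8 : θ * E / (8:ℝ) ^ p ≤ (W / 8 / ρ) ^ p := by
    rw [hW8]
    exact div_le_div_of_nonneg_right hgap h8p.le
  have hb1 := eB_le1 hp hθ0 hθ1
  rw [← hG, ← hsG] at hb1
  set D' := |a x' - c'| with hD'
  obtain ⟨Z, hZS, hZc, hZ⟩ := far_half a hS'ne (a x')
  rw [← hc', ← hD'] at hZ
  have hS'sub : S' ⊆ ball d x (2 * ρ) := by
    intro y hy
    rw [mem_ball]
    have h1 := mem_ball.mp hy
    have h2 := h.tri x x' y
    linarith
  have hGball : G ≤ (ball d x (2 * ρ)).card := le_trans hGS' (Finset.card_le_card hS'sub)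
  have hGn : G ≤ Fintype.card ι := le_trans hGball (Finset.card_le_univ _)
  set F := Finset.univ.filter (fun z => r x z < G) with hF
  have hFcard : F.card = G := card_rank_filter h x G hGn
  have hFsub : F ⊆ ball d x (2 * ρ) := low_rank_subset_ball h hGball
  set T := F.filter (fun z => W / 4 ≤ |a z - a x|) with hT
  set F' := F.filter (fun z => ¬ (W / 4 ≤ |a z - a x|)) with hF'
  have hsum : T.card + F'.card = F.card := Finset.card_filter_add_card_filter_not (s := F) _
  by_cases hTlarge : G ≤ 2 * T.card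
  · have h1 := En_ge_of_set h hp a x T (G := G) (Δ := W / 4) (R := 2 * ρ) (by positivity)
      (by positivity)
      (fun y hy => (Finset.mem_filter.mp (Finset.mem_filter.mp hy).1).2)
      (fun y hy => by
        rw [abs_sub_comm]
        exact (Finset.mem_filter.mp hy).2)
      (fun y hy => (mem_ball.mp (hFsub (Finset.mem_filter.mp hy).1)).le)
    rw [← hsG] at h1
    have e1 : W / 4 / (2 * ρ) = W / 8 / ρ := by
      field_simp
      norm_num
    rw [e1] at h1
    have hTc' : (G : ℝ) ≤ 2 * T.card := by exact_mod_cast hTlarge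
    set b := (W / 8 / ρ) ^ p with hb
    have hb0 : 0 ≤ b := by positivity
    have h2 : θ * E / (8:ℝ) ^ p / (2 * sG) ≤ (T.card : ℝ) * (1 / ((G : ℝ) * sG) * b) := by
      have h3 : b / (2 * sG) ≤ (T.card : ℝ) * (1 / ((G : ℝ) * sG) * b) := by
        have e : (T.card : ℝ) * (1 / ((G : ℝ) * sG) * b) = ((T.card : ℝ) / ((G : ℝ) * sG)) * b := by
          ring
        rw [e, div_eq_mul_inv, mul_comm]
        apply mul_le_mul_of_nonneg_right _ hb0
        rw [inv_eq_one_div, div_le_div_iff₀ (by positivity) (by positivity)]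
        nlinarith
      have h4 : θ * E / (8:ℝ) ^ p / (2 * sG) ≤ b / (2 * sG) :=
        div_le_div_of_nonneg_right hθE8 (by positivity)
      linarith
    have h5 : eB p θ * E ≤ θ * E / (8:ℝ) ^ p / (2 * sG) := by
      have h6 : θ / ((8:ℝ) ^ p * (G:ℝ) * sG) ≤ θ / ((8:ℝ) ^ p * (2 * sG)) := by
        apply div_le_div_of_nonneg_left hθ0.le (by positivity)
        rw [mul_assoc]
        apply mul_le_mul_of_nonneg_left _ h8p.le
        exact mul_le_mul_of_nonneg_right hG2 hsG0.le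
      have h7 : eB p θ ≤ θ / ((8:ℝ) ^ p * (2 * sG)) := le_trans hb1 h6
      calc eB p θ * E ≤ θ / ((8:ℝ) ^ p * (2 * sG)) * E := mul_le_mul_of_nonneg_right h7 hE.le
        _ = _ := by
            field_simp
    linarith
  · push Not at hTlarge
    have hN1 : (1:ℝ) ≤ (G:ℝ) / 2 := by linarith
    have hZN : (G:ℝ) / 2 ≤ (Z.card : ℝ) := by
      have h1 : (S'.card : ℝ) ≤ 2 * Z.card := by exact_mod_cast hZc
      have h2 : (G : ℝ) ≤ S'.card := by exact_mod_cast hGS'
      linarith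
    have hF'N : (G:ℝ) / 2 ≤ (F'.card : ℝ) := by
      have h1 : (T.card : ℝ) + F'.card = G := by
        rw [← hFcard, ← hsum]
        push_cast
        ring
      have h2 : 2 * (T.card : ℝ) < G := by exact_mod_cast hTlarge
      linarith
    have hF'val : ∀ z ∈ F', |a z - a x| < W / 4 :=
      fun z hz => not_le.mp (Finset.mem_filter.mp hz).2
    have hdZF : ∀ u ∈ Z, ∀ v ∈ F', d u v ≤ 6 * ρ := by
      intro u hu v hv
      have h1 := ball_dist h (hS'sub (hZS hu)) (hFsub (Finset.mem_filter.mp hv).1)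
      linarith
    have hdFZ : ∀ u ∈ F', ∀ v ∈ Z, d u v ≤ 6 * ρ := by
      intro u hu v hv
      rw [h.symm]
      exact hdZF v hv u hu
    have hxx'2 := abs_le.mp hxx'
    have hconc : Real.sqrt ((G:ℝ) / 2) * (W / 16 / ρ) ^ p ≤ tclConst p * E := by
      have e : W / 16 / ρ = (3 * W / 8) / (6 * ρ) := by
        field_simp
        norm_num
      rw [e]
      rcases hZ with hZ | hZ
      · refine tcl h hp a (I := Z) (J := F') (c := a x - 5 * W / 8) (Δ := 3 * W / 8) (ρ := 6 * ρ)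
          (by positivity) (by positivity) hN1 hZN hF'N ?_ ?_ hdZF
        · intro y hy
          have := hZ y hy
          linarith
        · intro y hy
          have := (abs_lt.mp (hF'val y hy)).1
          linarith
      · refine tcl h hp a (I := F') (J := Z) (c := a x + W / 4) (Δ := 3 * W / 8) (ρ := 6 * ρ)
          (by positivity) (by positivity) hN1 hF'N hZN ?_ ?_ hdFZ
        · intro y hy
          have := (abs_lt.mp (hF'val y hy)).2
          linarith
        · intro y hy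
          have := hZ y hy
          linarith
    have hle := tcl_excl (K := 16) hp (by norm_num) hθ0 hE hρ hN1 hgap hWpos.le hconc
    have h5 := Qn_ge p 16 θ
    rw [← hG] at h5
    linarith

/-- If the ball around one endpoint is small, then one of the two endpoints carries a large part
of the energy and the other endpoint is one of its closest points. -/
lemma pair_side (h : RankedMetric d r) (hp : 1 ≤ p) (a : ι → ℝ) {x x' : ι} {ρ θ : ℝ}
    (hρ : 0 < ρ) (hθ0 : 0 < θ) (hθ1 : θ ≤ 1) (hE : 0 < Etot d r p a) (hd : d x x' < ρ)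
    (hgap : θ * Etot d r p a ≤ (|med (ball d x ρ) a - med (ball d x' ρ) a| / ρ) ^ p)
    (hsmall : (ball d x ρ).card < Qn p 16 θ) :
    (eB p θ * Etot d r p a ≤ En d r p a x ∧ r x x' < Qn p 16 θ) ∨
      (eB p θ * Etot d r p a ≤ En d r p a x' ∧ r x' x < Qn p 16 θ) := by
  classical
  have hp0 : 0 < p := by linarith
  set S := ball d x ρ with hS
  set S' := ball d x' ρ with hS'
  set c := med S a with hc
  set c' := med S' a with hc'
  set W := |c - c'| with hW
  set E := Etot d r p a with hEd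
  set G := Qn p 16 θ with hG
  have hx'S : x' ∈ S := mem_ball.mpr hd
  have hxS' : x ∈ S' := by
    rw [hS', mem_ball, h.symm]
    exact hd
  by_cases hEn : eB p θ * E ≤ En d r p a x
  · exact Or.inl ⟨hEn, lt_of_lt_of_le (rank_lt_card_ball h hx'S) hsmall.le⟩
  push Not at hEn
  right
  have hWpos : 0 < W := by
    rcases (abs_nonneg (c - c')).lt_or_eq with h1 | h1
    · exact h1
    · exfalso
      rw [hW, ← h1, zero_div, Real.zero_rpow hp0.ne'] at hgap
      have : 0 < θ * E := mul_pos hθ0 hE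
      linarith
  have hSne : S.Nonempty := ⟨x, self_mem_ball h hρ⟩
  have hS'ne : S'.Nonempty := ⟨x', self_mem_ball h hρ⟩
  have hG2nat : 2 ≤ G := two_le_Qn p 16 θ
  have hG2 : (2:ℝ) ≤ G := by exact_mod_cast hG2nat
  have hG0 : (0:ℝ) < G := by linarith
  set sG := Real.sqrt (G:ℝ) with hsG
  have hsG0 : 0 < sG := Real.sqrt_pos.mpr hG0
  have hsGsq : sG * sG = G := Real.mul_self_sqrt hG0.le
  have h8p : (0:ℝ) < (8:ℝ) ^ p := by positivity
  have hW8 : (W / 8 / ρ) ^ p = (W / ρ) ^ p / (8:ℝ) ^ p := by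
    have : W / 8 / ρ = (W / ρ) / 8 := by ring
    rw [this, Real.div_rpow (by positivity) (by norm_num)]
  have hθE8 : θ * E / (8:ℝ) ^ p ≤ (W / 8 / ρ) ^ p := by
    rw [hW8]
    exact div_le_div_of_nonneg_right hgap h8p.le
  have hb1 := eB_le1 hp hθ0 hθ1
  rw [← hG, ← hsG] at hb1
  -- flatness of the small ball
  have hflat : ∀ y ∈ S, |a x - a y| ≤ W / 8 := by
    intro y hy
    by_contra hcon
    push Not at hcon
    have h1 := En_ge_of_set h hp a x {y} (G := G) (Δ := W / 8) (R := ρ) (by positivity) hρ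
      (fun z hz => by
        rw [Finset.mem_singleton.mp hz]
        exact lt_trans (rank_lt_card_ball h hy) hsmall)
      (fun z hz => by
        rw [Finset.mem_singleton.mp hz]
        exact hcon.le)
      (fun z hz => by
        rw [Finset.mem_singleton.mp hz]
        exact (mem_ball.mp hy).le)
    rw [Finset.card_singleton, ← hsG] at h1
    have h2 : θ / ((8:ℝ) ^ p * (G:ℝ) * sG) * E ≤ 1 * (1 / ((G:ℝ) * sG) * (W / 8 / ρ) ^ p) := by
      rw [one_mul]
      calc θ / ((8:ℝ) ^ p * (G:ℝ) * sG) * E = 1 / ((G:ℝ) * sG) * (θ * E / (8:ℝ) ^ p) := by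
            field_simp
        _ ≤ _ := mul_le_mul_of_nonneg_left hθE8 (by positivity)
    have h3 : eB p θ * E ≤ θ / ((8:ℝ) ^ p * (G:ℝ) * sG) * E :=
      mul_le_mul_of_nonneg_right hb1 hE.le
    linarith
  obtain ⟨yc, hyc, hyce⟩ := med_mem a hSne
  rw [← hc] at hyce
  have hcx : |a x - c| ≤ W / 8 := by
    rw [← hyce]
    exact hflat yc hyc
  have hxx' : |a x - a x'| ≤ W / 8 := hflat x' hx'S
  set D' := |a x' - c'| with hD'
  have hD'3 : 3 * W / 4 ≤ D' := by
    have h1 : W ≤ |c - a x| + |a x - a x'| + |a x' - c'| := by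
      rw [hW]
      calc |c - c'| = |(c - a x) + (a x - a x') + (a x' - c')| := by ring_nf
        _ ≤ _ := abs_add_three _ _ _
    rw [abs_sub_comm c] at h1
    linarith
  -- the energy of the other end point
  set θ₂ := ((3:ℝ) / 4) ^ p * θ with hθ₂
  have hq0 : (0:ℝ) < ((3:ℝ) / 4) ^ p := by positivity
  have hq1 : ((3:ℝ) / 4) ^ p ≤ 1 := Real.rpow_le_one (by norm_num) (by norm_num) hp0.le
  have hθ₂0 : 0 < θ₂ := by positivity
  have hθ₂1 : θ₂ ≤ 1 := by
    rw [hθ₂]
    nlinarith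
  have hhit : θ₂ * E ≤ (D' / ρ) ^ p := by
    have h1 : (3 * W / 4 / ρ) ^ p = ((3:ℝ) / 4) ^ p * (W / ρ) ^ p := by
      have : 3 * W / 4 / ρ = ((3:ℝ) / 4) * (W / ρ) := by ring
      rw [this, Real.mul_rpow (by norm_num) (by positivity)]
    have h2 : (3 * W / 4 / ρ) ^ p ≤ (D' / ρ) ^ p :=
      Real.rpow_le_rpow (by positivity) (div_le_div_of_nonneg_right hD'3 hρ.le) hp0.le
    calc θ₂ * E = ((3:ℝ) / 4) ^ p * (θ * E) := by rw [hθ₂]; ring
      _ ≤ ((3:ℝ) / 4) ^ p * (W / ρ) ^ p := mul_le_mul_of_nonneg_left hgap hq0.le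
      _ = _ := h1.symm
      _ ≤ _ := h2
  have hEnx' := hit_energy h hp a hρ hθ₂0 hθ₂1 hE hhit
  have hb2 := eB_le2 hp hθ0 hθ1
  have hresult : eB p θ * E ≤ En d r p a x' := by
    refine le_trans ?_ hEnx'
    have e : θ₂ ^ 2 * E / hitConst p = (θ₂ ^ 2 / hitConst p) * E := by ring
    rw [e]
    exact mul_le_mul_of_nonneg_right hb2 hE.le
  refine ⟨hresult, ?_⟩
  by_contra hcon
  push Not at hcon
  have hGS' : G ≤ S'.card := le_trans hcon (le_of_lt (rank_lt_card_ball h hxS'))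
  exact pair_side_aux h hp a hρ hθ0 hθ1 hE hd hWpos hgap hEn hxx' hD'3 hGS'

/-- The conclusion for a pair with far medians. -/
lemma pair_gap (h : RankedMetric d r) (hp : 1 ≤ p) (a : ι → ℝ) {i j : ι} {ρ θ : ℝ}
    (hρ : 0 < ρ) (hθ0 : 0 < θ) (hθ1 : θ ≤ 1) (hE : 0 < Etot d r p a) (hdij : d i j < ρ)
    (hgap : θ * Etot d r p a ≤ (|med (ball d i ρ) a - med (ball d j ρ) a| / ρ) ^ p) :
    (eB p θ * Etot d r p a ≤ En d r p a i ∧ r i j < Qn p 16 θ) ∨
      (eB p θ * Etot d r p a ≤ En d r p a j ∧ r j i < Qn p 16 θ) := by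
  by_cases hi : (ball d i ρ).card < Qn p 16 θ
  · exact pair_side h hp a hρ hθ0 hθ1 hE hdij hgap hi
  by_cases hj : (ball d j ρ).card < Qn p 16 θ
  · rw [abs_sub_comm] at hgap
    rw [h.symm] at hdij
    exact (pair_side h hp a hρ hθ0 hθ1 hE hdij hgap hj).symm
  exact absurd (pair_not_both_large h hp a hρ hθ0 hE hdij hgap (not_lt.mp hi) (not_lt.mp hj))
    (by simp)

lemma card_rank_filter_le (h : RankedMetric d r) (x : ι) (G : ℕ) :
    (Finset.univ.filter (fun z => r x z < G)).card ≤ G := by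
  have h1 := Finset.card_le_card_of_injOn (s := Finset.univ.filter (fun z => r x z < G))
    (t := Finset.range G) (r x)
    (fun z hz => Finset.mem_range.mpr (Finset.mem_filter.mp hz).2)
    (fun a _ b _ hab => h.inj x hab)
  simpa using h1

/-- The number of pairs with far medians. -/
lemma count_gap_pairs [DecidableEq ι] (h : RankedMetric d r) (hp : 1 ≤ p) (a : ι → ℝ) {θ : ℝ}
    (hθ0 : 0 < θ) (hθ1 : θ ≤ 1) (hE : 0 < Etot d r p a) (ρ : ι × ι → ℝ)
    (hρ : ∀ q, 0 < ρ q) (P : Finset (ι × ι))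
    (hP : ∀ q ∈ P, d q.1 q.2 < ρ q ∧
      θ * Etot d r p a ≤ (|med (ball d q.1 (ρ q)) a - med (ball d q.2 (ρ q)) a| / ρ q) ^ p) :
    (P.card : ℝ) ≤ 2 * ((Qn p 16 θ : ℝ) * (1 / eB p θ)) := by
  classical
  have he₀ := eB_pos hp hθ0
  set G := Qn p 16 θ with hG
  set H := Finset.univ.filter (fun x => eB p θ * Etot d r p a ≤ En d r p a x) with hH
  have hHcard : (H.card : ℝ) ≤ 1 / eB p θ :=
    card_high_energy h a he₀ hE H (fun x hx => (Finset.mem_filter.mp hx).2)
  set A₁ := H.biUnion (fun x => (Finset.univ.filter (fun z => r x z < G)).image (fun y => (x, y)))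
    with hA₁
  have hA₁card : (A₁.card : ℝ) ≤ (G : ℝ) * (1 / eB p θ) := by
    have h1 : A₁.card ≤ ∑ x ∈ H, ((Finset.univ.filter (fun z => r x z < G)).image
        (fun y => (x, y))).card := Finset.card_biUnion_le
    have h2 : ∑ x ∈ H, ((Finset.univ.filter (fun z => r x z < G)).image
        (fun y => (x, y))).card ≤ ∑ _x ∈ H, G := by
      apply Finset.sum_le_sum
      intro x _
      exact le_trans Finset.card_image_le (card_rank_filter_le h x G)
    rw [Finset.sum_const, smul_eq_mul] at h2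
    have h3 : (A₁.card : ℝ) ≤ (H.card : ℝ) * G := by exact_mod_cast le_trans h1 h2
    calc (A₁.card : ℝ) ≤ (H.card : ℝ) * G := h3
      _ ≤ (1 / eB p θ) * G := mul_le_mul_of_nonneg_right hHcard (by positivity)
      _ = _ := by ring
  have hsub : P ⊆ A₁ ∪ A₁.image Prod.swap := by
    intro q hq
    obtain ⟨h1, h2⟩ := hP q hq
    rcases pair_gap h hp a (hρ q) hθ0 hθ1 hE h1 h2 with ⟨h3, h4⟩ | ⟨h3, h4⟩
    · apply Finset.mem_union_left
      refine Finset.mem_biUnion.mpr ⟨q.1, Finset.mem_filter.mpr ⟨Finset.mem_univ _, h3⟩, ?_⟩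
      exact Finset.mem_image.mpr ⟨q.2, Finset.mem_filter.mpr ⟨Finset.mem_univ _, h4⟩, rfl⟩
    · apply Finset.mem_union_right
      refine Finset.mem_image.mpr ⟨(q.2, q.1), ?_, rfl⟩
      refine Finset.mem_biUnion.mpr ⟨q.2, Finset.mem_filter.mpr ⟨Finset.mem_univ _, h3⟩, ?_⟩
      exact Finset.mem_image.mpr ⟨q.1, Finset.mem_filter.mpr ⟨Finset.mem_univ _, h4⟩, rfl⟩
  have h5 : P.card ≤ A₁.card + A₁.card := by
    calc P.card ≤ (A₁ ∪ A₁.image Prod.swap).card := Finset.card_le_card hsub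
      _ ≤ A₁.card + (A₁.image Prod.swap).card := Finset.card_union_le _ _
      _ ≤ _ := by
          have := Finset.card_image_le (s := A₁) (f := Prod.swap)
          omega
  have h6 : (P.card : ℝ) ≤ (A₁.card : ℝ) + A₁.card := by exact_mod_cast h5
  linarith

end pairs

end Vale.Agent.Lib.P249L
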