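import Mathlib
import Vale.Agent.Lib.P249L.Pairs

open Finset

namespace Vale.Agent.Lib.P249L

open Vale.Agent.Lib.P249

section real_ineq

/-- The mean value inequality for the power `p`. -/
lemma abs_rpow_sub_rpow_le {x y M p : ℝ} (hx : 0 ≤ x) (hy : 0 ≤ y) (hxM : x ≤ M) (hyM : y ≤ M)
    (hp : 1 ≤ p) : |x ^ p - y ^ p| ≤ p * M ^ (p - 1) * |x - y| := by
  have hp0 : 0 < p := by linarith
  have key : ∀ {u v : ℝ}, 0 ≤ v → v ≤ u → u ≤ M →
      u ^ p - v ^ p ≤ p * M ^ (p - 1) * (u - v) := by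
    intro u v hv hvu huM
    rcases eq_or_lt_of_le (le_trans hv hvu) with hu0 | hu0
    · have h1 : u = 0 := hu0.symm
      have h2 : v = 0 := by linarith
      rw [h1, h2, Real.zero_rpow hp0.ne']
      simp
    · have hs : -1 ≤ (v - u) / u := by
        rw [le_div_iff₀ hu0]
        linarith
      have hb := one_add_mul_self_le_rpow_one_add hs hp
      have e1 : 1 + (v - u) / u = v / u := by
        field_simp
        ring
      rw [e1, Real.div_rpow hv hu0.le] at hb
      have hup : 0 < u ^ p := Real.rpow_pos_of_pos hu0 p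
      have h3 : (1 + p * ((v - u) / u)) * u ^ p ≤ v ^ p := by
        rwa [le_div_iff₀ hup] at hb
      have e2 : u ^ p = u ^ (p - 1) * u := by
        rw [← Real.rpow_add_one hu0.ne']
        congr 1
        ring
      have h4 : u ^ p - v ^ p ≤ p * u ^ (p - 1) * (u - v) := by
        have h5 : (1 + p * ((v - u) / u)) * u ^ p =
            u ^ p - p * u ^ (p - 1) * (u - v) := by
          nth_rewrite 2 [e2]
          rw [e2]
          field_simp
          ring
        rw [h5] at h3
        linarith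
      refine le_trans h4 ?_
      have h6 : u ^ (p - 1) ≤ M ^ (p - 1) :=
        Real.rpow_le_rpow hu0.le huM (by linarith)
      have h7 : 0 ≤ u - v := by linarith
      exact mul_le_mul_of_nonneg_right (mul_le_mul_of_nonneg_left h6 hp0.le) h7
  have hMp : 0 ≤ p * M ^ (p - 1) := by
    have hM : 0 ≤ M := le_trans hx hxM
    positivity
  rcases le_total y x with hxy | hxy
  · have h1 := key hy hxy hxM
    have h2 : y ^ p ≤ x ^ p := Real.rpow_le_rpow hy hxy hp0.le
    rw [abs_of_nonneg (by linarith), abs_of_nonneg (by linarith)]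
    exact h1
  · have h1 := key hx hxy hyM
    have h2 : x ^ p ≤ y ^ p := Real.rpow_le_rpow hx hxy hp0.le
    rw [abs_of_nonpos (by linarith), abs_of_nonpos (by linarith)]
    linarith

/-- The elementary inequality for the residual of a pair. -/
lemma pair_value_small {α β γ w E σ K t p : ℝ} (hα : 0 ≤ α) (hβ : 0 ≤ β) (hγ : 0 ≤ γ)
    (hp : 1 ≤ p) (hK : 1 ≤ K) (hσ : 0 < σ) (hσE : σ ^ p = E) (ht0 : 0 < t) (ht1 : t ≤ 1)
    (hαβ : |α - β| ≤ γ + w) (hαK : α ^ p ≤ K * E) (hβK : β ^ p ≤ K * E)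
    (hw : w < t * σ) (hγs : γ < t * σ) :
    |α ^ p - β ^ p - γ ^ p| ≤ (2 * p * K ^ (p - 1) + 1) * (t * E) := by
  have hp0 : 0 < p := by linarith
  have hE : 0 < E := by
    rw [← hσE]
    exact Real.rpow_pos_of_pos hσ p
  have hbound : ∀ {u : ℝ}, 0 ≤ u → u ^ p ≤ K * E → u ≤ K * σ := by
    intro u hu hup
    have h1 : (u / σ) ^ p ≤ K := by
      rw [Real.div_rpow hu hσ.le, hσE, div_le_iff₀ hE]
      exact hup
    have h2 := le_of_rpow_le (by positivity) hp hK h1
    rwa [div_le_iff₀ hσ] at h2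
  have hαM := hbound hα hαK
  have hβM := hbound hβ hβK
  have h1 := abs_rpow_sub_rpow_le hα hβ hαM hβM hp
  have hKσ : 0 < K * σ := by positivity
  have h2 : |α - β| ≤ 2 * (t * σ) := by linarith
  have e : (K * σ) ^ (p - 1) * σ = K ^ (p - 1) * E := by
    rw [Real.mul_rpow (by linarith) hσ.le, mul_assoc, ← Real.rpow_add_one hσ.ne',
      sub_add_cancel, hσE]
  have h3 : p * (K * σ) ^ (p - 1) * |α - β| ≤ 2 * p * K ^ (p - 1) * (t * E) := by
    calc p * (K * σ) ^ (p - 1) * |α - β| ≤ p * (K * σ) ^ (p - 1) * (2 * (t * σ)) :=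
          mul_le_mul_of_nonneg_left h2 (by positivity)
      _ = 2 * p * ((K * σ) ^ (p - 1) * σ) * t := by ring
      _ = _ := by rw [e]; ring
  have h4 : γ ^ p ≤ t * E := by
    have h5 : γ ^ p ≤ (t * σ) ^ p := Real.rpow_le_rpow hγ hγs.le hp0.le
    rw [Real.mul_rpow ht0.le hσ.le, hσE] at h5
    have h6 : t ^ p ≤ t ^ (1:ℝ) := Real.rpow_le_rpow_of_exponent_ge ht0 ht1 hp
    rw [Real.rpow_one] at h6
    exact le_trans h5 (mul_le_mul_of_nonneg_right h6 hE.le)
  have h7 : 0 ≤ γ ^ p := by positivity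
  have h8 : |α ^ p - β ^ p - γ ^ p| ≤ |α ^ p - β ^ p| + |γ ^ p| := abs_sub _ _
  rw [abs_of_nonneg h7] at h8
  have e2 : (2 * p * K ^ (p - 1) + 1) * (t * E) = 2 * p * K ^ (p - 1) * (t * E) + t * E := by ring
  rw [e2]
  linarith

end real_ineq

variable {ι : Type*} [Fintype ι]

section values

variable {d : ι → ι → ℝ} {r : ι → ι → ℕ} {p : ℝ}

/-- The value of a row: the normalized distance of `a x` to a median of the ball around `x`. -/
noncomputable def rowV (d : ι → ι → ℝ) (p : ℝ) (a : ι → ℝ) (x : ι) (ρ : ℝ) : ℝ :=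
  (|a x - med (ball d x ρ) a| / ρ) ^ p

/-- The residual of a pair after subtracting the two rows. -/
noncomputable def pairV (d : ι → ι → ℝ) (p : ℝ) (a : ι → ℝ) (i j : ι) (ρ : ℝ) : ℝ :=
  (|a i - a j| / ρ) ^ p - rowV d p a i ρ - rowV d p a j ρ

lemma rowV_nonneg {ρ : ℝ} (hρ : 0 < ρ) (a : ι → ℝ) (x : ι) : 0 ≤ rowV d p a x ρ := by
  unfold rowV
  positivity

/-- The Sobolev type inequality, as a consequence of the two cluster inequality. -/
lemma slope_le (h : RankedMetric d r) (hp : 1 ≤ p) (a : ι → ℝ) {u v : ι} (huv : u ≠ v) :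
    (|a u - a v| / d u v) ^ p ≤ tclConst p * Etot d r p a := by
  have hp0 : 0 < p := by linarith
  have hE0 := Etot_nonneg h p a
  have hd := h.pos u v huv
  rcases lt_trichotomy (a u) (a v) with hlt | heq | hgt
  · have hab : |a u - a v| = a v - a u := by
      rw [abs_of_neg (by linarith)]
      ring
    rw [hab]
    have := tcl h hp a (I := {u}) (J := {v}) (c := a u) (Δ := a v - a u) (ρ := d u v) (N := 1)
      (by linarith) hd le_rfl (by simp) (by simp)
      (by simp) (by simp)
      (by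
        intro x hx y hy
        rw [Finset.mem_singleton.mp hx, Finset.mem_singleton.mp hy])
    simpa using this
  · rw [heq, sub_self, abs_zero, zero_div, Real.zero_rpow hp0.ne']
    have := tclConst_pos p
    positivity
  · have hab : |a u - a v| = a u - a v := abs_of_pos (by linarith)
    rw [hab]
    have := tcl h hp a (I := {v}) (J := {u}) (c := a v) (Δ := a u - a v) (ρ := d v u) (N := 1)
      (by linarith) (by rw [h.symm]; exact hd) le_rfl (by simp) (by simp)
      (by simp) (by simp)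
      (by
        intro x hx y hy
        rw [Finset.mem_singleton.mp hx, Finset.mem_singleton.mp hy])
    rw [h.symm v u] at this
    simpa using this

lemma val_le (h : RankedMetric d r) (hp : 1 ≤ p) (a : ι → ℝ) {u v : ι} {ρ : ℝ}
    (hρ : 0 < ρ) (huv : d u v < ρ) :
    (|a u - a v| / ρ) ^ p ≤ tclConst p * Etot d r p a := by
  have hp0 : 0 < p := by linarith
  have hE0 := Etot_nonneg h p a
  by_cases hne : u = v
  · subst hne
    rw [sub_self, abs_zero, zero_div, Real.zero_rpow hp0.ne']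
    have := tclConst_pos p
    positivity
  · have hd := h.pos u v hne
    refine le_trans ?_ (slope_le h hp a hne)
    apply Real.rpow_le_rpow (by positivity) _ hp0.le
    exact div_le_div_of_nonneg_left (abs_nonneg _) hd huv.le

lemma rowV_le (h : RankedMetric d r) (hp : 1 ≤ p) (a : ι → ℝ) (x : ι) {ρ : ℝ} (hρ : 0 < ρ) :
    rowV d p a x ρ ≤ tclConst p * Etot d r p a := by
  have hne : (ball d x ρ).Nonempty := ⟨x, self_mem_ball h hρ⟩
  obtain ⟨y, hy, hye⟩ := med_mem a hne
  unfold rowV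
  rw [← hye]
  exact val_le h hp a hρ (mem_ball.mp hy)

lemma pairV_abs_le (h : RankedMetric d r) (hp : 1 ≤ p) (a : ι → ℝ) {i j : ι} {ρ : ℝ}
    (hρ : 0 < ρ) (hij : d i j < ρ) :
    |pairV d p a i j ρ| ≤ 3 * (tclConst p * Etot d r p a) := by
  unfold pairV
  have h1 := val_le h hp a hρ hij
  have h2 := rowV_le h hp a i hρ
  have h3 := rowV_le h hp a j hρ
  have h4 : 0 ≤ rowV d p a i ρ := rowV_nonneg hρ a i
  have h5 : 0 ≤ rowV d p a j ρ := rowV_nonneg hρ a j
  have h6 : 0 ≤ (|a i - a j| / ρ) ^ p := by positivity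
  rw [abs_le]
  constructor <;> linarith

/-- The constant in the inequality for the residual of a pair. -/
noncomputable def CY (p : ℝ) : ℝ := 2 * p * tclConst p ^ (p - 1) + 1

lemma CY_ge_one (hp : 1 ≤ p) : 1 ≤ CY p := by
  unfold CY
  have h1 := tclConst_ge_one hp
  have h2 : 0 ≤ tclConst p ^ (p - 1) := by positivity
  have h3 : 0 ≤ 2 * p * tclConst p ^ (p - 1) := by positivity
  linarith

/-- If the residual of a pair is large, then the medians are far, or both points are far from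
their medians. -/
lemma pair_dichotomy (h : RankedMetric d r) (hp : 1 ≤ p) (a : ι → ℝ) {i j : ι} {ρ t : ℝ}
    (hρ : 0 < ρ) (ht0 : 0 < t) (ht1 : t ≤ 1) (hE : 0 < Etot d r p a) (hij : d i j < ρ)
    (hlarge : CY p * (t * Etot d r p a) < |pairV d p a i j ρ|) :
    (t ^ p * Etot d r p a ≤ (|med (ball d i ρ) a - med (ball d j ρ) a| / ρ) ^ p) ∨
    (t ^ p * Etot d r p a ≤ rowV d p a i ρ ∧ t ^ p * Etot d r p a ≤ rowV d p a j ρ) := by
  have hp0 : 0 < p := by linarith
  set E := Etot d r p a with hEd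
  set σ := E ^ (1 / p) with hσ
  have hσ0 : 0 < σ := Real.rpow_pos_of_pos hE _
  have hσE : σ ^ p = E := by
    rw [hσ, ← Real.rpow_mul hE.le, one_div, inv_mul_cancel₀ hp0.ne', Real.rpow_one]
  set α := |a i - a j| / ρ with hα
  set β := |a i - med (ball d i ρ) a| / ρ with hβ
  set γ := |a j - med (ball d j ρ) a| / ρ with hγ
  set w := |med (ball d i ρ) a - med (ball d j ρ) a| / ρ with hw
  have hα0 : 0 ≤ α := by positivity
  have hβ0 : 0 ≤ β := by positivity
  have hγ0 : 0 ≤ γ := by positivity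
  have hw0 : 0 ≤ w := by positivity
  have hαK : α ^ p ≤ tclConst p * E := val_le h hp a hρ hij
  have hβK : β ^ p ≤ tclConst p * E := rowV_le h hp a i hρ
  have hγK : γ ^ p ≤ tclConst p * E := rowV_le h hp a j hρ
  have hK := tclConst_ge_one hp
  have hpw : ∀ {u : ℝ}, 0 ≤ u → t * σ ≤ u → t ^ p * E ≤ u ^ p := by
    intro u _ hu
    rw [← hσE, ← Real.mul_rpow ht0.le hσ0.le]
    exact Real.rpow_le_rpow (by positivity) hu hp0.le
  have hαβ : |α - β| ≤ γ + w := by
    rw [hα, hβ, hγ, hw, ← sub_div, ← add_div, abs_div, abs_of_pos hρ]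
    apply div_le_div_of_nonneg_right _ hρ.le
    have h1 := abs_abs_sub_abs_le_abs_sub (a i - a j) (a i - med (ball d i ρ) a)
    have h2 : |a i - a j - (a i - med (ball d i ρ) a)| ≤
        |a j - med (ball d j ρ) a| + |med (ball d i ρ) a - med (ball d j ρ) a| := by
      have e : a i - a j - (a i - med (ball d i ρ) a) =
          -(a j - med (ball d j ρ) a) + (med (ball d i ρ) a - med (ball d j ρ) a) := by ring
      rw [e]
      refine le_trans (abs_add_le _ _) ?_
      rw [abs_neg]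
    linarith
  have hαγ : |α - γ| ≤ β + w := by
    rw [hα, hβ, hγ, hw, ← sub_div, ← add_div, abs_div, abs_of_pos hρ]
    apply div_le_div_of_nonneg_right _ hρ.le
    have h1 := abs_abs_sub_abs_le_abs_sub (a j - a i) (a j - med (ball d j ρ) a)
    have h3 : |a i - a j| = |a j - a i| := abs_sub_comm _ _
    rw [h3]
    have h2 : |a j - a i - (a j - med (ball d j ρ) a)| ≤
        |a i - med (ball d i ρ) a| + |med (ball d i ρ) a - med (ball d j ρ) a| := by
      have e : a j - a i - (a j - med (ball d j ρ) a) =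
          -(a i - med (ball d i ρ) a) + -(med (ball d i ρ) a - med (ball d j ρ) a) := by ring
      rw [e]
      refine le_trans (abs_add_le _ _) ?_
      rw [abs_neg, abs_neg]
    linarith
  have hv : pairV d p a i j ρ = α ^ p - β ^ p - γ ^ p := rfl
  rw [hv] at hlarge
  by_cases hw1 : w < t * σ
  · right
    constructor
    · apply hpw hβ0
      by_contra hcon
      push Not at hcon
      have h1 := pair_value_small hα0 hγ0 hβ0 hp hK hσ0 hσE ht0 ht1 hαγ hαK hγK hw1 hcon
      have e : α ^ p - γ ^ p - β ^ p = α ^ p - β ^ p - γ ^ p := by ring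
      rw [e] at h1
      unfold CY at hlarge
      linarith
    · apply hpw hγ0
      by_contra hcon
      push Not at hcon
      have h1 := pair_value_small hα0 hβ0 hγ0 hp hK hσ0 hσE ht0 ht1 hαβ hαK hβK hw1 hcon
      unfold CY at hlarge
      linarith
  · left
    exact hpw hw0 (not_lt.mp hw1)

/-- The constant for the number of pairs with a large residual. -/
noncomputable def Kpair (p : ℝ) : ℝ := 10 * uConst p ^ 2 * KB p + hitConst p ^ 2

lemma Kpair_pos (hp : 1 ≤ p) : 0 < Kpair p := by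
  unfold Kpair
  have h1 := KB_pos hp
  have h2 := hitConst_pos p
  have h3 := uConst_ge_one hp
  positivity

/-- The number of pairs with a large residual. -/
lemma count_pairs [DecidableEq ι] (h : RankedMetric d r) (hp : 1 ≤ p) (a : ι → ℝ) {θ : ℝ}
    (hθ0 : 0 < θ) (hθ1 : θ ≤ 1) (hE : 0 < Etot d r p a) (ρ : ι × ι → ℝ)
    (hρ : ∀ q, 0 < ρ q) (P : Finset (ι × ι)) (hP : ∀ q ∈ P, d q.1 q.2 < ρ q) :
    ((P.filter (fun q => θ * Etot d r p a ≤ |pairV d p a q.1 q.2 (ρ q)|)).card : ℝ) ≤
      Kpair p / ((θ / (2 * CY p)) ^ p) ^ 6 := by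
  classical
  have hp0 : 0 < p := by linarith
  have hC := CY_ge_one hp
  set t := θ / (2 * CY p) with ht
  have ht0 : 0 < t := by positivity
  have ht1 : t ≤ 1 := by
    rw [ht, div_le_one (by positivity)]
    linarith
  set θ' := t ^ p with hθ'
  have hθ'0 : 0 < θ' := Real.rpow_pos_of_pos ht0 p
  have hθ'1 : θ' ≤ 1 := Real.rpow_le_one ht0.le ht1 hp0.le
  set E := Etot d r p a with hEd
  set Big := P.filter (fun q => θ * E ≤ |pairV d p a q.1 q.2 (ρ q)|) with hBig
  set G₁ := Big.filter (fun q => θ' * E ≤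
    (|med (ball d q.1 (ρ q)) a - med (ball d q.2 (ρ q)) a| / ρ q) ^ p) with hG₁
  set G₂ := Big.filter (fun q => ¬ (θ' * E ≤
    (|med (ball d q.1 (ρ q)) a - med (ball d q.2 (ρ q)) a| / ρ q) ^ p)) with hG₂
  have hsplit : G₁.card + G₂.card = Big.card := Finset.card_filter_add_card_filter_not (s := Big) _
  have hG₁card : (G₁.card : ℝ) ≤ 2 * ((Qn p 16 θ' : ℝ) * (1 / eB p θ')) := by
    apply count_gap_pairs h hp a hθ'0 hθ'1 hE ρ hρ G₁
    intro q hq
    have h1 := (Finset.mem_filter.mp hq)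
    exact ⟨hP q (Finset.mem_filter.mp h1.1).1, h1.2⟩
  have hK := hitConst_pos p
  set H := Finset.univ.filter (fun x => θ' ^ 2 / hitConst p * E ≤ En d r p a x) with hH
  have he₀ : 0 < θ' ^ 2 / hitConst p := by positivity
  have hHcard : (H.card : ℝ) ≤ 1 / (θ' ^ 2 / hitConst p) :=
    card_high_energy h a he₀ hE H (fun x hx => (Finset.mem_filter.mp hx).2)
  have hG₂sub : G₂ ⊆ H ×ˢ H := by
    intro q hq
    have h1 := Finset.mem_filter.mp hq
    have h2 := Finset.mem_filter.mp h1.1
    have hlarge : CY p * (t * E) < |pairV d p a q.1 q.2 (ρ q)| := by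
      have e : CY p * (t * E) = θ * E / 2 := by
        rw [ht]
        field_simp
      rw [e]
      have : 0 < θ * E := mul_pos hθ0 hE
      linarith [h2.2]
    rcases pair_dichotomy h hp a (hρ q) ht0 ht1 hE (hP q h2.1) hlarge with hc | ⟨hc1, hc2⟩
    · exact absurd hc h1.2
    · have h4 := hit_energy h hp a (hρ q) hθ'0 hθ'1 hE hc1
      have h5 := hit_energy h hp a (hρ q) hθ'0 hθ'1 hE hc2
      refine Finset.mem_product.mpr ⟨Finset.mem_filter.mpr ⟨Finset.mem_univ _, ?_⟩,
        Finset.mem_filter.mpr ⟨Finset.mem_univ _, ?_⟩⟩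
      · calc θ' ^ 2 / hitConst p * E = θ' ^ 2 * E / hitConst p := by ring
          _ ≤ _ := h4
      · calc θ' ^ 2 / hitConst p * E = θ' ^ 2 * E / hitConst p := by ring
          _ ≤ _ := h5
  have hG₂card : (G₂.card : ℝ) ≤ (1 / (θ' ^ 2 / hitConst p)) ^ 2 := by
    have h1 := Finset.card_le_card hG₂sub
    rw [Finset.card_product] at h1
    have h2 : (G₂.card : ℝ) ≤ (H.card : ℝ) * H.card := by exact_mod_cast h1
    have h3 : (0:ℝ) ≤ H.card := by positivity
    nlinarith
  have h1 : (Big.card : ℝ) = G₁.card + G₂.card := by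
    rw [← hsplit]
    push_cast
    ring
  rw [h1]
  -- the arithmetic
  obtain ⟨hG1, _⟩ := Gn_bounds hp hθ'0 hθ'1
  set u := uConst p with hu
  have hu1 : 1 ≤ u := uConst_ge_one hp
  have hKB := KB_pos hp
  have h2 : 2 * ((Qn p 16 θ' : ℝ) * (1 / eB p θ')) ≤ 10 * u ^ 2 * KB p / θ' ^ 6 := by
    have e1 : 1 / eB p θ' = KB p / θ' ^ 4 := by
      unfold eB
      field_simp
    rw [e1]
    calc 2 * ((Qn p 16 θ' : ℝ) * (KB p / θ' ^ 4))
        ≤ 2 * ((5 * (u / θ') ^ 2) * (KB p / θ' ^ 4)) := by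
          apply mul_le_mul_of_nonneg_left _ (by norm_num)
          exact mul_le_mul_of_nonneg_right hG1 (by positivity)
      _ = _ := by
          field_simp
          norm_num
  have h3 : (1 / (θ' ^ 2 / hitConst p)) ^ 2 ≤ hitConst p ^ 2 / θ' ^ 6 := by
    have e2 : (1 / (θ' ^ 2 / hitConst p)) ^ 2 = hitConst p ^ 2 / θ' ^ 4 := by
      field_simp
    rw [e2]
    apply div_le_div_of_nonneg_left (by positivity) (by positivity)
    exact pow_le_pow_of_le_one hθ'0.le hθ'1 (by norm_num)
  have e3 : Kpair p / θ' ^ 6 = 10 * u ^ 2 * KB p / θ' ^ 6 + hitConst p ^ 2 / θ' ^ 6 := by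
    unfold Kpair
    rw [add_div]
  rw [e3]
  linarith

end values

end Vale.Agent.Lib.P249L
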