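import Mathlib
import Vale.Agent.Lib.P249L.Values
import Vale.Agent.Lib.P249L.Array
import Vale.Agent.Lib.P249.Main

open Finset

namespace Vale.Agent.Lib.P249L

open Vale.Agent.Lib.P249

variable {ι : Type*} [Fintype ι] {Ω : Type*} [Fintype Ω]

section step

variable {d : ι → ι → ℝ} {r : ι → ι → ℕ} {p : ℝ}

/-- The dyadic scale of a pair. -/
noncomputable def dyad (d : ι → ι → ℝ) (x y : ι) : ℤ := Int.log 2 (d x y)

lemma dyad_spec {x y : ι} (hd : 0 < d x y) :
    (2:ℝ) ^ dyad d x y ≤ d x y ∧ d x y < rad (dyad d x y) := by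
  constructor
  · have := Int.zpow_log_le_self (b := 2) (by norm_num) hd
    simpa [dyad] using this
  · have h1 : d x y < ((2:ℕ):ℝ) ^ (Int.succ (Int.log 2 (d x y))) :=
      Int.lt_zpow_succ_log_self (by norm_num) _
    have e : Int.succ (Int.log 2 (d x y)) = Int.log 2 (d x y) + 1 := rfl
    rw [e, zpow_add_one₀ (by norm_num)] at h1
    push_cast at h1
    unfold rad dyad
    linarith

/-- The weighted sum of the `p`-th powers of the differences. -/
noncomputable def Fw (a : Ω → ι → ℝ) (p : ℝ) (w : Ω → ℝ) (x y : ι) : ℝ :=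
  ∑ k, w k * |a k x - a k y| ^ p

/-- The share of the total energy of a sample. -/
noncomputable def tauw (d : ι → ι → ℝ) (r : ι → ι → ℕ) (a : Ω → ι → ℝ) (p : ℝ) (w : Ω → ℝ)
    (k : Ω) : ℝ := w k * Etot d r p (a k)

lemma sum_tauw_le (h : RankedMetric d r) (hp : 1 ≤ p) (a : Ω → ι → ℝ) (w : Ω → ℝ)
    (hF : ∀ x y, Fw a p w x y ≤ 2 * d x y ^ p) :
    ∑ k, tauw d r a p w k ≤ 6 * (Fintype.card ι : ℝ) := by
  have hp0 : 0 < p := by linarith
  have e : ∑ k, tauw d r a p w k = ∑ x, ∑ y, wt (r x y) * (Fw a p w x y / d x y ^ p) := by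
    simp only [tauw, Etot, En, Fw]
    simp only [Finset.mul_sum]
    rw [Finset.sum_comm]
    apply Finset.sum_congr rfl
    intro x _
    rw [Finset.sum_comm]
    apply Finset.sum_congr rfl
    intro y _
    rw [Finset.sum_div, Finset.mul_sum]
    apply Finset.sum_congr rfl
    intro k _
    by_cases hxy : x = y
    · subst hxy
      simp [Real.zero_rpow hp0.ne']
    · have hd := h.pos x y hxy
      rw [Real.div_rpow (abs_nonneg _) hd.le]
      ring
  rw [e]
  have h1 : ∀ x, ∑ y, wt (r x y) * (Fw a p w x y / d x y ^ p) ≤ 6 := by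
    intro x
    have h3 := sum_rank_wt h x
    calc ∑ y, wt (r x y) * (Fw a p w x y / d x y ^ p) ≤ ∑ y, wt (r x y) * 2 := by
          apply Finset.sum_le_sum
          intro y _
          apply mul_le_mul_of_nonneg_left _ (wt_pos _).le
          by_cases hxy : x = y
          · subst hxy
            rw [h.self, Real.zero_rpow hp0.ne', div_zero]
            norm_num
          · have hd := h.pos x y hxy
            have hdp : 0 < d x y ^ p := Real.rpow_pos_of_pos hd p
            rw [div_le_iff₀ hdp]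
            exact hF x y
      _ = (∑ y, wt (r x y)) * 2 := by rw [Finset.sum_mul]
      _ ≤ 6 := by linarith
  calc ∑ x, ∑ y, wt (r x y) * (Fw a p w x y / d x y ^ p) ≤ ∑ _x : ι, (6:ℝ) :=
        Finset.sum_le_sum (fun x _ => h1 x)
    _ = _ := by
        rw [Finset.sum_const, Finset.card_univ, nsmul_eq_mul]
        ring

/-- A pointwise bound for the row value by the average over the ball. -/
lemma rowV_le_avg (h : RankedMetric d r) (a : ι → ℝ) (hp : 1 ≤ p) (x : ι) {ρ : ℝ} (hρ : 0 < ρ) :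
    ((ball d x ρ).card : ℝ) * rowV d p a x ρ ≤
      2 * ∑ y ∈ ball d x ρ, |a x - a y| ^ p / ρ ^ p := by
  have hp0 : 0 < p := by linarith
  have hne : (ball d x ρ).Nonempty := ⟨x, self_mem_ball h hρ⟩
  obtain ⟨Z, hZS, hZc, hZ⟩ := far_half a hne (a x)
  set D := |a x - med (ball d x ρ) a| with hD
  have hD0 : 0 ≤ D := abs_nonneg _
  have hval : ∀ y ∈ Z, D ≤ |a x - a y| := by
    intro y hy
    rcases hZ with hZ | hZ
    · have := hZ y hy
      rw [abs_of_nonneg (by linarith)]
      linarith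
    · have := hZ y hy
      rw [abs_sub_comm, abs_of_nonneg (by linarith)]
      linarith
  have hρp : 0 < ρ ^ p := Real.rpow_pos_of_pos hρ p
  have e : rowV d p a x ρ = D ^ p / ρ ^ p := by
    unfold rowV
    rw [Real.div_rpow (abs_nonneg _) hρ.le]
  rw [e]
  have h1 : (Z.card : ℝ) * (D ^ p / ρ ^ p) ≤ ∑ y ∈ ball d x ρ, |a x - a y| ^ p / ρ ^ p := by
    calc (Z.card : ℝ) * (D ^ p / ρ ^ p) = ∑ _y ∈ Z, D ^ p / ρ ^ p := by
          rw [Finset.sum_const, nsmul_eq_mul]
      _ ≤ ∑ y ∈ Z, |a x - a y| ^ p / ρ ^ p := by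
          apply Finset.sum_le_sum
          intro y hy
          apply div_le_div_of_nonneg_right _ hρp.le
          exact Real.rpow_le_rpow (abs_nonneg _) (hval y hy) hp0.le
      _ ≤ _ := Finset.sum_le_sum_of_subset_of_nonneg hZS (fun _ _ _ => by positivity)
  have h2 : ((ball d x ρ).card : ℝ) ≤ 2 * Z.card := by exact_mod_cast hZc
  have h3 : 0 ≤ D ^ p / ρ ^ p := by positivity
  nlinarith

/-- The mass of a row. -/
lemma mass_row (h : RankedMetric d r) (hp : 1 ≤ p) (a : Ω → ι → ℝ) (w : Ω → ℝ) (hw : ∀ k, 0 ≤ w k)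
    (hF : ∀ x y, Fw a p w x y ≤ 2 * d x y ^ p) (x : ι) {ρ : ℝ} (hρ : 0 < ρ) :
    ∑ k, w k * rowV d p (a k) x ρ ≤ 4 := by
  have hp0 : 0 < p := by linarith
  have hne : (ball d x ρ).Nonempty := ⟨x, self_mem_ball h hρ⟩
  have hc0 : (0:ℝ) < (ball d x ρ).card := by exact_mod_cast Finset.card_pos.mpr hne
  have hρp : 0 < ρ ^ p := Real.rpow_pos_of_pos hρ p
  have h1 : ((ball d x ρ).card : ℝ) * ∑ k, w k * rowV d p (a k) x ρ ≤
      ((ball d x ρ).card : ℝ) * 4 := by
    calc ((ball d x ρ).card : ℝ) * ∑ k, w k * rowV d p (a k) x ρ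
        = ∑ k, w k * (((ball d x ρ).card : ℝ) * rowV d p (a k) x ρ) := by
          rw [Finset.mul_sum]
          apply Finset.sum_congr rfl
          intro k _
          ring
      _ ≤ ∑ k, w k * (2 * ∑ y ∈ ball d x ρ, |a k x - a k y| ^ p / ρ ^ p) := by
          apply Finset.sum_le_sum
          intro k _
          exact mul_le_mul_of_nonneg_left (rowV_le_avg h (a k) hp x hρ) (hw k)
      _ = 2 * ∑ y ∈ ball d x ρ, Fw a p w x y / ρ ^ p := by
          simp only [Fw, Finset.sum_div, Finset.mul_sum]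
          rw [Finset.sum_comm]
          apply Finset.sum_congr rfl
          intro y _
          apply Finset.sum_congr rfl
          intro k _
          ring
      _ ≤ 2 * ∑ _y ∈ ball d x ρ, (2:ℝ) := by
          apply mul_le_mul_of_nonneg_left _ (by norm_num)
          apply Finset.sum_le_sum
          intro y hy
          rw [div_le_iff₀ hρp]
          have h3 := hF x y
          have h4 : 0 ≤ d x y := by
            by_cases hxy : x = y
            · subst hxy
              rw [h.self]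
            · exact (h.pos x y hxy).le
          have h5 : d x y ^ p ≤ ρ ^ p := Real.rpow_le_rpow h4 (mem_ball.mp hy).le hp0.le
          linarith
      _ = _ := by
          rw [Finset.sum_const, nsmul_eq_mul]
          ring
  exact le_of_mul_le_mul_left h1 hc0

/-- The mass of the residual of a pair. -/
lemma mass_pair (h : RankedMetric d r) (hp : 1 ≤ p) (a : Ω → ι → ℝ) (w : Ω → ℝ) (hw : ∀ k, 0 ≤ w k)
    (hF : ∀ x y, Fw a p w x y ≤ 2 * d x y ^ p) {i j : ι} {ρ : ℝ} (hρ : 0 < ρ) (hij : d i j < ρ) :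
    ∑ k, |w k * pairV d p (a k) i j ρ| ≤ 10 := by
  have hp0 : 0 < p := by linarith
  have hρp : 0 < ρ ^ p := Real.rpow_pos_of_pos hρ p
  have h1 : ∀ k, |w k * pairV d p (a k) i j ρ| ≤
      w k * (|a k i - a k j| ^ p / ρ ^ p) + w k * rowV d p (a k) i ρ + w k * rowV d p (a k) j ρ := by
    intro k
    rw [abs_mul, abs_of_nonneg (hw k), ← mul_add, ← mul_add]
    apply mul_le_mul_of_nonneg_left _ (hw k)
    unfold pairV
    rw [Real.div_rpow (abs_nonneg _) hρ.le]
    have h4 : 0 ≤ rowV d p (a k) i ρ := rowV_nonneg hρ _ _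
    have h5 : 0 ≤ rowV d p (a k) j ρ := rowV_nonneg hρ _ _
    have h6 : 0 ≤ |a k i - a k j| ^ p / ρ ^ p := by positivity
    rw [abs_le]
    constructor <;> linarith
  have h2 : ∑ k, w k * (|a k i - a k j| ^ p / ρ ^ p) = Fw a p w i j / ρ ^ p := by
    simp only [Fw, Finset.sum_div]
    apply Finset.sum_congr rfl
    intro k _
    ring
  have h3 : Fw a p w i j / ρ ^ p ≤ 2 := by
    rw [div_le_iff₀ hρp]
    have h4 : 0 ≤ d i j := by
      by_cases hxy : i = j
      · subst hxy
        rw [h.self]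
      · exact (h.pos i j hxy).le
    have h5 : d i j ^ p ≤ ρ ^ p := Real.rpow_le_rpow h4 hij.le hp0.le
    have := hF i j
    linarith
  calc ∑ k, |w k * pairV d p (a k) i j ρ|
      ≤ ∑ k, (w k * (|a k i - a k j| ^ p / ρ ^ p) + w k * rowV d p (a k) i ρ +
          w k * rowV d p (a k) j ρ) := Finset.sum_le_sum (fun k _ => h1 k)
    _ = Fw a p w i j / ρ ^ p + ∑ k, w k * rowV d p (a k) i ρ + ∑ k, w k * rowV d p (a k) j ρ := by
        rw [Finset.sum_add_distrib, Finset.sum_add_distrib, h2]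
    _ ≤ 2 + 4 + 4 := by
        have h4 := mass_row h hp a w hw hF i hρ
        have h5 := mass_row h hp a w hw hF j hρ
        linarith
    _ = 10 := by norm_num

/-- The exponent of the polynomial counting bound. -/
noncomputable def K1 (p : ℝ) : ℕ := 6 * ⌈p⌉₊

/-- The constant of the polynomial counting bound. -/
noncomputable def Kall (p : ℝ) : ℝ :=
  hitConst p * rowConst p + Kpair p * (2 * CY p) ^ K1 p

lemma Kall_nonneg (hp : 1 ≤ p) : 0 ≤ Kall p := by
  unfold Kall
  have h1 := hitConst_pos p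
  have h2 := rowConst_pos p
  have h3 := Kpair_pos hp
  have h4 := CY_ge_one hp
  positivity

lemma K1_ge (hp : 1 ≤ p) : 6 ≤ K1 p := by
  unfold K1
  have : 1 ≤ ⌈p⌉₊ := by
    have h1 : (0:ℝ) < p := by linarith
    exact Nat.ceil_pos.mpr h1
  omega

/-- The arithmetic of the polynomial counting bound. -/
lemma count_arith (hp : 1 ≤ p) {θ : ℝ} (hθ0 : 0 < θ) (hθ1 : θ ≤ 1) :
    hitConst p * rowConst p / θ ^ 4 + Kpair p / ((θ / (2 * CY p)) ^ p) ^ 6 ≤
      Kall p * (1 / θ) ^ K1 p := by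
  have hp0 : 0 < p := by linarith
  have h1 := hitConst_pos p
  have h2 := rowConst_pos p
  have h3 := Kpair_pos hp
  have h4 := CY_ge_one hp
  have hK1 := K1_ge hp
  have hz : 1 ≤ 1 / θ := by
    rw [one_le_div hθ0]
    exact hθ1
  have ha : 1 / θ ^ 4 ≤ (1 / θ) ^ K1 p := by
    have e : 1 / θ ^ 4 = (1 / θ) ^ 4 := by
      rw [one_div_pow]
    rw [e]
    exact pow_le_pow_right₀ hz (by omega)
  have hb : 1 / ((θ / (2 * CY p)) ^ p) ^ 6 ≤ (2 * CY p) ^ K1 p * (1 / θ) ^ K1 p := by
    set y := 2 * CY p / θ with hy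
    have hy1 : 1 ≤ y := by
      rw [hy, one_le_div hθ0]
      linarith
    have e1 : (θ / (2 * CY p)) = 1 / y := by
      rw [hy]
      field_simp
    have e2 : 1 / ((θ / (2 * CY p)) ^ p) ^ 6 = (y ^ p) ^ 6 := by
      rw [e1, Real.div_rpow (by norm_num) (by positivity), Real.one_rpow, one_div_pow, one_div_one_div]
    rw [e2]
    have e3 : (2 * CY p) ^ K1 p * (1 / θ) ^ K1 p = y ^ K1 p := by
      rw [← mul_pow, hy]
      ring
    rw [e3]
    have h5 : y ^ p ≤ y ^ ⌈p⌉₊ := by
      rw [← Real.rpow_natCast]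
      exact Real.rpow_le_rpow_of_exponent_le hy1 (Nat.le_ceil p)
    calc (y ^ p) ^ 6 ≤ (y ^ ⌈p⌉₊) ^ 6 := pow_le_pow_left₀ (by positivity) h5 6
      _ = y ^ K1 p := by
          unfold K1
          rw [← pow_mul, mul_comm]
  unfold Kall
  rw [add_mul]
  apply add_le_add
  · have e : hitConst p * rowConst p / θ ^ 4 = hitConst p * rowConst p * (1 / θ ^ 4) := by ring
    rw [e]
    exact mul_le_mul_of_nonneg_left ha (by positivity)
  · have e : Kpair p / ((θ / (2 * CY p)) ^ p) ^ 6 = Kpair p * (1 / ((θ / (2 * CY p)) ^ p) ^ 6) := by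
      ring
    rw [e, mul_assoc]
    exact mul_le_mul_of_nonneg_left hb h3.le

variable [DecidableEq ι]

/-- The pairs of distinct points. -/
noncomputable def pairSet (ι : Type*) [Fintype ι] [DecidableEq ι] : Finset (ι × ι) :=
  Finset.univ.filter (fun q => q.1 ≠ q.2)

/-- The rows: a point together with an occupied dyadic scale around it. -/
noncomputable def rowSet (d : ι → ι → ℝ) : Finset (ι × ℤ) :=
  (pairSet ι).image (fun q => (q.1, dyad d q.1 q.2))

/-- The index set of the constraints. -/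
abbrev Atom (d : ι → ι → ℝ) := ↥(rowSet d) ⊕ ↥(pairSet ι)

/-- The value of a constraint on a function. -/
noncomputable def atomV (d : ι → ι → ℝ) (p : ℝ) (α : Atom d) (a : ι → ℝ) : ℝ :=
  Sum.elim (fun q : ↥(rowSet d) => rowV d p a q.1.1 (rad q.1.2))
    (fun q : ↥(pairSet ι) => pairV d p a q.1.1 q.1.2 (rad (dyad d q.1.1 q.1.2))) α

lemma pairSet_spec (h : RankedMetric d r) {q : ι × ι} (hq : q ∈ pairSet ι) :
    (2:ℝ) ^ dyad d q.1 q.2 ≤ d q.1 q.2 ∧ d q.1 q.2 < rad (dyad d q.1 q.2) := by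
  have h1 : q.1 ≠ q.2 := (Finset.mem_filter.mp hq).2
  exact dyad_spec (h.pos _ _ h1)

lemma atom_le (h : RankedMetric d r) (hp : 1 ≤ p) (α : Atom d) (a : ι → ℝ) :
    |atomV d p α a| ≤ (3 * tclConst p) * Etot d r p a := by
  have hE0 := Etot_nonneg h p a
  have hK := tclConst_pos p
  rcases α with q | q
  · simp only [atomV, Sum.elim_inl]
    rw [abs_of_nonneg (rowV_nonneg (rad_pos _) _ _)]
    have h1 := rowV_le (p := p) h hp a q.1.1 (rad_pos q.1.2)
    have h2 : 0 ≤ tclConst p * Etot d r p a := by positivity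
    linarith
  · simp only [atomV, Sum.elim_inr]
    have h1 := pairV_abs_le h hp a (rad_pos (dyad d q.1.1 q.1.2)) (pairSet_spec h q.2).2
    linarith

lemma atom_mass (h : RankedMetric d r) (hp : 1 ≤ p) (a : Ω → ι → ℝ) (w : Ω → ℝ) (hw : ∀ k, 0 ≤ w k)
    (hF : ∀ x y, Fw a p w x y ≤ 2 * d x y ^ p) (α : Atom d) :
    ∑ k, |w k * atomV d p α (a k)| ≤ 10 := by
  rcases α with q | q
  · simp only [atomV, Sum.elim_inl]
    have h1 := mass_row h hp a w hw hF q.1.1 (rad_pos q.1.2)
    have h2 : ∑ k, |w k * rowV d p (a k) q.1.1 (rad q.1.2)| =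
        ∑ k, w k * rowV d p (a k) q.1.1 (rad q.1.2) := by
      apply Finset.sum_congr rfl
      intro k _
      rw [abs_of_nonneg (mul_nonneg (hw k) (rowV_nonneg (rad_pos _) _ _))]
    rw [h2]
    linarith
  · simp only [atomV, Sum.elim_inr]
    exact mass_pair h hp a w hw hF (rad_pos _) (pairSet_spec h q.2).2

lemma atom_count (h : RankedMetric d r) (hp : 1 ≤ p) (a : ι → ℝ) (hE : 0 < Etot d r p a)
    {θ : ℝ} (hθ0 : 0 < θ) (hθ1 : θ ≤ 1) :
    ((Finset.univ.filter (fun α : Atom d => θ * Etot d r p a ≤ |atomV d p α a|)).card : ℝ) ≤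
      Kall p * (1 / θ) ^ K1 p := by
  classical
  refine le_trans ?_ (count_arith hp hθ0 hθ1)
  rw [Finset.card_filter]
  push_cast
  rw [Fintype.sum_sum_type]
  apply add_le_add
  · have hA : ∀ q ∈ rowSet d, ∃ y, y ≠ q.1 ∧ (2:ℝ) ^ q.2 ≤ d q.1 y ∧ d q.1 y < rad q.2 := by
      intro q hq
      obtain ⟨q', hq', rfl⟩ := Finset.mem_image.mp hq
      have h1 := (Finset.mem_filter.mp hq').2
      exact ⟨q'.2, Ne.symm h1, (pairSet_spec h hq').1, (pairSet_spec h hq').2⟩
    have hc : (((rowSet d).filter (fun q => θ * Etot d r p a ≤ rowV d p a q.1 (rad q.2))).card : ℝ) ≤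
        hitConst p * rowConst p / θ ^ 4 := count_rows h hp a hθ0 hθ1 hE (rowSet d) hA
    refine le_trans (le_of_eq ?_) hc
    rw [Finset.card_filter]
    push_cast
    have e1 : ∀ q : ↥(rowSet d), (if θ * Etot d r p a ≤ |atomV d p (Sum.inl q) a| then (1:ℝ) else 0) =
        (if θ * Etot d r p a ≤ rowV d p a q.1.1 (rad q.1.2) then (1:ℝ) else 0) := by
      intro q
      have e2 : |atomV d p (Sum.inl q) a| = rowV d p a q.1.1 (rad q.1.2) :=
        abs_of_nonneg (rowV_nonneg (rad_pos _) _ _)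
      rw [e2]
    rw [Finset.sum_congr rfl (fun q _ => e1 q)]
    exact Finset.sum_coe_sort (rowSet d) (fun q : ι × ℤ =>
      if θ * Etot d r p a ≤ rowV d p a q.1 (rad q.2) then (1:ℝ) else 0)
  · have hc := count_pairs h hp a hθ0 hθ1 hE (fun q => rad (dyad d q.1 q.2)) (fun q => rad_pos _)
      (pairSet ι) (fun q hq => (pairSet_spec h hq).2)
    refine le_trans (le_of_eq ?_) hc
    rw [Finset.card_filter]
    push_cast
    have e1 : ∀ q : ↥(pairSet ι), (if θ * Etot d r p a ≤ |atomV d p (Sum.inr q) a| then (1:ℝ) else 0) =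
        (if θ * Etot d r p a ≤ |pairV d p a q.1.1 q.1.2 (rad (dyad d q.1.1 q.1.2))| then (1:ℝ) else 0) := by
      intro q
      rfl
    rw [Finset.sum_congr rfl (fun q _ => e1 q)]
    exact Finset.sum_coe_sort (pairSet ι) (fun q : ι × ι =>
      if θ * Etot d r p a ≤ |pairV d p a q.1 q.2 (rad (dyad d q.1 q.2))| then (1:ℝ) else 0)

end step

end Vale.Agent.Lib.P249L
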