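import Mathlib
import Vale.Agent.Lib.P249L.Step

open Finset

namespace Vale.Agent.Lib.P249L

open Vale.Agent.Lib.P249

variable {ι : Type*} [Fintype ι] {Ω : Type*} [Fintype Ω]

section halve

variable {d : ι → ι → ℝ} {r : ι → ι → ℕ} {p : ℝ}

/-- The constant bounding the constraint values. -/
noncomputable def Lc (p : ℝ) : ℝ := 3 * tclConst p

lemma Lc_ge_one (hp : 1 ≤ p) : 1 ≤ Lc p := by
  unfold Lc
  have := tclConst_ge_one hp
  linarith

lemma arrayConst_nonneg {L K : ℝ} (hK : 0 ≤ K) (K₁ : ℕ) : 0 ≤ arrayConst L K K₁ := by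
  unfold arrayConst
  positivity

/-- The threshold on the support size. -/
noncomputable def stepC (p : ℝ) : ℝ :=
  32 + (3 / 2) * (arrayConst (Lc p) (Kall p) (K1 p) / Lc p)

/-- The error constant. -/
noncomputable def errC (p : ℝ) : ℝ := 12 * (2:ℝ) ^ p * Real.sqrt (960 * Lc p)

lemma errC_pos (hp : 1 ≤ p) : 0 < errC p := by
  unfold errC
  have := Lc_ge_one hp
  positivity

omit [Fintype Ω] in
lemma tauw_nonneg (h : RankedMetric d r) (a : Ω → ι → ℝ) {w : Ω → ℝ} (hw : ∀ k, 0 ≤ w k) (k : Ω) :
    0 ≤ tauw d r a p w k := mul_nonneg (hw k) (Etot_nonneg h p (a k))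

/-- The splitting of the `p`-th power of a difference into three constraint values. -/
lemma split_value {ρ : ℝ} (hρ : 0 < ρ) (a : ι → ℝ) (x y : ι) :
    |a x - a y| ^ p = ρ ^ p * (rowV d p a x ρ + rowV d p a y ρ + pairV d p a x y ρ) := by
  have h1 : rowV d p a x ρ + rowV d p a y ρ + pairV d p a x y ρ = (|a x - a y| / ρ) ^ p := by
    unfold pairV
    ring
  rw [h1, Real.div_rpow (abs_nonneg _) hρ.le]
  have hρp : 0 < ρ ^ p := Real.rpow_pos_of_pos hρ p
  field_simp

/-- Choosing the sign so that at least half of the nonzero entries are equal to `-1`. -/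
lemma exists_flip {U : Type*} [Fintype U] (χ : U → ℝ) (hχ : ∀ k, χ k = 0 ∨ χ k = 1 ∨ χ k = -1) :
    ∃ σ : ℝ, (σ = 1 ∨ σ = -1) ∧
      ((Finset.univ.filter (fun k => χ k ≠ 0)).card : ℝ) ≤
        2 * ((Finset.univ.filter (fun k => σ * χ k = -1)).card : ℝ) := by
  classical
  have hcover : (Finset.univ.filter (fun k => χ k ≠ 0)) ⊆
      (Finset.univ.filter (fun k => (1:ℝ) * χ k = -1)) ∪
        (Finset.univ.filter (fun k => (-1:ℝ) * χ k = -1)) := by
    intro k hk
    have h0 := (Finset.mem_filter.mp hk).2
    rw [Finset.mem_union, Finset.mem_filter, Finset.mem_filter]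
    rcases hχ k with h1 | h1 | h1
    · exact absurd h1 h0
    · right
      refine ⟨Finset.mem_univ _, ?_⟩
      rw [h1]
      norm_num
    · left
      refine ⟨Finset.mem_univ _, ?_⟩
      rw [h1]
      norm_num
  have hc := Finset.card_le_card hcover
  have hu := Finset.card_union_le (Finset.univ.filter (fun k => (1:ℝ) * χ k = -1))
    (Finset.univ.filter (fun k => (-1:ℝ) * χ k = -1))
  have hle := le_trans hc hu
  by_cases hcase : (Finset.univ.filter (fun k => (-1:ℝ) * χ k = -1)).card ≤
      (Finset.univ.filter (fun k => (1:ℝ) * χ k = -1)).card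
  · refine ⟨1, Or.inl rfl, ?_⟩
    have : (Finset.univ.filter (fun k => χ k ≠ 0)).card ≤
        2 * (Finset.univ.filter (fun k => (1:ℝ) * χ k = -1)).card := by omega
    exact_mod_cast this
  · refine ⟨-1, Or.inr rfl, ?_⟩
    have : (Finset.univ.filter (fun k => χ k ≠ 0)).card ≤
        2 * (Finset.univ.filter (fun k => (-1:ℝ) * χ k = -1)).card := by omega
    exact_mod_cast this

variable [DecidableEq ι]

/-- One halving step: if the support is much larger than the number of points, it can be shrunk by
a constant factor with a small relative error on all distances. -/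
theorem halving_step (h : RankedMetric d r) (hp : 1 ≤ p) (a : Ω → ι → ℝ) (w : Ω → ℝ)
    (hw : ∀ k, 0 ≤ w k) (hF : ∀ x y, Fw a p w x y ≤ 2 * d x y ^ p)
    (hn : 1 ≤ Fintype.card ι)
    (hm : stepC p * (Fintype.card ι : ℝ) ≤
      ((Finset.univ.filter (fun k => 0 < tauw d r a p w k)).card : ℝ)) :
    ∃ w' : Ω → ℝ, (∀ k, 0 ≤ w' k) ∧
      (((Finset.univ.filter (fun k => 0 < tauw d r a p w' k)).card : ℝ) ≤
        (63 / 64) * ((Finset.univ.filter (fun k => 0 < tauw d r a p w k)).card : ℝ)) ∧
      ∀ x y, |Fw a p w' x y - Fw a p w x y| ≤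
        errC p * Real.sqrt ((Fintype.card ι : ℝ) /
          ((Finset.univ.filter (fun k => 0 < tauw d r a p w k)).card : ℝ)) * d x y ^ p := by
  classical
  have hp0 : 0 < p := by linarith
  set n : ℝ := (Fintype.card ι : ℝ) with hndef
  have hn1 : (1:ℝ) ≤ n := by
    rw [hndef]
    exact_mod_cast hn
  set τ : Ω → ℝ := tauw d r a p w with hτdef
  have hτ0 : ∀ k, 0 ≤ τ k := tauw_nonneg h a hw
  set K₀ := Finset.univ.filter (fun k => 0 < τ k) with hK₀
  set m : ℝ := (K₀.card : ℝ) with hmdef
  have hL := Lc_ge_one hp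
  have hL0 : 0 < Lc p := by linarith
  set L := Lc p with hLdef
  have hAC : 0 ≤ arrayConst L (Kall p) (K1 p) := arrayConst_nonneg (Kall_nonneg hp) _
  have hm32 : 32 * n ≤ m := by
    have h1 : 0 ≤ (3 / 2) * (arrayConst L (Kall p) (K1 p) / L) := by positivity
    have h2 : 32 * n ≤ stepC p * n := by
      unfold stepC
      apply mul_le_mul_of_nonneg_right _ (by linarith)
      linarith
    linarith
  have hm0 : 0 < m := by linarith
  set τb : ℝ := 12 * n / m with hτb
  have hτb0 : 0 < τb := by positivity
  set U₀ := K₀.filter (fun k => τ k ≤ τb) with hU₀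
  -- the Markov bound
  have hsum : ∑ k, τ k ≤ 6 * n := sum_tauw_le h hp a w hF
  have hU₀card : m / 2 ≤ (U₀.card : ℝ) := by
    have h1 : ((K₀.filter (fun k => ¬ τ k ≤ τb)).card : ℝ) * τb ≤ 6 * n := by
      calc ((K₀.filter (fun k => ¬ τ k ≤ τb)).card : ℝ) * τb
          = ∑ _k ∈ K₀.filter (fun k => ¬ τ k ≤ τb), τb := by
            rw [Finset.sum_const, nsmul_eq_mul]
        _ ≤ ∑ k ∈ K₀.filter (fun k => ¬ τ k ≤ τb), τ k := by
            apply Finset.sum_le_sum
            intro k hk
            have := (Finset.mem_filter.mp hk).2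
            linarith
        _ ≤ ∑ k, τ k := Finset.sum_le_sum_of_subset_of_nonneg (Finset.subset_univ _)
            (fun k _ _ => hτ0 k)
        _ ≤ 6 * n := hsum
    have h2 : ((K₀.filter (fun k => ¬ τ k ≤ τb)).card : ℝ) ≤ m / 2 := by
      have e : 6 * n = (m / 2) * τb := by
        rw [hτb]
        field_simp
        ring
      rw [e] at h1
      exact le_of_mul_le_mul_right h1 hτb0
    have h3 : (U₀.card : ℝ) + ((K₀.filter (fun k => ¬ τ k ≤ τb)).card : ℝ) = m := by
      rw [hmdef, hU₀]
      exact_mod_cast Finset.card_filter_add_card_filter_not (s := K₀) (fun k => τ k ≤ τb)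
    linarith
  have hU₀16 : 16 ≤ U₀.card := by
    have : (16:ℝ) ≤ (U₀.card : ℝ) := by linarith
    exact_mod_cast this
  set ε : ℝ := Real.sqrt (80 * L * τb) with hε
  have hεpos : 0 < ε := Real.sqrt_pos.mpr (by positivity)
  have hε2 : ε ^ 2 = 80 * L * τb := Real.sq_sqrt (by positivity)
  let g : Atom d → ↥U₀ → ℝ := fun α k => w k.1 * atomV d p α (a k.1)
  let τU : ↥U₀ → ℝ := fun k => τ k.1
  have hUmem : ∀ k : ↥U₀, k.1 ∈ K₀ ∧ τ k.1 ≤ τb := fun k => Finset.mem_filter.mp k.2
  have hUpos : ∀ k : ↥U₀, 0 < τ k.1 := fun k => (Finset.mem_filter.mp (hUmem k).1).2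
  have hcardU : Fintype.card ↥U₀ = U₀.card := Fintype.card_coe U₀
  have hsumU : ∑ k : ↥U₀, τU k ≤ 6 * n := by
    have e : ∑ k : ↥U₀, τU k = ∑ k ∈ U₀, τ k := Finset.sum_coe_sort U₀ τ
    rw [e]
    refine le_trans ?_ hsum
    exact Finset.sum_le_sum_of_subset_of_nonneg (Finset.subset_univ _) (fun k _ _ => hτ0 k)
  obtain ⟨χ, hχval, hχcard, hχbound⟩ := array_lemma (A := Atom d) (U := ↥U₀) g τU
    (τb := τb) (L := L) (M := 10) (K := Kall p) (T := 6 * n) (ε := ε) (K₁ := K1 p)
    hUpos (fun k => (hUmem k).2) hsumU hL0 (Kall_nonneg hp) hεpos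
    (by have := K1_ge hp; omega) hτb0
    (by
      intro α k
      simp only [g, τU]
      rw [abs_mul, abs_of_nonneg (hw k.1)]
      have h1 := atom_le h hp α (a k.1)
      have e : L * τ k.1 = w k.1 * (L * Etot d r p (a k.1)) := by
        simp only [hτdef, tauw]
        ring
      rw [e]
      exact mul_le_mul_of_nonneg_left h1 (hw k.1))
    (by
      intro α
      have e : ∑ k : ↥U₀, |g α k| = ∑ k ∈ U₀, |w k * atomV d p α (a k)| :=
        Finset.sum_coe_sort U₀ (fun k => |w k * atomV d p α (a k)|)
      rw [e]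
      refine le_trans ?_ (atom_mass h hp a w hw hF α)
      exact Finset.sum_le_sum_of_subset_of_nonneg (Finset.subset_univ _)
        (fun k _ _ => abs_nonneg _))
    (by
      intro k θ hθ0 hθ1
      have hpos := hUpos k
      have hwE : 0 < w k.1 ∧ 0 < Etot d r p (a k.1) := by
        have h1 : 0 < w k.1 * Etot d r p (a k.1) := hpos
        have h2 := hw k.1
        have h3 := Etot_nonneg h p (a k.1)
        constructor
        · rcases eq_or_lt_of_le h2 with h4 | h4
          · rw [← h4] at h1
            simp at h1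
          · exact h4
        · rcases eq_or_lt_of_le h3 with h4 | h4
          · rw [← h4] at h1
            simp at h1
          · exact h4
      refine le_trans ?_ (atom_count h hp (a k.1) hwE.2 hθ0 hθ1)
      apply Nat.cast_le.mpr
      apply Finset.card_le_card
      intro α hα
      rw [Finset.mem_filter] at hα ⊢
      refine ⟨Finset.mem_univ _, ?_⟩
      have h1 := hα.2
      simp only [g, τU] at h1
      rw [abs_mul, abs_of_nonneg (hw k.1)] at h1
      have e : θ * (L * τ k.1) = w k.1 * (θ * L * Etot d r p (a k.1)) := by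
        simp only [hτdef, tauw]
        ring
      rw [e] at h1
      have h2 := le_of_mul_le_mul_left h1 hwE.1
      have h3 : θ * Etot d r p (a k.1) ≤ θ * L * Etot d r p (a k.1) := by
        have h4 : 0 ≤ θ * Etot d r p (a k.1) := by
          have := hwE.2
          positivity
        nlinarith
      linarith)
    (by
      rw [hε2]
      apply le_of_eq
      ring)
    (by
      rw [hcardU, hε2]
      have e1 : τb / (80 * L * τb) = 1 / (80 * L) := by
        field_simp
      rw [e1]
      have h1 : arrayConst L (Kall p) (K1 p) * (1 / (80 * L) * (6 * n)) =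
          ((3 / 2) * (arrayConst L (Kall p) (K1 p) / L)) * n / 20 := by
        field_simp
        ring
      rw [h1]
      have h2 : ((3 / 2) * (arrayConst L (Kall p) (K1 p) / L)) * n ≤ stepC p * n := by
        apply mul_le_mul_of_nonneg_right _ (by linarith)
        unfold stepC
        linarith
      have h3 : stepC p * n ≤ m := hm
      linarith)
    (by rw [hcardU]; exact hU₀16)
  obtain ⟨σ, hσ, hσcard⟩ := exists_flip χ hχval
  -- the new weights
  let χ' : Ω → ℝ := fun k => if hk : k ∈ U₀ then σ * χ ⟨k, hk⟩ else 0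
  have hχ'val : ∀ k, χ' k = 0 ∨ χ' k = 1 ∨ χ' k = -1 := by
    intro k
    simp only [χ']
    split_ifs with hk
    · rcases hχval ⟨k, hk⟩ with h1 | h1 | h1 <;> rcases hσ with h2 | h2 <;> rw [h1, h2] <;> norm_num
    · left
      rfl
  have hχ'nn : ∀ k, 0 ≤ 1 + χ' k := by
    intro k
    rcases hχ'val k with h1 | h1 | h1 <;> rw [h1] <;> norm_num
  let w' : Ω → ℝ := fun k => w k * (1 + χ' k)
  have hw' : ∀ k, 0 ≤ w' k := fun k => mul_nonneg (hw k) (hχ'nn k)
  have hτ' : ∀ k, tauw d r a p w' k = τ k * (1 + χ' k) := by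
    intro k
    simp only [hτdef, tauw, w']
    ring
  refine ⟨w', hw', ?_, ?_⟩
  · -- the support shrinks
    have hsub : (Finset.univ.filter (fun k => 0 < tauw d r a p w' k)) ⊆
        K₀ \ (Finset.univ.filter (fun k : ↥U₀ => σ * χ k = -1)).image (fun k => k.1) := by
      intro k hk
      have hk1 := (Finset.mem_filter.mp hk).2
      rw [hτ'] at hk1
      rw [Finset.mem_sdiff]
      constructor
      · rw [hK₀, Finset.mem_filter]
        refine ⟨Finset.mem_univ _, ?_⟩
        have h2 := hχ'nn k
        have h3 := hτ0 k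
        rcases eq_or_lt_of_le h3 with h4 | h4
        · rw [← h4] at hk1
          simp at hk1
        · exact h4
      · intro hcon
        obtain ⟨k', hk', rfl⟩ := Finset.mem_image.mp hcon
        have h5 := (Finset.mem_filter.mp hk').2
        have h6 : χ' k'.1 = -1 := by
          simp only [χ']
          rw [dif_pos k'.2]
          exact h5
        rw [h6] at hk1
        simp at hk1
    have himage : (((Finset.univ.filter (fun k : ↥U₀ => σ * χ k = -1)).image
        (fun k => k.1)).card : ℝ) = ((Finset.univ.filter (fun k : ↥U₀ => σ * χ k = -1)).card : ℝ) := by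
      rw [Finset.card_image_of_injective _ Subtype.val_injective]
    have himsub : (Finset.univ.filter (fun k : ↥U₀ => σ * χ k = -1)).image (fun k => k.1) ⊆ K₀ := by
      intro k hk
      obtain ⟨k', -, rfl⟩ := Finset.mem_image.mp hk
      exact (hUmem k').1
    have hsd := Finset.card_sdiff_of_subset himsub
    have hcardle := Finset.card_le_card hsub
    have h64 : m / 64 ≤ ((Finset.univ.filter (fun k : ↥U₀ => σ * χ k = -1)).card : ℝ) := by
      rw [hcardU] at hχcard
      linarith
    have hle : ((K₀ \ (Finset.univ.filter (fun k : ↥U₀ => σ * χ k = -1)).image (fun k => k.1)).card : ℝ)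
        = m - ((Finset.univ.filter (fun k : ↥U₀ => σ * χ k = -1)).card : ℝ) := by
      rw [hsd, Nat.cast_sub (Finset.card_le_card himsub), himage]
    have h7 : ((Finset.univ.filter (fun k => 0 < tauw d r a p w' k)).card : ℝ) ≤
        ((K₀ \ (Finset.univ.filter (fun k : ↥U₀ => σ * χ k = -1)).image (fun k => k.1)).card : ℝ) := by
      exact_mod_cast hcardle
    rw [hle] at h7
    linarith
  · -- the error
    intro x y
    by_cases hxy : x = y
    · subst hxy
      simp [Fw, Real.zero_rpow hp0.ne', h.self]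
    · have hd := h.pos x y hxy
      set e := dyad d x y with he
      set ρ := rad e with hρ
      have hρ0 : 0 < ρ := rad_pos e
      have hyx : dyad d y x = e := by
        rw [he]
        unfold dyad
        rw [h.symm y x]
      have hq1 : (x, y) ∈ pairSet ι := Finset.mem_filter.mpr ⟨Finset.mem_univ _, hxy⟩
      have hq2 : (y, x) ∈ pairSet ι := Finset.mem_filter.mpr ⟨Finset.mem_univ _, Ne.symm hxy⟩
      have hr1 : (x, e) ∈ rowSet d := Finset.mem_image.mpr ⟨(x, y), hq1, rfl⟩
      have hr2 : (y, e) ∈ rowSet d := Finset.mem_image.mpr ⟨(y, x), hq2, by simp [hyx]⟩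
      let α₁ : Atom d := Sum.inl ⟨(x, e), hr1⟩
      let α₂ : Atom d := Sum.inl ⟨(y, e), hr2⟩
      let α₃ : Atom d := Sum.inr ⟨(x, y), hq1⟩
      have hsplit : ∀ k, w k * |a k x - a k y| ^ p = ρ ^ p *
          (w k * atomV d p α₁ (a k) + w k * atomV d p α₂ (a k) + w k * atomV d p α₃ (a k)) := by
        intro k
        have e1 : atomV d p α₁ (a k) = rowV d p (a k) x ρ := rfl
        have e2 : atomV d p α₂ (a k) = rowV d p (a k) y ρ := rfl
        have e3 : atomV d p α₃ (a k) = pairV d p (a k) x y ρ := rfl
        rw [e1, e2, e3, split_value hρ0 (a k) x y]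
        ring
      have hdiff : Fw a p w' x y - Fw a p w x y =
          ρ ^ p * σ * (∑ k : ↥U₀, χ k * g α₁ k + ∑ k : ↥U₀, χ k * g α₂ k + ∑ k : ↥U₀, χ k * g α₃ k) := by
        have e1 : Fw a p w' x y - Fw a p w x y = ∑ k, χ' k * (w k * |a k x - a k y| ^ p) := by
          unfold Fw
          rw [← Finset.sum_sub_distrib]
          apply Finset.sum_congr rfl
          intro k _
          simp only [w']
          ring
        rw [e1]
        have e2 : ∑ k, χ' k * (w k * |a k x - a k y| ^ p) =
            ∑ k ∈ U₀, χ' k * (w k * |a k x - a k y| ^ p) := by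
          symm
          apply Finset.sum_subset (Finset.subset_univ _)
          intro k _ hk
          have : χ' k = 0 := by
            simp only [χ']
            rw [dif_neg hk]
          rw [this, zero_mul]
        rw [e2, ← Finset.sum_coe_sort U₀, ← Finset.sum_add_distrib, ← Finset.sum_add_distrib,
          Finset.mul_sum]
        apply Finset.sum_congr rfl
        intro k _
        have e3 : χ' k.1 = σ * χ k := by
          simp only [χ']
          rw [dif_pos k.2]
        rw [e3, hsplit k.1]
        simp only [g]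
        ring
      have hρp : ρ ^ p ≤ (2:ℝ) ^ p * d x y ^ p := by
        rw [← Real.mul_rpow (by norm_num) hd.le]
        apply Real.rpow_le_rpow hρ0.le _ hp0.le
        have := (dyad_spec hd).1
        rw [hρ]
        unfold rad
        linarith
      have hρp0 : 0 < ρ ^ p := Real.rpow_pos_of_pos hρ0 p
      have hσabs : |σ| = 1 := by
        rcases hσ with h1 | h1 <;> rw [h1] <;> norm_num
      have hb := hχbound α₁
      have hb2 := hχbound α₂
      have hb3 := hχbound α₃
      rw [hdiff, abs_mul, abs_mul, hσabs, abs_of_pos hρp0, mul_one]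
      have hsum3 : |∑ k : ↥U₀, χ k * g α₁ k + ∑ k : ↥U₀, χ k * g α₂ k + ∑ k : ↥U₀, χ k * g α₃ k| ≤
          12 * ε := by
        calc _ ≤ |∑ k : ↥U₀, χ k * g α₁ k + ∑ k : ↥U₀, χ k * g α₂ k| +
              |∑ k : ↥U₀, χ k * g α₃ k| := abs_add_le _ _
          _ ≤ |∑ k : ↥U₀, χ k * g α₁ k| + |∑ k : ↥U₀, χ k * g α₂ k| +
              |∑ k : ↥U₀, χ k * g α₃ k| := by
              gcongr
              exact abs_add_le _ _
          _ ≤ 12 * ε := by linarith
      have hεeq : ε = Real.sqrt (960 * L) * Real.sqrt (n / m) := by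
        rw [hε, ← Real.sqrt_mul (by positivity)]
        congr 1
        rw [hτb]
        ring
      calc ρ ^ p * |∑ k : ↥U₀, χ k * g α₁ k + ∑ k : ↥U₀, χ k * g α₂ k + ∑ k : ↥U₀, χ k * g α₃ k|
          ≤ ((2:ℝ) ^ p * d x y ^ p) * (12 * ε) :=
            mul_le_mul hρp hsum3 (abs_nonneg _) (by positivity)
        _ = errC p * Real.sqrt (n / m) * d x y ^ p := by
            rw [hεeq]
            unfold errC
            ring

/-- All distances are preserved up to the relative error `e`. -/
def Close (d : ι → ι → ℝ) (a : Ω → ι → ℝ) (p : ℝ) (w : Ω → ℝ) (e : ℝ) : Prop :=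
  ∀ x y, |Fw a p w x y - d x y ^ p| ≤ e * d x y ^ p

/-- The iteration of the halving step. -/
theorem iterate_halving (h : RankedMetric d r) (hp : 1 ≤ p) (a : Ω → ι → ℝ)
    (hn : 1 ≤ Fintype.card ι) {δ₀ C : ℝ} (hδ₀0 : 0 < δ₀) (hδ₀ : δ₀ ≤ 1 / 2)
    (hC1 : stepC p ≤ C) (hC2 : (128 * errC p / δ₀) ^ 2 ≤ C) (N : ℕ) :
    ∀ (w : Ω → ℝ) (e : ℝ), (∀ k, 0 ≤ w k) →
      (Finset.univ.filter (fun k => 0 < tauw d r a p w k)).card ≤ N →
      Close d a p w e → e ≤ 2 * δ₀ →
      (C * (Fintype.card ι : ℝ) ≤ ((Finset.univ.filter (fun k => 0 < tauw d r a p w k)).card : ℝ) →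
        e ≤ 128 * errC p * Real.sqrt ((Fintype.card ι : ℝ) /
          ((Finset.univ.filter (fun k => 0 < tauw d r a p w k)).card : ℝ))) →
      ∃ w' : Ω → ℝ, (∀ k, 0 ≤ w' k) ∧
        ((Finset.univ.filter (fun k => 0 < tauw d r a p w' k)).card : ℝ) <
          C * (Fintype.card ι : ℝ) ∧
        Close d a p w' (2 * δ₀) := by
  have hp0 : 0 < p := by linarith
  have hE := errC_pos hp
  have hn1 : (1:ℝ) ≤ (Fintype.card ι : ℝ) := by exact_mod_cast hn
  have hstep32 : 32 ≤ stepC p := by
    unfold stepC
    have h1 : 0 ≤ arrayConst (Lc p) (Kall p) (K1 p) := arrayConst_nonneg (Kall_nonneg hp) _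
    have h2 := Lc_ge_one hp
    have h3 : 0 ≤ (3 / 2) * (arrayConst (Lc p) (Kall p) (K1 p) / Lc p) := by positivity
    linarith
  have hdp : ∀ x y, 0 ≤ d x y ^ p := by
    intro x y
    by_cases hxy : x = y
    · subst hxy
      rw [h.self, Real.zero_rpow hp0.ne']
    · exact (Real.rpow_pos_of_pos (h.pos x y hxy) p).le
  induction N with
  | zero =>
    intro w e hw hN hclose he _
    refine ⟨w, hw, ?_, ?_⟩
    · have : (Finset.univ.filter (fun k => 0 < tauw d r a p w k)).card = 0 := by omega
      rw [this]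
      push_cast
      have : 0 < C := by linarith
      positivity
    · intro x y
      exact le_trans (hclose x y) (mul_le_mul_of_nonneg_right he (hdp x y))
  | succ N ih =>
    intro w e hw hN hclose he hinv
    by_cases hcase : ((Finset.univ.filter (fun k => 0 < tauw d r a p w k)).card : ℝ) <
        C * (Fintype.card ι : ℝ)
    · refine ⟨w, hw, hcase, ?_⟩
      intro x y
      exact le_trans (hclose x y) (mul_le_mul_of_nonneg_right he (hdp x y))
    · push Not at hcase
      have hinv' := hinv hcase
      set m : ℝ := ((Finset.univ.filter (fun k => 0 < tauw d r a p w k)).card : ℝ) with hm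
      set n : ℝ := (Fintype.card ι : ℝ) with hndef
      have hC0 : 0 < C := by linarith
      have hm0 : 0 < m := by
        have : 0 < C * n := by positivity
        linarith
      have hφ : 128 * errC p * Real.sqrt (n / m) ≤ δ₀ := by
        have h1 : Real.sqrt (n / m) ≤ δ₀ / (128 * errC p) := by
          apply Real.sqrt_le_iff.mpr
          refine ⟨by positivity, ?_⟩
          rw [div_le_iff₀ hm0]
          have h2 : (128 * errC p / δ₀) ^ 2 * (δ₀ / (128 * errC p)) ^ 2 = 1 := by
            field_simp
          have h3 : n = (128 * errC p / δ₀) ^ 2 * (δ₀ / (128 * errC p)) ^ 2 * n := by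
            rw [h2, one_mul]
          have h4 : (128 * errC p / δ₀) ^ 2 * n ≤ m := by
            refine le_trans ?_ hcase
            exact mul_le_mul_of_nonneg_right hC2 (by linarith)
          have h5 : 0 ≤ (δ₀ / (128 * errC p)) ^ 2 := by positivity
          calc n = (δ₀ / (128 * errC p)) ^ 2 * ((128 * errC p / δ₀) ^ 2 * n) := by
                have h7 : (δ₀ / (128 * errC p)) ^ 2 * ((128 * errC p / δ₀) ^ 2 * n) =
                    (128 * errC p / δ₀) ^ 2 * (δ₀ / (128 * errC p)) ^ 2 * n := by ring
                rw [h7]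
                exact h3
            _ ≤ _ := mul_le_mul_of_nonneg_left h4 h5
        have h6 : 0 < 128 * errC p := by positivity
        calc 128 * errC p * Real.sqrt (n / m) ≤ 128 * errC p * (δ₀ / (128 * errC p)) :=
              mul_le_mul_of_nonneg_left h1 h6.le
          _ = δ₀ := by field_simp
      have hφ0 : 0 ≤ Real.sqrt (n / m) := Real.sqrt_nonneg _
      have he1 : e ≤ 1 := by linarith
      have hF : ∀ x y, Fw a p w x y ≤ 2 * d x y ^ p := by
        intro x y
        have h1 := (abs_le.mp (hclose x y)).2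
        have h2 := mul_le_mul_of_nonneg_right he1 (hdp x y)
        linarith
      have hm2 : stepC p * n ≤ m :=
        le_trans (mul_le_mul_of_nonneg_right hC1 (by linarith)) hcase
      obtain ⟨w', hw', hm', herr⟩ := halving_step h hp a w hw hF hn hm2
      rw [← hm] at hm' herr
      set m' : ℝ := ((Finset.univ.filter (fun k => 0 < tauw d r a p w' k)).card : ℝ) with hm'def
      have hclose' : Close d a p w' (e + errC p * Real.sqrt (n / m)) := by
        intro x y
        have h1 := herr x y
        have h2 := hclose x y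
        have h3 : Fw a p w' x y - d x y ^ p =
            (Fw a p w' x y - Fw a p w x y) + (Fw a p w x y - d x y ^ p) := by ring
        rw [h3]
        refine le_trans (abs_add_le _ _) ?_
        have h4 : (e + errC p * Real.sqrt (n / m)) * d x y ^ p =
            errC p * Real.sqrt (n / m) * d x y ^ p + e * d x y ^ p := by ring
        rw [h4]
        linarith
      have hN' : (Finset.univ.filter (fun k => 0 < tauw d r a p w' k)).card ≤ N := by
        have h1 : m' < m := by linarith
        have h2 : (Finset.univ.filter (fun k => 0 < tauw d r a p w' k)).card <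
            (Finset.univ.filter (fun k => 0 < tauw d r a p w k)).card := by
          rw [hm'def, hm] at h1
          exact_mod_cast h1
        omega
      have hE0 : 0 ≤ errC p * Real.sqrt (n / m) := by positivity
      refine ih w' _ hw' hN' hclose' ?_ ?_
      · have h1 : errC p * Real.sqrt (n / m) ≤ 128 * errC p * Real.sqrt (n / m) := by
          nlinarith
        linarith
      · intro hcase'
        rw [← hm'def] at hcase'
        have hm'0 : 0 < m' := by
          have : 0 < C * n := by positivity
          linarith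
        have h1 : (129 / 128) * Real.sqrt (n / m) ≤ Real.sqrt (n / m') := by
          apply Real.le_sqrt_of_sq_le
          rw [mul_pow, Real.sq_sqrt (by positivity)]
          rw [le_div_iff₀ hm'0]
          have h2 : (129 / 128 : ℝ) ^ 2 * (n / m) * m' = n * ((129 / 128 : ℝ) ^ 2 * (m' / m)) := by
            field_simp
          rw [h2]
          have h3 : m' / m ≤ 63 / 64 := by
            rw [div_le_iff₀ hm0]
            exact hm'
          have h4 : (129 / 128 : ℝ) ^ 2 * (m' / m) ≤ 1 := by
            have : (129 / 128 : ℝ) ^ 2 * (63 / 64) ≤ 1 := by norm_num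
            have h5 : (129 / 128 : ℝ) ^ 2 * (m' / m) ≤ (129 / 128 : ℝ) ^ 2 * (63 / 64) :=
              mul_le_mul_of_nonneg_left h3 (by norm_num)
            linarith
          have h6 : 0 ≤ n := by linarith
          nlinarith
        have h7 : e + errC p * Real.sqrt (n / m) ≤ 129 * errC p * Real.sqrt (n / m) := by
          linarith
        have h8 : 129 * errC p * Real.sqrt (n / m) ≤ 128 * errC p * Real.sqrt (n / m') := by
          have h9 : 0 < 128 * errC p := by positivity
          have h10 := mul_le_mul_of_nonneg_left h1 h9.le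
          have h11 : 128 * errC p * ((129 / 128) * Real.sqrt (n / m)) =
              129 * errC p * Real.sqrt (n / m) := by ring
          linarith
        linarith

/-- The constant of the sparsification. -/
noncomputable def spC (p δ₀ : ℝ) : ℝ := stepC p + (128 * errC p / δ₀) ^ 2

lemma stepC_pos (hp : 1 ≤ p) : 0 < stepC p := by
  unfold stepC
  have h1 : 0 ≤ arrayConst (Lc p) (Kall p) (K1 p) := arrayConst_nonneg (Kall_nonneg hp) _
  have h2 := Lc_ge_one hp
  have h3 : 0 ≤ (3 / 2) * (arrayConst (Lc p) (Kall p) (K1 p) / Lc p) := by positivity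
  linarith

lemma spC_pos (hp : 1 ≤ p) (δ₀ : ℝ) : 0 < spC p δ₀ := by
  unfold spC
  have := stepC_pos hp
  positivity

/-- The sparsification theorem for a finite array. -/
theorem array_sparsify (h : RankedMetric d r) (hp : 1 ≤ p) (a : Ω → ι → ℝ)
    (hn : 1 ≤ Fintype.card ι) (hexact : ∀ x y, ∑ k, |a k x - a k y| ^ p = d x y ^ p)
    {δ₀ : ℝ} (hδ₀0 : 0 < δ₀) (hδ₀ : δ₀ ≤ 1 / 2) :
    ∃ w' : Ω → ℝ, (∀ k, 0 ≤ w' k) ∧
      ((Finset.univ.filter (fun k => 0 < tauw d r a p w' k)).card : ℝ) <
        spC p δ₀ * (Fintype.card ι : ℝ) ∧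
      Close d a p w' (2 * δ₀) := by
  have hsq : 0 ≤ (128 * errC p / δ₀) ^ 2 := sq_nonneg _
  have hst := stepC_pos hp
  refine iterate_halving h hp a hn hδ₀0 hδ₀ (C := spC p δ₀) (by unfold spC; linarith)
    (by unfold spC; linarith) _ (fun _ => 1) 0 (fun _ => zero_le_one) le_rfl ?_ (by linarith) ?_
  · intro x y
    have e1 : Fw a p (fun _ => 1) x y = d x y ^ p := by
      unfold Fw
      simp only [one_mul]
      exact hexact x y
    rw [e1]
    simp
  · intro hc
    have h0 := errC_pos hp
    positivity

omit [DecidableEq ι] in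
/-- A function of zero energy is constant. -/
lemma eq_of_Etot_eq_zero (h : RankedMetric d r) (hp : 1 ≤ p) (a : ι → ℝ)
    (hE : Etot d r p a = 0) (x y : ι) : a x = a y := by
  by_contra hne
  have hxy : x ≠ y := fun hc => hne (by rw [hc])
  have hp0 : 0 < p := by linarith
  have hpos : 0 < wt (r x y) * (|a x - a y| / d x y) ^ p := by
    apply mul_pos (wt_pos _)
    apply Real.rpow_pos_of_pos
    apply div_pos _ (h.pos x y hxy)
    exact abs_pos.mpr (sub_ne_zero.mpr hne)
  have h1 : wt (r x y) * (|a x - a y| / d x y) ^ p ≤ En d r p a x :=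
    Finset.single_le_sum (f := fun y => wt (r x y) * (|a x - a y| / d x y) ^ p)
      (fun z _ => term_nonneg h p a x z) (Finset.mem_univ y)
  have h2 : En d r p a x ≤ Etot d r p a :=
    Finset.single_le_sum (f := fun x => En d r p a x)
      (fun z _ => En_nonneg h p a z) (Finset.mem_univ x)
  linarith

omit [DecidableEq ι] in
/-- Only the samples with positive share contribute to the weighted sum. -/
lemma Fw_eq_sum_support (h : RankedMetric d r) (hp : 1 ≤ p) (a : Ω → ι → ℝ) {w : Ω → ℝ}
    (hw : ∀ k, 0 ≤ w k) (x y : ι) :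
    Fw a p w x y = ∑ k ∈ Finset.univ.filter (fun k => 0 < tauw d r a p w k),
      w k * |a k x - a k y| ^ p := by
  have hp0 : 0 < p := by linarith
  unfold Fw
  symm
  apply Finset.sum_subset (Finset.subset_univ _)
  intro k _ hk
  have h1 : ¬ 0 < tauw d r a p w k := fun hc => hk (Finset.mem_filter.mpr ⟨Finset.mem_univ _, hc⟩)
  have h2 : tauw d r a p w k = 0 := le_antisymm (not_lt.mp h1) (tauw_nonneg h a hw k)
  rcases mul_eq_zero.mp h2 with h3 | h3
  · rw [h3, zero_mul]
  · rw [eq_of_Etot_eq_zero h hp (a k) h3 x y]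
    simp [Real.zero_rpow hp0.ne']

end halve

end Vale.Agent.Lib.P249L
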