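import Mathlib
import Vale.Agent.Lib.P249L.Halve

open MeasureTheory
open scoped ENNReal

namespace Vale.Agent.Lib.P249L

open Vale.Agent.Lib.P249

variable {Ω : Type*} [MeasurableSpace Ω] {μ : Measure Ω} {p : ℝ≥0∞}

/-- The constant of the linear bound on the dimension. -/
noncomputable def linC (q D : ℝ) : ℝ := spC q (((D - 1) / (D + 1)) / 6)

/-- Every finite subset of `L_p` embeds with distortion at most `D` into `ℓ_p^m`,
where `m` is at most a constant multiple of the number of points. -/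
theorem linear_embedding [Fact (1 ≤ p)] (hpt : p ≠ ∞) {D : ℝ} (hD : 1 < D)
    (n : ℕ) (hn : 2 ≤ n) (X : Finset (Lp ℝ p μ)) (hX : X.card = n) :
    ∃ (m : ℕ) (f : X → PiLp p (fun _ : Fin m => ℝ)) (s : ℝ),
      (m : ℝ) ≤ linC p.toReal D * n ∧
      0 < s ∧ ∀ x y : X,
        s * ‖(x : Lp ℝ p μ) - y‖ ≤ ‖f x - f y‖ ∧ ‖f x - f y‖ ≤ D * s * ‖(x : Lp ℝ p μ) - y‖ := by
  classical
  have hp1' : (1 : ℝ≥0∞) ≤ p := Fact.out
  set q := p.toReal with hq
  have hq1 : 1 ≤ q := by
    have := ENNReal.toReal_mono hpt hp1'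
    simpa using this
  have hq0 : 0 < q := by linarith
  set η := (D - 1) / (D + 1) with hη
  have hD0 : 0 < D + 1 := by linarith
  have hη0 : 0 < η := div_pos (by linarith) hD0
  have hη1 : η < 1 := by
    rw [hη, div_lt_one hD0]; linarith
  have hηD : 1 + η = (1 - η) * D := by
    rw [hη]; field_simp; ring
  have hη2 : 0 < 1 - η := by linarith
  set θ := η / 3 with hθ
  have hθ0 : 0 < θ := by positivity
  have hθ1 : θ < 1 := by rw [hθ]; linarith
  obtain ⟨m₀, f₀, -, hf₀⟩ := embedding_core (μ := μ) hpt hθ0 hθ1 n hn X hX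
  have hcard : Fintype.card X = n := by simp [hX]
  let d : X → X → ℝ := fun x y => ‖f₀ x - f₀ y‖
  have hdsymm : ∀ x y, d x y = d y x := fun x y => norm_sub_rev _ _
  have hdtri : ∀ x y z, d x z ≤ d x y + d y z := fun x y z =>
    norm_sub_le_norm_sub_add_norm_sub _ _ _
  have hnpos : ∀ x y : X, x ≠ y → 0 < ‖(x : Lp ℝ p μ) - y‖ := fun x y hxy =>
    norm_pos_iff.mpr (sub_ne_zero.mpr (fun h => hxy (Subtype.ext h)))
  have hdpos : ∀ x y, x ≠ y → 0 < d x y := by
    intro x y hxy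
    have h1 := (hf₀ x y).1
    have h2 : 0 < ‖(x : Lp ℝ p μ) - y‖ ^ q := Real.rpow_pos_of_pos (hnpos x y hxy) q
    have h3 : 0 < ‖f₀ x - f₀ y‖ ^ q := lt_of_lt_of_le (mul_pos (by linarith) h2) h1
    by_contra hc
    have h4 : ‖f₀ x - f₀ y‖ = 0 := le_antisymm (not_lt.mp hc) (norm_nonneg _)
    rw [h4, Real.zero_rpow hq0.ne'] at h3
    exact lt_irrefl _ h3
  have hdself : ∀ x, d x x = 0 := fun x => by simp [d]
  obtain ⟨r, hr⟩ := exists_rank d hdsymm hdtri hdpos hdself
  let a : Fin m₀ → X → ℝ := fun k x => (f₀ x).ofLp k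
  have hexact : ∀ x y, ∑ k, |a k x - a k y| ^ q = d x y ^ q := by
    intro x y
    simp only [d]
    rw [PiLp.norm_eq_sum (by exact hq0), ← Real.rpow_mul (by positivity)]
    rw [one_div, inv_mul_cancel₀ hq0.ne', Real.rpow_one]
    apply Finset.sum_congr rfl
    intro k _
    rw [PiLp.sub_apply, Real.norm_eq_abs]
  have hn1 : 1 ≤ Fintype.card X := by omega
  have hδ0 : 0 < η / 6 := by positivity
  have hδ1 : η / 6 ≤ 1 / 2 := by linarith
  obtain ⟨w, hw, hsupp, hclose⟩ := array_sparsify hr hq1 a hn1 hexact hδ0 hδ1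
  set K := Finset.univ.filter (fun k => 0 < tauw d r a q w k) with hK
  let e := K.equivFin
  let g : X → PiLp p (fun _ : Fin K.card => ℝ) := fun x =>
    WithLp.toLp p (fun t => (w (e.symm t).1) ^ (1 / q) * a (e.symm t).1 x)
  have hgnorm : ∀ x y, ‖g x - g y‖ ^ q = Fw a q w x y := by
    intro x y
    rw [Fw_eq_sum_support hr hq1 a hw x y]
    rw [PiLp.norm_eq_sum (by exact hq0), ← Real.rpow_mul (by positivity)]
    rw [one_div, inv_mul_cancel₀ hq0.ne', Real.rpow_one]
    rw [← Finset.sum_coe_sort K]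
    rw [← Equiv.sum_comp e.symm]
    apply Finset.sum_congr rfl
    intro t _
    have hw0 := hw (e.symm t).1
    have e1 : (g x - g y).ofLp t = (w (e.symm t).1) ^ (1 / q) *
        (a (e.symm t).1 x - a (e.symm t).1 y) := by
      rw [PiLp.sub_apply]
      simp only [g]
      ring
    rw [e1, Real.norm_eq_abs, abs_mul, abs_of_nonneg (by positivity),
      Real.mul_rpow (by positivity) (abs_nonneg _), ← Real.rpow_mul hw0,
      one_div, inv_mul_cancel₀ hq0.ne', Real.rpow_one]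
  have hbound : ∀ x y : X,
      (1 - η) * ‖(x : Lp ℝ p μ) - y‖ ^ q ≤ ‖g x - g y‖ ^ q ∧
      ‖g x - g y‖ ^ q ≤ (1 + η) * ‖(x : Lp ℝ p μ) - y‖ ^ q := by
    intro x y
    have hN : 0 ≤ ‖(x : Lp ℝ p μ) - y‖ ^ q := by positivity
    obtain ⟨h1, h2⟩ := hf₀ x y
    have h3 := abs_le.mp (hclose x y)
    rw [← hgnorm] at h3
    have e2 : 2 * (η / 6) = θ := by rw [hθ]; ring
    rw [e2] at h3
    have h4 : d x y ^ q = ‖f₀ x - f₀ y‖ ^ q := rfl
    rw [h4] at h3
    set A := ‖(x : Lp ℝ p μ) - y‖ ^ q with hA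
    set B := ‖f₀ x - f₀ y‖ ^ q with hB
    set G := ‖g x - g y‖ ^ q with hG
    have h5 : (1 - θ) * ((1 - θ) * A) ≤ (1 - θ) * B :=
      mul_le_mul_of_nonneg_left h1 (by linarith)
    have h6 : (1 + θ) * B ≤ (1 + θ) * ((1 + θ) * A) :=
      mul_le_mul_of_nonneg_left h2 (by linarith)
    have hηθ : η = 3 * θ := by rw [hθ]; ring
    constructor
    · have h7 : (1 - η) ≤ (1 - θ) * (1 - θ) := by
        rw [hηθ]
        nlinarith
      have h8 : (1 - η) * A ≤ (1 - θ) * ((1 - θ) * A) := by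
        calc (1 - η) * A ≤ ((1 - θ) * (1 - θ)) * A := mul_le_mul_of_nonneg_right h7 hN
          _ = _ := by ring
      linarith [h3.1]
    · have h7 : (1 + θ) * (1 + θ) ≤ 1 + η := by
        rw [hηθ]
        nlinarith
      have h8 : (1 + θ) * ((1 + θ) * A) ≤ (1 + η) * A := by
        calc (1 + θ) * ((1 + θ) * A) = ((1 + θ) * (1 + θ)) * A := by ring
          _ ≤ _ := mul_le_mul_of_nonneg_right h7 hN
      linarith [h3.2]
  refine ⟨K.card, g, (1 - η) ^ (1 / q), ?_, by positivity, ?_⟩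
  · rw [hcard] at hsupp
    exact hsupp.le
  intro x y
  obtain ⟨h1, h2⟩ := hbound x y
  have root : ∀ {a b : ℝ}, 0 ≤ a → 0 ≤ b → a ^ q ≤ b ^ q → a ≤ b := by
    intro a b ha hb hab
    exact (Real.rpow_le_rpow_iff ha hb hq0).mp hab
  set a' := ‖g x - g y‖ with ha'
  set b := ‖(x : Lp ℝ p μ) - y‖ with hb
  have ha0 : 0 ≤ a' := norm_nonneg _
  have hb0 : 0 ≤ b := norm_nonneg _
  have hs : ((1 - η) ^ (1 / q)) ^ q = 1 - η := by
    rw [← Real.rpow_mul hη2.le, one_div, inv_mul_cancel₀ hq0.ne', Real.rpow_one]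
  constructor
  · apply root (by positivity) ha0
    rw [Real.mul_rpow (by positivity) hb0, hs]
    exact h1
  · have hDroot : D ^ (1 / q) ≤ D := by
      calc D ^ (1 / q) ≤ D ^ (1 : ℝ) :=
            Real.rpow_le_rpow_of_exponent_le hD.le (by
              rw [div_le_one hq0]; exact hq1)
        _ = D := Real.rpow_one D
    have hstep : a' ≤ D ^ (1 / q) * (1 - η) ^ (1 / q) * b := by
      apply root ha0 (by positivity)
      rw [Real.mul_rpow (by positivity) hb0, Real.mul_rpow (by positivity) (by positivity), hs,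
        ← Real.rpow_mul (by linarith), one_div, inv_mul_cancel₀ hq0.ne', Real.rpow_one]
      calc a' ^ q ≤ (1 + η) * b ^ q := h2
        _ = D * (1 - η) * b ^ q := by rw [hηD]; ring
    refine le_trans hstep ?_
    apply mul_le_mul_of_nonneg_right _ hb0
    exact mul_le_mul_of_nonneg_right hDroot (by positivity)

end Vale.Agent.Lib.P249L
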